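import Vale.Agent.P204.Defs

/-!
P204 Alg1: identities for the wedge of two-forms on `ℝ⁴`.
Plan: first `alt_expand_apply` (expand `u = ∑ u a • e a`, `EuclideanSpace` basis:
`(EuclideanSpace.basisFun (Fin 4) ℝ).sum_repr`, `Fin.sum_univ_four`, use `IsAlt` for the diagonal
and lower entries). Then every identity is `simp only [WL_apply, det4, bv, wedge1_apply, ...]`,
rewrite with `alt_expand_apply`, and `ring`. For `WL_pull` apply `WL_det` to `A (e i)` and show
`det4 (A (e 0)) .. (A (e 3)) = det A` via `LinearMap.det_toMatrix` of `basisFun`,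
`Matrix.det_succ_row_zero`, `Fin.sum_univ_succ`.
-/

namespace Vale.Agent.P204

open scoped ContDiff Topology
open Metric MeasureTheory Set Filter

noncomputable section

theorem inner_e (a : Fin 4) (u : E) : inner ℝ (e a) u = u a := by
  simp [e, EuclideanSpace.inner_single_left]

theorem norm_e (a : Fin 4) : ‖e a‖ = 1 := by simp [e]

theorem alg1_expand (u : E) : u = u 0 • e 0 + u 1 • e 1 + u 2 • e 2 + u 3 • e 3 := by
  ext i
  fin_cases i <;> simp [e]

theorem alg1_ef (a c : Fin 4) (u v : E) : ef a c u v = u a * v c - u c * v a := by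
  simp only [ef, bv, wedge1_apply, innerSL_apply_apply, inner_e]

theorem alg1_bv (u v : E) (a c : Fin 4) : bv u v (e a) (e c) = u a * v c - v a * u c := by
  simp only [bv, wedge1_apply, innerSL_apply_apply, real_inner_comm (e _), inner_e]

theorem alg1_hs (b : Bil) : hs b = b (e 2) (e 3) • ef 0 1 - b (e 1) (e 3) • ef 0 2 +
    b (e 1) (e 2) • ef 0 3 + b (e 0) (e 3) • ef 1 2 - b (e 0) (e 2) • ef 1 3 +
    b (e 0) (e 1) • ef 2 3 := by
  simp only [hs, add_apply, sub_apply, ContinuousLinearMap.smulRight_apply, ev_apply]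

theorem alg1_hs_apply (b : Bil) (u v : E) : hs b u v =
    b (e 2) (e 3) * (u 0 * v 1 - u 1 * v 0) - b (e 1) (e 3) * (u 0 * v 2 - u 2 * v 0) +
    b (e 1) (e 2) * (u 0 * v 3 - u 3 * v 0) + b (e 0) (e 3) * (u 1 * v 2 - u 2 * v 1) -
    b (e 0) (e 2) * (u 1 * v 3 - u 3 * v 1) + b (e 0) (e 1) * (u 2 * v 3 - u 3 * v 2) := by
  simp only [alg1_hs, add_apply, sub_apply, smul_apply, smul_eq_mul, alg1_ef]

theorem alg1_WL_hs (α β : Bil) : WL α (hs β) =
    α (e 0) (e 1) * β (e 0) (e 1) + α (e 0) (e 2) * β (e 0) (e 2) + α (e 0) (e 3) * β (e 0) (e 3) +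
    α (e 1) (e 2) * β (e 1) (e 2) + α (e 1) (e 3) * β (e 1) (e 3) +
    α (e 2) (e 3) * β (e 2) (e 3) := by
  simp only [WL_apply, alg1_hs_apply]
  simp [e]

theorem alg1_self {b : Bil} (hb : IsAlt b) (u : E) : b u u = 0 := by linarith [hb u u]

theorem alg1_le (b : Bil) (a c : Fin 4) : |b (e a) (e c)| ≤ ‖b‖ := by
  simpa only [norm_e, mul_one, Real.norm_eq_abs] using b.le_opNorm₂ (e a) (e c)

theorem alt_expand_apply {b : Bil} (hb : IsAlt b) (u v : E) : b u v =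
    b (e 0) (e 1) * (u 0 * v 1 - u 1 * v 0) + b (e 0) (e 2) * (u 0 * v 2 - u 2 * v 0) +
    b (e 0) (e 3) * (u 0 * v 3 - u 3 * v 0) + b (e 1) (e 2) * (u 1 * v 2 - u 2 * v 1) +
    b (e 1) (e 3) * (u 1 * v 3 - u 3 * v 1) + b (e 2) (e 3) * (u 2 * v 3 - u 3 * v 2) := by
  conv_lhs => rw [alg1_expand u, alg1_expand v]
  simp only [map_add, map_smul, add_apply, smul_apply, smul_eq_mul, alg1_self hb]
  rw [hb (e 1) (e 0), hb (e 2) (e 0), hb (e 3) (e 0), hb (e 2) (e 1), hb (e 3) (e 1),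
    hb (e 3) (e 2)]
  ring

theorem alt_expand {b : Bil} (hb : IsAlt b) :
    b = ∑ a : Fin 4, ∑ c : Fin 4, (1 / 2 * b (e a) (e c)) • ef a c := by
  ext u v
  simp only [Fin.sum_univ_four, add_apply, smul_apply, smul_eq_mul, alg1_ef, alg1_self hb]
  rw [alt_expand_apply hb, hb (e 1) (e 0), hb (e 2) (e 0), hb (e 3) (e 0), hb (e 2) (e 1),
    hb (e 3) (e 1), hb (e 3) (e 2)]
  ring

theorem wedge1_alt (α β : Cov) : IsAlt (wedge1 α β) := fun u v => by
  simp only [wedge1_apply]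
  ring

theorem bv_alt (u v : E) : IsAlt (bv u v) := wedge1_alt _ _

theorem hs_alt (b : Bil) : IsAlt (hs b) := fun u v => by
  simp only [alg1_hs_apply]
  ring

theorem IsAlt.pull {b : Bil} (hb : IsAlt b) (A : End) : IsAlt (pullL A b) := fun u v => by
  simp only [pullL_apply]
  exact hb _ _

theorem IsAlt.pm {b : Bil} (hb : IsAlt b) (J : End) : IsAlt (pm J b) := fun u v => by
  simp only [pm_apply]
  rw [hb u v, hb (J u)]
  ring

theorem IsAlt.pp {b : Bil} (hb : IsAlt b) (J : End) : IsAlt (pp J b) := fun u v => by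
  simp only [pp_apply]
  rw [hb u v, hb (J u)]
  ring

theorem IsAlt.smul {b : Bil} (hb : IsAlt b) (c : ℝ) : IsAlt (c • b) := fun u v => by
  simp only [smul_apply, smul_eq_mul]
  rw [hb u v]
  ring

theorem d1_alt (γ : E → Cov) (p : E) : IsAlt (d1 γ p) := fun u v => by
  simp only [d1_apply]
  ring

theorem pullL_comp (A B : End) (b : Bil) : pullL A (pullL B b) = pullL (B.comp A) b := by
  ext u v
  simp only [pullL_apply, ContinuousLinearMap.comp_apply]

theorem pullL_id (b : Bil) : pullL (ContinuousLinearMap.id ℝ E) b = b := by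
  ext u v
  simp only [pullL_apply, ContinuousLinearMap.id_apply]

theorem norm_pullL_le (A : End) : ‖pullL A‖ ≤ ‖A‖ ^ 2 := by
  refine ContinuousLinearMap.opNorm_le_bound _ (by positivity) fun b =>
    ContinuousLinearMap.opNorm_le_bound₂ _ (by positivity) fun u v => ?_
  rw [pullL_apply]
  calc _ ≤ ‖b‖ * ‖A u‖ * ‖A v‖ := b.le_opNorm₂ _ _
    _ ≤ ‖b‖ * (‖A‖ * ‖u‖) * (‖A‖ * ‖v‖) := by gcongr <;> exact A.le_opNorm _
    _ = _ := by ring

theorem WL_symm (α β : Bil) : WL α β = WL β α := by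
  simp only [WL_apply]
  ring

theorem abs_WL_le (α β : Bil) : |WL α β| ≤ 6 * ‖α‖ * ‖β‖ := by
  have h : ∀ a c a' c', -(‖α‖ * ‖β‖) ≤ α (e a) (e c) * β (e a') (e c') ∧
      α (e a) (e c) * β (e a') (e c') ≤ ‖α‖ * ‖β‖ := fun a c a' c' => abs_le.1 (by
    rw [abs_mul]
    exact mul_le_mul (alg1_le ..) (alg1_le ..) (abs_nonneg _) (norm_nonneg _))
  rw [WL_apply, abs_le]
  constructor <;>
    linarith [h 0 1 2 3, h 0 2 1 3, h 0 3 1 2, h 1 2 0 3, h 1 3 0 2, h 2 3 0 1]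

theorem WL_det {α β : Bil} (hα : IsAlt α) (hβ : IsAlt β) (a b c d : E) :
    WL α β * det4 a b c d = α a b * β c d - α a c * β b d + α a d * β b c + α b c * β a d -
      α b d * β a c + α c d * β a b := by
  rw [alt_expand_apply hα a b, alt_expand_apply hα a c, alt_expand_apply hα a d,
    alt_expand_apply hα b c, alt_expand_apply hα b d, alt_expand_apply hα c d,
    alt_expand_apply hβ a b, alt_expand_apply hβ a c, alt_expand_apply hβ a d,
    alt_expand_apply hβ b c, alt_expand_apply hβ b d, alt_expand_apply hβ c d]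
  simp only [det4, WL_apply, alg1_bv]
  ring

theorem alg1_det (A : End) : det4 (A (e 0)) (A (e 1)) (A (e 2)) (A (e 3)) = A.det := by
  have h : ∀ i j, LinearMap.toMatrix (EuclideanSpace.basisFun (Fin 4) ℝ).toBasis
      (EuclideanSpace.basisFun (Fin 4) ℝ).toBasis (A : E →ₗ[ℝ] E) i j = A (e j) i := fun i j => by
    simp [LinearMap.toMatrix_apply, e]
  rw [ContinuousLinearMap.det,
    ← LinearMap.det_toMatrix (EuclideanSpace.basisFun (Fin 4) ℝ).toBasis,
    Matrix.det_succ_row_zero]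
  simp only [det4, WL_apply, alg1_bv, Fin.sum_univ_four, Matrix.det_fin_three,
    Matrix.submatrix_apply, h]
  simp [Fin.succAbove]
  ring

theorem WL_pull {α β : Bil} (hα : IsAlt α) (hβ : IsAlt β) (A : End) :
    WL (pullL A α) (pullL A β) = A.det * WL α β := by
  rw [mul_comm, ← alg1_det, WL_det hα hβ, WL_apply]
  simp only [pullL_apply]

theorem WL_hs_bv {η : Bil} (hη : IsAlt η) (u v : E) : WL η (hs (bv u v)) = η u v := by
  rw [alt_expand_apply hη u v, alg1_WL_hs]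
  simp only [alg1_bv]
  ring

theorem hs_bv_apply (u₁ u₂ a b : E) : hs (bv u₁ u₂) a b = det4 u₁ u₂ a b := by
  simp only [alg1_hs_apply, det4, WL_apply, alg1_bv]
  ring

theorem alg1_cs (a1 a2 a3 a4 a5 a6 b1 b2 b3 b4 b5 b6 : ℝ) :
    (a1 * b1 + a2 * b2 + a3 * b3 + a4 * b4 + a5 * b5 + a6 * b6) ^ 2 ≤
      (a1 * a1 + a2 * a2 + a3 * a3 + a4 * a4 + a5 * a5 + a6 * a6) *
        (b1 ^ 2 + b2 ^ 2 + b3 ^ 2 + b4 ^ 2 + b5 ^ 2 + b6 ^ 2) := by
  simpa [Fin.sum_univ_succ, ← sq, add_assoc] using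
    Finset.sum_mul_sq_le_sq_mul_sq Finset.univ ![a1, a2, a3, a4, a5, a6] ![b1, b2, b3, b4, b5, b6]

theorem norm_sq_le_WL_hs {η : Bil} (hη : IsAlt η) : ‖η‖ ^ 2 ≤ 24 * WL η (hs η) := by
  have h0 : 0 ≤ WL η (hs η) := by
    simp only [alg1_WL_hs, ← sq]
    positivity
  have h1 : ‖η‖ ≤ √(WL η (hs η)) := by
    refine ContinuousLinearMap.opNorm_le_bound₂ _ (by positivity) fun u v => ?_
    rw [Real.norm_eq_abs, ← sq_le_sq₀ (abs_nonneg _) (by positivity), sq_abs, mul_pow, mul_pow,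
      Real.sq_sqrt h0, alt_expand_apply hη, mul_assoc]
    refine (alg1_cs ..).trans ?_
    rw [← alg1_WL_hs]
    refine mul_le_mul_of_nonneg_left ?_ h0
    simp only [EuclideanSpace.real_norm_sq_eq, Fin.sum_univ_four]
    linarith [sq_nonneg (u 0 * v 0 + u 1 * v 1 + u 2 * v 2 + u 3 * v 3)]
  have h2 := pow_le_pow_left₀ (norm_nonneg _) h1 2
  rw [Real.sq_sqrt h0] at h2
  linarith

theorem alg1_wedge (α β : Cov) : ‖wedge1 α β‖ ≤ 2 * ‖α‖ * ‖β‖ := by
  refine (norm_sub_le _ _).trans (le_of_eq ?_)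
  simp only [ContinuousLinearMap.norm_smulRight_apply]
  ring

theorem alg1_norm_bv (u v : E) : ‖bv u v‖ ≤ 2 * ‖u‖ * ‖v‖ := by
  simpa only [bv, innerSL_apply_norm] using alg1_wedge (innerSL ℝ u) (innerSL ℝ v)

theorem norm_hs_le (η : Bil) : ‖hs η‖ ≤ 12 * ‖η‖ := by
  have h : ∀ a c a' c', ‖η (e a) (e c) • ef a' c'‖ ≤ ‖η‖ * 2 := fun a c a' c' => by
    rw [norm_smul]
    exact mul_le_mul (alg1_le ..)
      (by simpa only [ef, norm_e, mul_one] using alg1_norm_bv (e a') (e c')) (norm_nonneg _)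
      (norm_nonneg _)
  rw [alg1_hs]
  refine (norm_add_le_of_le (norm_sub_le_of_le (norm_add_le_of_le (norm_add_le_of_le
    (norm_sub_le_of_le (h ..) (h ..)) (h ..)) (h ..)) (h ..)) (h ..)).trans_eq (by ring)

theorem norm_wedge1_le (α β : Cov) : ‖wedge1 α β‖ ≤ 2 * ‖α‖ * ‖β‖ := alg1_wedge α β

theorem abs_det4_le (a b c d : E) : |det4 a b c d| ≤ 24 * (‖a‖ * ‖b‖ * ‖c‖ * ‖d‖) :=
  calc _ ≤ 6 * ‖bv a b‖ * ‖bv c d‖ := abs_WL_le _ _
    _ ≤ 6 * (2 * ‖a‖ * ‖b‖) * (2 * ‖c‖ * ‖d‖) := by gcongr <;> exact alg1_norm_bv _ _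
    _ = _ := by ring


end

end Vale.Agent.P204
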