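import Vale.Agent.P204.Alg1

/-!
P204 Alg2: Hermitian linear algebra.
Plan: `g (J w) w = 0`, `g (J u) v = - g u (J v)` from `sq`, `inv`, `symm`. For `w ≠ 0` put
`z' = z - (g w z / g w w) w - (g (J w) z / g w w) J w`; then `Del w z = g w w * g z' z'` and the
polarised expression equals `g w w * g z' v'`; Cauchy-Schwarz for the positive form `g`
(discriminant, `discrim_le_zero`). For `WL_pm_pp`: `pullL J (om g J) = om g J`, so `WL_pull` gives
`det J = 1`; then `WL (pm α) (pp β) = WL (pullL J ..) (pullL J ..) = - WL (pm α) (pp β)`.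
For `WL_anti_pos`: `WL_det` at `(w, J w, w', J w')` gives
`WL σ σ * det4 = 2 (σ w w' ^ 2 + σ w (J w') ^ 2)` and `WL om om * det4 = 2 Del w w'`; there are
`w, w'` with `Del w w' > 0` (dimension 4: a vector outside the span of `w, J w`), hence
`WL σ σ ≥ 0`, and `σ w w' ^ 2 ≤ WL σ σ * 24 C² / 2` for unit `w, w'`.
-/

namespace Vale.Agent.P204

open scoped ContDiff Topology
open Metric MeasureTheory Set Filter

noncomputable section

theorem Herm.skew_Alg2 {g : Bil} {J : End} {c C : ℝ} (h : Herm g J c C) (u v : E) :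
    g (J u) v = -g u (J v) := by
  rw [← h.inv (J u) v, h.sq, map_neg, neg_apply]

theorem Herm.zero_Alg2 {g : Bil} {J : End} {c C : ℝ} (h : Herm g J c C) (w : E) :
    g (J w) w = 0 := by
  have a := h.skew_Alg2 w w
  rw [h.symm w (J w)] at a
  linarith

theorem Herm.nn_Alg2 {g : Bil} {J : End} {c C : ℝ} (h : Herm g J c C) (w : E) : 0 ≤ g w w :=
  (mul_nonneg h.cpos.le (sq_nonneg _)).trans (h.pos w)

theorem Herm.le_Alg2 {g : Bil} {J : End} {c C : ℝ} (h : Herm g J c C) (w : E) :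
    g w w ≤ C * ‖w‖ ^ 2 := by
  have a := (le_abs_self _).trans (g.le_opNorm₂ w w)
  have b := mul_le_mul_of_nonneg_right h.gle (sq_nonneg ‖w‖)
  linarith

theorem om_apply_Alg2 (g : Bil) (J : End) (u v : E) : om g J u v = g (J u) v := rfl

theorem Herm.Del_nonneg {g : Bil} {J : End} {c C : ℝ} (h : Herm g J c C) (w z : E) :
    0 ≤ Del g J w z := by
  by_cases hw : w = 0
  · simp [Del, hw]
  have a : 0 < g w w := (mul_pos h.cpos (pow_pos (norm_pos_iff.2 hw) 2)).trans_le (h.pos w)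
  have b := h.nn_Alg2 (g w w • z - g w z • w - g (J w) z • J w)
  simp only [map_sub, map_smul, sub_apply, smul_apply, smul_eq_mul, h.inv, h.zero_Alg2,
    h.symm w (J w), h.symm z w, h.symm z (J w)] at b
  refine nonneg_of_mul_nonneg_right (b.trans (le_of_eq ?_)) a
  unfold Del
  ring

theorem Herm.Del_symm {g : Bil} {J : End} {c C : ℝ} (h : Herm g J c C) (w z : E) :
    Del g J w z = Del g J z w := by
  unfold Del
  rw [h.skew_Alg2 w z, h.symm w (J z), h.symm w z]
  ring

theorem Herm.Del_J {g : Bil} {J : End} {c C : ℝ} (h : Herm g J c C) (w z : E) :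
    Del g J w (J z) = Del g J w z := by
  unfold Del
  rw [h.inv, h.inv, h.skew_Alg2 w z]
  ring

theorem Herm.Del_le {g : Bil} {J : End} {c C : ℝ} (h : Herm g J c C) (w z : E) :
    Del g J w z ≤ C ^ 2 * ‖w‖ ^ 2 * ‖z‖ ^ 2 := by
  have a := mul_le_mul (h.le_Alg2 w) (h.le_Alg2 z) (h.nn_Alg2 z) ((h.nn_Alg2 w).trans (h.le_Alg2 w))
  unfold Del
  nlinarith [sq_nonneg (g w z), sq_nonneg (g (J w) z)]

theorem Herm.Del_cs {g : Bil} {J : End} {c C : ℝ} (h : Herm g J c C) (w z v : E) :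
    |g w w * g z v - g w z * g w v - g (J w) z * g (J w) v| ≤
      √(Del g J w z) * √(Del g J w v) := by
  rw [← Real.sqrt_mul (h.Del_nonneg w z)]
  refine Real.abs_le_sqrt ?_
  have a := discrim_le_zero (a := Del g J w v)
    (b := 2 * (g w w * g z v - g w z * g w v - g (J w) z * g (J w) v)) (c := Del g J w z) fun t => by
      refine (h.Del_nonneg w (z + t • v)).trans (le_of_eq ?_)
      simp only [Del, map_add, map_smul, add_apply, smul_apply, smul_eq_mul, h.symm v z]
      ring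
  unfold discrim at a
  linarith

theorem Herm.om_alt {g : Bil} {J : End} {c C : ℝ} (h : Herm g J c C) : IsAlt (om g J) := fun u v => by
  rw [om_apply_Alg2, om_apply_Alg2, h.skew_Alg2 u v, h.symm u]

theorem Herm.det4_eq {g : Bil} {J : End} {c C : ℝ} (h : Herm g J c C) (w w' : E) :
    WL (om g J) (om g J) * det4 w (J w) w' (J w') = 2 * Del g J w w' := by
  rw [WL_det h.om_alt h.om_alt]
  simp only [om_apply_Alg2, h.inv, h.sq, map_neg, neg_apply, Del]
  rw [h.skew_Alg2 w w']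
  ring

theorem om_gOf {Ω : Bil} {J : End} (hΩ : IsAlt Ω) (hJ : ∀ v, J (J v) = -v) :
    om (gOf Ω J) J = pp J Ω := by
  ext u v
  rw [om_apply_Alg2, gOf_apply, pp_apply, hJ, map_neg, hΩ v u]
  ring

theorem gOf_symm (Ω : Bil) (J : End) (u v : E) : gOf Ω J u v = gOf Ω J v u := by
  rw [gOf_apply, gOf_apply, add_comm]

theorem gOf_inv {Ω : Bil} {J : End} (hΩ : IsAlt Ω) (hJ : ∀ v, J (J v) = -v) (u v : E) :
    gOf Ω J (J u) (J v) = gOf Ω J u v := by
  rw [gOf_apply, gOf_apply, hJ, hJ, map_neg, map_neg, hΩ (J u) v, hΩ (J v) u]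
  ring

theorem pm_pm {J : End} (hJ : ∀ v, J (J v) = -v) (b : Bil) : pm J (pm J b) = pm J b := by
  ext u v
  simp only [pm_apply, hJ, map_neg, neg_apply]
  ring

theorem pm_pp {J : End} (hJ : ∀ v, J (J v) = -v) (b : Bil) : pm J (pp J b) = 0 := by
  ext u v
  simp only [pm_apply, pp_apply, hJ, map_neg, neg_apply, zero_apply]
  ring

theorem pm_line {J : End} (hJ : ∀ v, J (J v) = -v) {b : Bil} (hb : IsAlt b) (w : E) :
    pm J b w (J w) = 0 := by
  rw [pm_apply, hJ, map_neg, hb (J w) w]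
  ring

theorem norm_pm_le (J : End) : ‖pm J‖ ≤ 1 + ‖J‖ ^ 2 := by
  have a := norm_sub_le (ContinuousLinearMap.id ℝ Bil) (pullL J)
  have b := ContinuousLinearMap.norm_id_le (𝕜 := ℝ) (E := Bil)
  have c := norm_pullL_le J
  rw [pm, norm_smul, Real.norm_of_nonneg (by norm_num)]
  nlinarith [sq_nonneg ‖J‖]

theorem norm_pp_le (J : End) : ‖pp J‖ ≤ 1 + ‖J‖ ^ 2 := by
  have a := norm_add_le (ContinuousLinearMap.id ℝ Bil) (pullL J)
  have b := ContinuousLinearMap.norm_id_le (𝕜 := ℝ) (E := Bil)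
  have c := norm_pullL_le J
  rw [pp, norm_smul, Real.norm_of_nonneg (by norm_num)]
  nlinarith [sq_nonneg ‖J‖]

theorem Herm.WL_pm_pp {g : Bil} {J : End} {c C : ℝ} (h : Herm g J c C)
    (ho : 0 < WL (om g J) (om g J)) {α β : Bil} (hα : IsAlt α) (hβ : IsAlt β) :
    WL (pm J α) (pp J β) = 0 := by
  have e1 : pullL J (om g J) = om g J := by
    ext u v
    rw [pullL_apply, om_apply_Alg2, om_apply_Alg2, h.inv]
  have e2 : pullL J (pm J α) = -pm J α := by
    ext u v
    simp only [pullL_apply, pm_apply, h.sq, map_neg, neg_apply]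
    ring
  have e3 : pullL J (pp J β) = pp J β := by
    ext u v
    simp only [pullL_apply, pp_apply, h.sq, map_neg, neg_apply]
    ring
  have a := WL_pull h.om_alt h.om_alt J
  have b := WL_pull (hα.pm J) (hβ.pp J) J
  rw [e1] at a
  have d : J.det = 1 := mul_right_cancel₀ ho.ne' (by rw [← a, one_mul])
  rw [e2, e3, d, map_neg, neg_apply] at b
  linarith

theorem WL_anti_pos (c C : ℝ) : ∃ κ > 0, ∀ (g : Bil) (J : End), Herm g J c C →
    0 < WL (om g J) (om g J) → ∀ σ : Bil, IsAlt σ → pm J σ = σ → κ * ‖σ‖ ^ 2 ≤ WL σ σ := by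
  refine ⟨1 / (12 * C ^ 2 + 1), by positivity, fun g J h ho σ hσ hp => ?_⟩
  have s1 : ∀ u v, σ (J u) (J v) = -σ u v := fun u v => by
    have a := pm_apply J σ u v
    rw [hp] at a
    linarith
  have s2 : ∀ w, σ w (J w) = 0 := fun w => by
    rw [← hp]
    exact pm_line h.sq hσ w
  have s3 : ∀ u v, σ (J u) v = σ u (J v) := fun u v => by
    have a := s1 (J u) v
    rw [h.sq, map_neg, neg_apply] at a
    linarith
  have k1 : ∀ w w', WL σ σ * det4 w (J w) w' (J w') = 2 * (σ w w' ^ 2 + σ w (J w') ^ 2) :=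
    fun w w' => by
      rw [WL_det hσ hσ, s2, s2, s1, s3]
      ring
  have k2 : ∀ w w', 0 ≤ det4 w (J w) w' (J w') := fun w w' => by
    refine nonneg_of_mul_nonneg_right ?_ ho
    rw [h.det4_eq]
    exact mul_nonneg zero_le_two (h.Del_nonneg w w')
  have W0 : 0 ≤ WL σ σ := by
    by_contra hn
    have z : σ = 0 := by
      ext u v
      have a := mul_nonpos_of_nonpos_of_nonneg (not_le.1 hn).le (k2 u v)
      rw [k1] at a
      rw [zero_apply, zero_apply]
      nlinarith [sq_nonneg (σ u v), sq_nonneg (σ u (J v))]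
    rw [z, map_zero] at hn
    exact hn le_rfl
  have C0 : 0 ≤ C := (norm_nonneg _).trans h.Jle
  have nJ : ∀ w, ‖J w‖ ≤ C * ‖w‖ := fun w =>
    (J.le_opNorm w).trans (mul_le_mul_of_nonneg_right h.Jle (norm_nonneg _))
  have k3 : ‖σ‖ ≤ √(12 * C ^ 2 * WL σ σ) := by
    refine σ.opNorm_le_bound₂ (Real.sqrt_nonneg _) fun w w' => ?_
    refine abs_le_of_sq_le_sq' ?_ (by positivity) |> abs_le.2
    rw [mul_pow, mul_pow, Real.sq_sqrt (by positivity)]
    have a : det4 w (J w) w' (J w') ≤ 24 * (‖w‖ * (C * ‖w‖) * ‖w'‖ * (C * ‖w'‖)) := by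
      refine (le_abs_self _).trans ((abs_det4_le _ _ _ _).trans ?_)
      gcongr
      · exact nJ w
      · exact nJ w'
    have b := mul_le_mul_of_nonneg_left a W0
    rw [k1] at b
    nlinarith [sq_nonneg (σ w (J w'))]
  have k4 := pow_le_pow_left₀ (norm_nonneg _) k3 2
  rw [Real.sq_sqrt (by positivity)] at k4
  rw [one_div, inv_mul_le_iff₀ (by positivity)]
  linarith


end

end Vale.Agent.P204
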