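import Vale.Agent.P204.Defs

/-!
P204: projections, the wedge pairing, currents, the regularisation interface, local data.
-/

namespace Vale.Agent.P204

open scoped ContDiff Topology
open Metric MeasureTheory Set Filter

noncomputable section

namespace Atlas

variable {𝒜 : Atlas}

theorem Form.smooth (β : 𝒜.Form) (j : Fin 𝒜.n) : ContDiffOn ℝ ∞ (β.1 j) (ball 0 4) := β.2.1 j

theorem Form.alt (β : 𝒜.Form) (j : Fin 𝒜.n) (p : E) : IsAlt (β.1 j p) := β.2.2.1 j p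

theorem Form.zero (β : 𝒜.Form) (j : Fin 𝒜.n) {p : E} (hp : p ∉ ball (0 : E) 4) : β.1 j p = 0 :=
  β.2.2.2.1 j p hp

theorem Form.compat (β : 𝒜.Form) (i j : Fin 𝒜.n) {p : E} (hp : p ∈ 𝒜.O i j) :
    β.1 i p = pullL (fderiv ℝ (𝒜.τ i j) p) (β.1 j (𝒜.τ i j p)) := β.2.2.2.2 i j p hp

theorem Form.contDiffAt (β : 𝒜.Form) (j : Fin 𝒜.n) {p : E} (hp : p ∈ ball (0 : E) 4) :
    ContDiffAt ℝ ∞ (β.1 j) p := (Form.smooth β j).contDiffAt (isOpen_ball.mem_nhds hp)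

theorem Form.ext' {α β : 𝒜.Form} (h : ∀ j, ∀ p ∈ ball (0 : E) 4, α.1 j p = β.1 j p) : α = β := by
  apply Subtype.ext
  funext j p
  by_cases hp : p ∈ ball (0 : E) 4
  · exact h j p hp
  · rw [Form.zero α j hp, Form.zero β j hp]

theorem am_mem (β : 𝒜.Form) : (fun j p => pm (𝒜.J j p) (β.1 j p)) ∈ 𝒜.Form := by
  refine ⟨fun j => (contDiff_pm.comp_contDiffOn (𝒜.J_smooth j)).clm_apply (Form.smooth β j),
    fun j p u v => ?_, fun j p hp => ?_, fun i j p hp => ?_⟩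
  · simp only [pm_apply]
    rw [Form.alt β j p u v, Form.alt β j p (𝒜.J j p u)]; ring
  · simp only [Form.zero β j hp, map_zero]
  · ext u v
    simp only [pm_apply, pullL_apply]
    rw [Form.compat β i j hp]
    simp only [pullL_apply, 𝒜.J_compat i j p hp]

variable (𝒜)

/-- anti-invariant part of a form -/
def Am : 𝒜.Form →ₗ[ℝ] 𝒜.Form where
  toFun β := ⟨fun j p => pm (𝒜.J j p) (β.1 j p), am_mem β⟩
  map_add' α β := by
    apply Subtype.ext; funext j p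
    simp only [Submodule.coe_add, Pi.add_apply, map_add]
  map_smul' c β := by
    apply Subtype.ext; funext j p
    simp only [Submodule.coe_smul, Pi.smul_apply, map_smul, RingHom.id_apply]

/-- invariant part of a form -/
def Ap : 𝒜.Form →ₗ[ℝ] 𝒜.Form := LinearMap.id - 𝒜.Am

variable {𝒜}

theorem Am_val (β : 𝒜.Form) (j : Fin 𝒜.n) (p : E) :
    (𝒜.Am β).1 j p = pm (𝒜.J j p) (β.1 j p) := rfl

theorem Ap_eq (β : 𝒜.Form) : 𝒜.Ap β = β - 𝒜.Am β := rfl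

theorem Ap_val (β : 𝒜.Form) (j : Fin 𝒜.n) (p : E) :
    (𝒜.Ap β).1 j p = pp (𝒜.J j p) (β.1 j p) := by
  rw [Ap_eq]
  ext u v
  simp only [Submodule.coe_sub, Pi.sub_apply, Am_val, sub_apply, pm_apply, pp_apply]
  ring

theorem cb_sub {r : ℝ} (hr : r < 4) : closedBall (0 : E) r ⊆ ball 0 4 :=
  closedBall_subset_ball hr

theorem pair_int (α β : 𝒜.Form) (j : Fin 𝒜.n) :
    IntegrableOn (fun p => 𝒜.chi j p * WL (α.1 j p) (β.1 j p)) (closedBall 0 1) := by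
  have h4 : closedBall (0 : E) 1 ⊆ ball 0 4 := cb_sub (by norm_num)
  refine ContinuousOn.integrableOn_compact (isCompact_closedBall _ _) ?_
  exact (𝒜.chi_supp j).1.continuous.continuousOn.mul
    ((WL.continuous.comp_continuousOn ((Form.smooth α j).continuousOn.mono h4)).clm_apply
      ((Form.smooth β j).continuousOn.mono h4))

variable (𝒜)

/-- `∫ α ∧ β` -/
def pair : 𝒜.Form →ₗ[ℝ] 𝒜.Form →ₗ[ℝ] ℝ :=
  LinearMap.mk₂ ℝ
    (fun α β => ∑ j, ∫ p in closedBall (0 : E) 1, 𝒜.chi j p * WL (α.1 j p) (β.1 j p))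
    (fun α α' β => by
      rw [← Finset.sum_add_distrib]
      refine Finset.sum_congr rfl fun j _ => ?_
      rw [← integral_add (pair_int α β j) (pair_int α' β j)]
      simp only [Submodule.coe_add, Pi.add_apply, map_add, add_apply, mul_add])
    (fun c α β => by
      rw [smul_eq_mul, Finset.mul_sum]
      refine Finset.sum_congr rfl fun j _ => ?_
      rw [← integral_const_mul]
      simp only [Submodule.coe_smul, Pi.smul_apply, map_smul, smul_apply, smul_eq_mul,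
        mul_left_comm])
    (fun α β β' => by
      rw [← Finset.sum_add_distrib]
      refine Finset.sum_congr rfl fun j _ => ?_
      rw [← integral_add (pair_int α β j) (pair_int α β' j)]
      simp only [Submodule.coe_add, Pi.add_apply, map_add, mul_add])
    (fun c α β => by
      rw [smul_eq_mul, Finset.mul_sum]
      refine Finset.sum_congr rfl fun j _ => ?_
      rw [← integral_const_mul]
      simp only [Submodule.coe_smul, Pi.smul_apply, map_smul, smul_eq_mul, mul_left_comm])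

variable {𝒜}

theorem pair_apply (α β : 𝒜.Form) : 𝒜.pair α β =
    ∑ j, ∫ p in closedBall (0 : E) 1, 𝒜.chi j p * WL (α.1 j p) (β.1 j p) := rfl

/-- the integrand of a positive current -/
def lin (β : 𝒜.Form) (j : Fin 𝒜.n) (y : E × E) : ℝ := β.1 j y.1 y.2 (𝒜.J j y.1 y.2)

theorem lin_contOn (β : 𝒜.Form) (j : Fin 𝒜.n) :
    ContinuousOn (lin β j) (ball (0 : E) 4 ×ˢ univ) := by
  have h1 : ContinuousOn (fun y : E × E => β.1 j y.1) (ball (0 : E) 4 ×ˢ univ) :=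
    (Form.smooth β j).continuousOn.comp continuousOn_fst fun y hy => hy.1
  have h2 : ContinuousOn (fun y : E × E => 𝒜.J j y.1) (ball (0 : E) 4 ×ˢ univ) :=
    (𝒜.J_smooth j).continuousOn.comp continuousOn_fst fun y hy => hy.1
  exact (h1.clm_apply continuousOn_snd).clm_apply (h2.clm_apply continuousOn_snd)

theorem lin_int (T : 𝒜.PM) (β : 𝒜.Form) (j : Fin 𝒜.n) : Integrable (lin β j) (T.m j) := by
  have hK : IsCompact (closedBall (0 : E) 1 ×ˢ sphere (0 : E) 1) :=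
    (isCompact_closedBall _ _).prod (isCompact_sphere _ _)
  have h1 : IntegrableOn (lin β j) (closedBall (0 : E) 1 ×ˢ sphere (0 : E) 1) (T.m j) :=
    ContinuousOn.integrableOn_compact hK ((lin_contOn β j).mono
      (prod_mono (cb_sub (by norm_num)) (subset_univ _)))
  have h2 : (T.m j).restrict (closedBall (0 : E) 1 ×ˢ sphere (0 : E) 1) = T.m j := by
    apply Measure.restrict_eq_self_of_ae_mem
    filter_upwards [T.supp j] with y hy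
    exact ⟨hy.1, by simpa using hy.2⟩
  rwa [IntegrableOn, h2] at h1

/-- the positive current defined by `T` -/
def PM.cur (T : 𝒜.PM) : 𝒜.Form →ₗ[ℝ] ℝ where
  toFun β := ∑ j, ∫ y, lin β j y ∂(T.m j)
  map_add' α β := by
    rw [← Finset.sum_add_distrib]
    refine Finset.sum_congr rfl fun j _ => ?_
    rw [← integral_add (lin_int T α j) (lin_int T β j)]
    simp only [lin, Submodule.coe_add, Pi.add_apply, add_apply]
  map_smul' c β := by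
    rw [RingHom.id_apply, smul_eq_mul, Finset.mul_sum]
    refine Finset.sum_congr rfl fun j _ => ?_
    rw [← integral_const_mul]
    simp only [lin, Submodule.coe_smul, Pi.smul_apply, smul_apply, smul_eq_mul]

theorem PM.cur_apply (T : 𝒜.PM) (β : 𝒜.Form) : T.cur β = ∑ j, ∫ y, lin β j y ∂(T.m j) := rfl

/-- two-dimensional growth of the transferred measures at scales `≥ t` -/
def PM.Growth (T : 𝒜.PM) (t Θ : ℝ) : Prop :=
  ∀ j, ∀ x ∈ closedBall (0 : E) 2, ∀ s, t ≤ s → 0 < s → bm (T.tr j) x s ≤ Θ * s ^ 2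

/-- anti-invariant forms -/
def Anti (σ : 𝒜.Form) : Prop := 𝒜.Am σ = σ

/-- order `K` on anti-invariant forms -/
def AOrd (A : 𝒜.Form →ₗ[ℝ] ℝ) (K : ℕ) (C : ℝ) : Prop :=
  ∀ σ M, Anti σ → Cn K σ M → |A σ| ≤ C * M

/-- bound for the majorant norm at scale `t` on anti-invariant forms -/
def ABd (A : 𝒜.Form →ₗ[ℝ] ℝ) (k : ℕ) (t α : ℝ) : Prop :=
  ∀ σ c, Anti σ → 0 ≤ c → Maj σ k t c → |A σ| ≤ α * c

/-- `L²` bound on anti-invariant forms -/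
def LBd (A : 𝒜.Form →ₗ[ℝ] ℝ) (α : ℝ) : Prop := ∀ σ, Anti σ → |A σ| ≤ α * L2 σ

/-- the smooth form `η` represents the functional `S` -/
def Rep (η : 𝒜.Form) (S : 𝒜.Form →ₗ[ℝ] ℝ) : Prop := ∀ β, 𝒜.pair η β = S β

/-- `(u₁', u₂')` is within `r` of `(u₁, u₂)` -/
def Near (r : ℝ) (u₁ u₂ u₁' u₂' : E) : Prop := ‖u₁' - u₁‖ ≤ r ∧ ‖u₂' - u₂‖ ≤ r

variable (𝒜)

/-- The regularisation package. -/
structure Reg where
  R : ℝ → 𝒜.Form →ₗ[ℝ] 𝒜.Form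
  closed : ∃ t₀ > 0, ∀ t ∈ Ioc (0 : ℝ) t₀, ∀ β, Closed β → Closed (R t β)
  exact : ∃ t₀ > 0, ∀ t ∈ Ioc (0 : ℝ) t₀, ∀ β, Exact β → Exact (R t β)
  rep : ∃ t₀ > 0, ∀ t ∈ Ioc (0 : ℝ) t₀, ∀ (S : 𝒜.Form →ₗ[ℝ] ℝ) (k : ℕ) (C : ℝ), FinOrd S k C →
    ∃ η, Rep η (S ∘ₗ R t)
  jet : ∀ k : ℕ, ∃ C ≥ 1, ∃ t₀ > 0, C * t₀ ≤ 1 / 4 ∧ ∀ t ∈ Ioc (0 : ℝ) t₀, ∀ (β : 𝒜.Form) j,
    ∀ p ∈ closedBall (0 : E) 3, ∀ M, (∀ q ∈ closedBall p (C * t), JB (β.1 j) k q M) →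
      JB ((R t β).1 j) k p (C * M)
  small : ∀ k : ℕ, ∃ C ≥ 1, ∃ t₀ > 0, C * t₀ ≤ 1 / 4 ∧ ∀ t ∈ Ioc (0 : ℝ) t₀, ∀ (β : 𝒜.Form) j,
    ∀ p ∈ closedBall (0 : E) 3, ∀ M, (∀ q ∈ closedBall p (C * t), JB (β.1 j) (k + 1) q M) →
      JB ((R t β - β).1 j) k p (C * t * M)
  smooth : ∀ k : ℕ, ∃ C ≥ 1, ∃ t₀ > 0, C * t₀ ≤ 1 / 4 ∧ ∀ t ∈ Ioc (0 : ℝ) t₀, ∀ (β : 𝒜.Form) j,
    ∀ p ∈ closedBall (0 : E) (5 / 2),
      SJB ((R t β).1 j) k t p (C / t ^ 4 * ∫ q in closedBall p (C * t), ‖β.1 j q‖)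
  comm : ∀ k : ℕ, ∃ C ≥ 1, ∃ t₀ > 0, C * t₀ ≤ 1 / 4 ∧ ∀ t ∈ Ioc (0 : ℝ) t₀, ∀ (β : 𝒜.Form) j,
    ∀ p ∈ closedBall (0 : E) (5 / 2),
      SJB ((𝒜.Am (R t β) - R t (𝒜.Am β)).1 j) k t p
        (C / t ^ 3 * ∫ q in closedBall p (C * t), ‖β.1 j q‖)
  pos0 : ∀ C₁ : ℝ, ∃ C ≥ 1, ∀ δ > 0, ∃ c > 0, ∃ t₀ > 0, C * t₀ ≤ 1 / 4 ∧ ∀ t ∈ Ioc (0 : ℝ) t₀,
    ∀ (β : 𝒜.Form) j, ∀ p ∈ closedBall (0 : E) 3, ∀ u₁ u₂ : E, ‖u₁‖ ≤ C₁ → ‖u₂‖ ≤ C₁ →
    ∀ M M' : ℝ, 0 ≤ M → 0 ≤ M' →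
    (∀ q ∈ closedBall p (C * t), ∀ u₁' u₂', Near (C * t) u₁ u₂ u₁' u₂' → -M ≤ β.1 j q u₁' u₂') →
    (∀ q ∈ closedBall p (δ * t), ∀ u₁' u₂', Near (C * t) u₁ u₂ u₁' u₂' →
      M' - M ≤ β.1 j q u₁' u₂') → c * M' - M ≤ (R t β).1 j p u₁ u₂
  pos1 : ∀ C₁ : ℝ, ∃ C ≥ 1, ∃ c > 0, ∃ t₀ > 0, C * t₀ ≤ 1 / 4 ∧ c ≤ 1 ∧ ∀ t ∈ Ioc (0 : ℝ) t₀,
    ∀ (β : 𝒜.Form) j, ∀ p ∈ closedBall (0 : E) (5 / 2), ∀ u₁ u₂ : E, ‖u₁‖ ≤ C₁ → ‖u₂‖ ≤ C₁ →
    ∀ (φ : E → ℝ) (b : Bil) (l l' : ℝ), Continuous φ → (∀ q, 0 ≤ φ q) → 0 ≤ l → 0 ≤ l' →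
    (∀ q ∈ closedBall p (C * t), β.1 j q = φ q • b) →
    (∀ u₁' u₂', Near (C * t) u₁ u₂ u₁' u₂' → l - l' ≤ b u₁' u₂') →
      l * (c / t ^ 4 * ∫ q in closedBall p (c * t), φ q) -
        l' * (C / t ^ 4 * ∫ q in closedBall p (C * t), φ q) ≤ (R t β).1 j p u₁ u₂

variable {𝒜}

/-- `L²` bound for the regularised functional -/
def Reg.RBd (ℛ : 𝒜.Reg) (A : 𝒜.Form →ₗ[ℝ] ℝ) (t b : ℝ) : Prop :=
  ∀ σ, Anti σ → |A (𝒜.Am (ℛ.R t σ))| ≤ b * L2 σ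

end Atlas

/-- Local data in one chart: globally smooth `J`, `g`, Hermitian on the closed ball of radius 3,
and a finite measure on pairs (point, vector). -/
structure Loc where
  J : E → End
  g : E → Bil
  μ : Measure (E × E)
  c : ℝ
  C : ℝ
  J_smooth : ContDiff ℝ ∞ J
  g_smooth : ContDiff ℝ ∞ g
  herm : ∀ p ∈ closedBall (0 : E) 3, Herm (g p) (J p) c C
  fin : IsFiniteMeasure μ
  supp : ∀ᵐ y ∂μ, y.1 ∈ closedBall (0 : E) 3 ∧ c ≤ ‖y.2‖ ∧ ‖y.2‖ ≤ C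

instance (D : Loc) : IsFiniteMeasure D.μ := D.fin

/-- the local positive current applied to a two-form -/
def Loc.lin (D : Loc) (s : E → Bil) (y : E × E) : ℝ := s y.1 y.2 (D.J y.1 y.2)

end

end Vale.Agent.P204
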