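import Vale.Agent.P204.Alg2
import Vale.Agent.P204.Defs2

/-!
P204 Alg3: two simple bivectors close to complex lines have almost nonnegative wedge.
Plan: write `u₁ = w + a₁`, `u₂ = J w + a₂`, `u₁' = w' + a₁'`, `u₂' = J w' + a₂'`, norms `≤ r`.
`det4` is multilinear and alternating (it is `WL (bv a b) (bv c d)`, a polynomial in coordinates).
Split `w' = x • w + y • J w + z` with `z` `g`-orthogonal to `w, J w`; `Del w w' = g w w * g z z`,
so `‖z‖² ≤ Del / (c² c₁²)`. Zeroth order term: `det4 w (Jw) w' (Jw') = 2 Del / WL om om` and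
`0 < WL om om ≤ 6 C⁴`. Each first order term is bounded by `K r ‖z‖` because three vectors of the
span of `w, J w` give determinant zero; higher order terms by `K r²` (`abs_det4_le`). Finish with
`K r ‖z‖ ≤ κ Del + K' r²`.
-/

namespace Vale.Agent.P204

open scoped ContDiff Topology
open Metric MeasureTheory Set Filter

noncomputable section

private theorem alg3_det (a b c d : E) : det4 a b c d =
    (a 0 * b 1 - b 0 * a 1) * (c 2 * d 3 - d 2 * c 3) - (a 0 * b 2 - b 0 * a 2) * (c 1 * d 3 - d 1 * c 3) +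
    (a 0 * b 3 - b 0 * a 3) * (c 1 * d 2 - d 1 * c 2) + (a 1 * b 2 - b 1 * a 2) * (c 0 * d 3 - d 0 * c 3) -
    (a 1 * b 3 - b 1 * a 3) * (c 0 * d 2 - d 0 * c 2) + (a 2 * b 3 - b 2 * a 3) * (c 0 * d 1 - d 0 * c 1) := by
  have h : ∀ (u : E) (i : Fin 4), innerSL ℝ u (e i) = u i := fun u i => by
    rw [innerSL_apply_apply, real_inner_comm, inner_e]
  simp only [det4, WL_apply, bv, wedge1_apply, h]

private theorem alg3_col (w v p q : E) (x y : ℝ) :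
    det4 w v (p - x • w - y • v) (q - x • v - (-y) • w) = det4 w v p q := by
  simp only [alg3_det, PiLp.sub_apply, PiLp.smul_apply, smul_eq_mul]
  ring

private theorem alg3_col' (w v p q u₁ u₂ u₁' u₂' : E) (x y : ℝ) :
    det4 (w + (u₁ - w)) (v + (u₂ - v))
      (p - x • w - y • v + ((u₁' - p) - x • (u₁ - w) - y • (u₂ - v)))
      (q - x • v - (-y) • w + ((u₂' - q) - x • (u₂ - v) - (-y) • (u₁ - w))) =
      det4 u₁ u₂ u₁' u₂' := by
  rw [← alg3_col u₁ u₂ u₁' u₂' x y]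
  congr 1 <;> module

private theorem alg3_tel (w v z z' a₁ a₂ e₁ e₂ : E) :
    det4 (w + a₁) (v + a₂) (z + e₁) (z' + e₂) - det4 w v z z' =
      det4 a₁ (v + a₂) (z + e₁) (z' + e₂) + det4 w a₂ (z + e₁) (z' + e₂) +
        det4 w v e₁ (z' + e₂) + det4 w v z e₂ := by
  simp only [alg3_det, PiLp.add_apply]
  ring

private theorem alg3_bd {a b c d : E} {A B C D : ℝ} (ha : ‖a‖ ≤ A) (hb : ‖b‖ ≤ B) (hc : ‖c‖ ≤ C)
    (hd : ‖d‖ ≤ D) : |det4 a b c d| ≤ 24 * (A * B * C * D) := by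
  have A0 := (norm_nonneg _).trans ha
  have B0 := (norm_nonneg _).trans hb
  have C0 := (norm_nonneg _).trans hc
  refine (abs_det4_le a b c d).trans ?_
  gcongr

private theorem alg3_core {w v z z' a₁ a₂ e₁ e₂ : E} {B ρ R : ℝ} (h1 : ‖w‖ ≤ B) (h2 : ‖v‖ ≤ B)
    (h3 : ‖v + a₂‖ ≤ B) (h4 : ‖a₁‖ ≤ R) (h5 : ‖a₂‖ ≤ R) (h6 : ‖z‖ ≤ ρ) (h7 : ‖z'‖ ≤ ρ)
    (h8 : ‖e₁‖ ≤ R) (h9 : ‖e₂‖ ≤ R) (h : ρ + R ≤ B) :
    |det4 (w + a₁) (v + a₂) (z + e₁) (z' + e₂) - det4 w v z z'| ≤ 96 * B ^ 2 * R * (ρ + R) := by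
  have k1 : ‖z + e₁‖ ≤ ρ + R := (norm_add_le _ _).trans (add_le_add h6 h8)
  have k2 : ‖z' + e₂‖ ≤ ρ + R := (norm_add_le _ _).trans (add_le_add h7 h9)
  have k3 : ‖z‖ ≤ ρ + R := by linarith [norm_nonneg e₁]
  have t1 := abs_le.1 (alg3_bd h4 h3 (k1.trans h) k2)
  have t2 := abs_le.1 (alg3_bd h1 h5 (k1.trans h) k2)
  have t3 := abs_le.1 (alg3_bd h1 h2 h8 k2)
  have t4 := abs_le.1 (alg3_bd h1 h2 k3 h9)
  rw [alg3_tel, abs_le]
  constructor <;> linarith [t1.1, t1.2, t2.1, t2.2, t3.1, t3.2, t4.1, t4.2]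

private theorem alg3_tri {p u v : E} {x y X r : ℝ} (hx : |x| ≤ X) (hy : |y| ≤ X) (hp : ‖p‖ ≤ r)
    (hu : ‖u‖ ≤ r) (hv : ‖v‖ ≤ r) : ‖p - x • u - y • v‖ ≤ (1 + 2 * X) * r := by
  have X0 := (abs_nonneg x).trans hx
  have k1 : ‖x • u‖ ≤ X * r := by
    rw [norm_smul]; exact mul_le_mul hx hu (norm_nonneg _) X0
  have k2 : ‖y • v‖ ≤ X * r := by
    rw [norm_smul]; exact mul_le_mul hy hv (norm_nonneg _) X0
  linarith [norm_sub_le (p - x • u) (y • v), norm_sub_le p (x • u)]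

private theorem alg3_del {g : Bil} {J : End} {c C : ℝ} (h : Herm g J c C) {w : E} (hw : g w w ≠ 0)
    (w' : E) : Del g J w w' =
      g w w * g (w' - (g w w' / g w w) • w - (g (J w) w' / g w w) • J w)
        (w' - (g w w' / g w w) • w - (g (J w) w' / g w w) • J w) := by
  have k1 : g (J w) w = 0 := by
    have := h.inv (J w) w
    rw [h.sq, map_neg, neg_apply, h.symm w] at this
    linarith
  have k2 : g w (J w) = 0 := (h.symm _ _).trans k1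
  simp only [Del, map_sub, map_smul, sub_apply, smul_apply, smul_eq_mul, k1, k2, h.inv,
    h.symm w' w, h.symm w' (J w)]
  field_simp
  ring

private theorem alg3_amgm {m : ℝ} (hm : 0 < m) (K r ρ : ℝ) :
    K * r * ρ ≤ m * ρ ^ 2 + K ^ 2 / m * r ^ 2 := by
  have h : m * ρ ^ 2 + K ^ 2 / m * r ^ 2 - K * r * ρ =
      ((m * ρ - K * r / 2) ^ 2 + 3 / 4 * (K * r) ^ 2) / m := by
    field_simp
    ring
  have : 0 ≤ ((m * ρ - K * r / 2) ^ 2 + 3 / 4 * (K * r) ^ 2) / m := by positivity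
  linarith

theorem det4_lower (c C c₁ C₁ : ℝ) (hc₁ : 0 < c₁) : ∃ κ > 0, ∃ K ≥ 0, ∀ (g : Bil) (J : End),
    Herm g J c C → 0 < WL (om g J) (om g J) → ∀ w w' : E, c₁ ≤ ‖w‖ → ‖w‖ ≤ C₁ → ‖w'‖ ≤ C₁ →
    ∀ r : ℝ, 0 ≤ r → r ≤ 1 → ∀ u₁ u₂ u₁' u₂' : E, Atlas.Near r w (J w) u₁ u₂ →
    Atlas.Near r w' (J w') u₁' u₂' → κ * Del g J w w' - K * r ^ 2 ≤ det4 u₁ u₂ u₁' u₂' :=
by
  rcases le_or_gt c 0 with hc | hc
  · exact ⟨1, one_pos, 0, le_rfl, fun g J h => absurd h.cpos (not_lt.2 hc)⟩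
  obtain ⟨F, hF⟩ : ∃ F, F = 1 + |C| := ⟨_, rfl⟩
  obtain ⟨G, hG⟩ : ∃ G, G = F * |C₁| + 1 := ⟨_, rfl⟩
  obtain ⟨X, hX⟩ : ∃ X, X = F * G * G / (c * c₁ ^ 2) := ⟨_, rfl⟩
  obtain ⟨Y, hY⟩ : ∃ Y, Y = 1 + 2 * X := ⟨_, rfl⟩
  obtain ⟨B, hB⟩ : ∃ B, B = G + F * (Y * G) + Y := ⟨_, rfl⟩
  obtain ⟨W, hW⟩ : ∃ W, W = 6 * (F * F) * (F * F) := ⟨_, rfl⟩
  obtain ⟨m, hm⟩ : ∃ m, m = c * (c * c₁ ^ 2) / W := ⟨_, rfl⟩
  have F1 : 1 ≤ F := by rw [hF]; linarith [abs_nonneg C]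
  have CF : C ≤ F := by rw [hF]; linarith [le_abs_self C]
  have F0 : 0 < F := by linarith
  have G0 : 0 < G := by rw [hG]; positivity
  have X0 : 0 ≤ X := by rw [hX]; positivity
  have Y1 : 1 ≤ Y := by rw [hY]; linarith
  have Y0 : 0 < Y := by linarith
  have W0 : 0 < W := by rw [hW]; positivity
  have m0 : 0 < m := by rw [hm]; positivity
  refine ⟨1 / W, by positivity, (96 * B ^ 2 * Y * F) ^ 2 / m + 96 * B ^ 2 * Y * Y, by positivity,
    fun g J h ho w w' h1 h2 h3 r r0 r1 u₁ u₂ u₁' u₂' n1 n2 => ?_⟩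
  have hJ : ∀ v, ‖J v‖ ≤ F * ‖v‖ := fun v => J.le_of_opNorm_le (h.Jle.trans CF) v
  have hb : ∀ v : E, ‖v‖ ≤ C₁ → ‖v‖ ≤ G ∧ ‖J v‖ + 1 ≤ G := fun v hv => by
    have k1 := hv.trans (le_abs_self C₁)
    have k2 := mul_le_mul_of_nonneg_left k1 F0.le
    have k3 := mul_le_mul_of_nonneg_right F1 (abs_nonneg C₁)
    rw [hG]
    exact ⟨by linarith, by linarith [hJ v]⟩
  have gw : c * c₁ ^ 2 ≤ g w w :=
    (mul_le_mul_of_nonneg_left (pow_le_pow_left₀ hc₁.le h1 2) hc.le).trans (h.pos w)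
  have gw0 : 0 < c * c₁ ^ 2 := by positivity
  have hq : ∀ v : E, ‖v‖ ≤ G → |g v w' / g w w| ≤ X := fun v hv => by
    rw [abs_div, abs_of_pos (gw0.trans_le gw), hX]
    refine div_le_div₀ (by positivity) ?_ gw0 gw
    exact (g.le_opNorm₂ v w').trans (mul_le_mul (mul_le_mul (h.gle.trans CF) hv (norm_nonneg _)
      F0.le) (hb w' h3).1 (norm_nonneg _) (by positivity))
  obtain ⟨hw1, hw2⟩ := hb w h2
  have hw3 : ‖J w‖ ≤ G := by linarith
  obtain ⟨x, hx⟩ : ∃ x, x = g w w' / g w w := ⟨_, rfl⟩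
  obtain ⟨y, hy⟩ : ∃ y, y = g (J w) w' / g w w := ⟨_, rfl⟩
  have x1 : |x| ≤ X := hx ▸ hq w hw1
  have y1 : |y| ≤ X := hy ▸ hq _ hw3
  obtain ⟨z, hz⟩ : ∃ z, z = w' - x • w - y • J w := ⟨_, rfl⟩
  have hJz : J z = J w' - x • J w - (-y) • w := by
    rw [hz, map_sub, map_sub, map_smul, map_smul, h.sq, smul_neg, neg_smul]
  have hD : Del g J w w' = g w w * g z z := by
    rw [hz, hx, hy]; exact alg3_del h (gw0.trans_le gw).ne' w'
  have hz1 : ‖z‖ ≤ Y * G := by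
    rw [hz, hY]
    exact alg3_tri x1 y1 (hb w' h3).1 hw1 hw3
  have e1 : ‖(u₁' - w') - x • (u₁ - w) - y • (u₂ - J w)‖ ≤ Y * r := by
    rw [hY]; exact alg3_tri x1 y1 n2.1 n1.1 n1.2
  have e2 : ‖(u₂' - J w') - x • (u₂ - J w) - (-y) • (u₁ - w)‖ ≤ Y * r := by
    rw [hY]; exact alg3_tri x1 (by rwa [abs_neg]) n2.2 n1.2 n1.1
  have z0 := norm_nonneg z
  have GB : G ≤ B := by rw [hB]; linarith [mul_pos F0 (mul_pos Y0 G0)]
  have hu : ‖J w + (u₂ - J w)‖ ≤ B :=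
    (norm_add_le _ _).trans (by linarith [n1.2])
  have hs : F * ‖z‖ + Y * r ≤ B := by
    have k1 := mul_le_mul_of_nonneg_left hz1 F0.le
    have k2 := mul_le_mul_of_nonneg_left r1 Y0.le
    rw [hB]; linarith
  have hr : r ≤ Y * r := le_mul_of_one_le_left r0 Y1
  have key := alg3_core (hw1.trans GB) (hw3.trans GB) hu (n1.1.trans hr) (n1.2.trans hr)
    (le_mul_of_one_le_left z0 F1) (hJ z) e1 e2 hs
  have d1 : det4 (w + (u₁ - w)) (J w + (u₂ - J w))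
      (z + ((u₁' - w') - x • (u₁ - w) - y • (u₂ - J w)))
      (J z + ((u₂' - J w') - x • (u₂ - J w) - (-y) • (u₁ - w))) = det4 u₁ u₂ u₁' u₂' := by
    rw [hJz, hz]; exact alg3_col' _ _ _ _ _ _ _ _ _ _
  have d2 : det4 w (J w) z (J z) = det4 w (J w) w' (J w') := by
    rw [hJz, hz]; exact alg3_col _ _ _ _ _ _
  rw [d1, d2] at key
  have D0 := h.Del_nonneg w w'
  have om1 : ‖om g J‖ ≤ F * F := (g.opNorm_comp_le J).trans
    (mul_le_mul (h.gle.trans CF) (h.Jle.trans CF) (norm_nonneg _) F0.le)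
  have W1 : WL (om g J) (om g J) ≤ W := by
    rw [hW]
    refine (le_abs_self _).trans ((abs_WL_le _ _).trans ?_)
    exact mul_le_mul (by linarith) om1 (norm_nonneg _) (by positivity)
  have d3 : 2 * (1 / W * Del g J w w') ≤ det4 w (J w) w' (J w') := by
    have k1 := h.det4_eq w w'
    have k2 : 0 ≤ det4 w (J w) w' (J w') := nonneg_of_mul_nonneg_right (by linarith) ho
    have k3 := mul_le_mul_of_nonneg_right W1 k2
    rw [one_div, ← div_eq_inv_mul, ← mul_div_assoc, div_le_iff₀ W0]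
    linarith
  have d4 : m * ‖z‖ ^ 2 ≤ 1 / W * Del g J w w' := by
    have k1 := mul_le_mul gw (h.pos z) (by positivity) (gw0.trans_le gw).le
    rw [hm, hD, one_div, ← div_eq_inv_mul, div_mul_eq_mul_div]
    exact div_le_div_of_nonneg_right (by linarith) W0.le
  have d5 := alg3_amgm m0 (96 * B ^ 2 * Y * F) r ‖z‖
  have d6 := (abs_le.1 key).1
  linarith


end

end Vale.Agent.P204
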