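import Vale.Agent.P204.Jet1

/-!
P204 Jet2: uniform jet bounds by compactness, mean value estimates, cut-offs.
Plan: on an open set `U`, `iteratedFDeriv i f` is continuous (`ContDiffOn.continuousOn_iteratedFDerivWithin`
and `iteratedFDerivWithin_of_isOpen`), hence bounded on compact sets. For the parametric version,
`fun q => Φ (v, q)` is `Φ` composed with the affine map `q ↦ (v, 0) + inr q`
(`iteratedFDeriv_comp_add_left`-type lemma and `ContinuousLinearMap.iteratedFDeriv_comp_right`,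
norm of `inr ≤ 1`), so its jets are bounded by those of `Φ`. For `jb_param_small` apply the mean
value inequality in `v` to `v ↦ iteratedFDeriv i Φ (v, p)` composed with `inr` in all slots
(or: to `iteratedFDeriv i Φ` along the segment from `(0, p)` to `(v, p)`, inside a compact
`cthickening` of `{0} ×ˢ K` contained in `U`); at `v = 0` the jets vanish.
-/

namespace Vale.Agent.P204

open scoped ContDiff Topology
open Metric MeasureTheory Set Filter

noncomputable section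

variable {D F G : Type} [NormedAddCommGroup D] [NormedSpace ℝ D] [NormedAddCommGroup F]
  [NormedSpace ℝ F] [NormedAddCommGroup G] [NormedSpace ℝ G]

theorem fin_bound_Jet2 {P : ℕ → ℝ → Prop} (hm : ∀ i a b, P i a → a ≤ b → P i b)
    (h : ∀ i, ∃ C, P i C) (k : ℕ) : ∃ C ≥ 1, ∀ i ≤ k, P i C := by
  choose c hc using h
  refine ⟨1 + ∑ i ∈ Finset.range (k + 1), |c i|, le_add_of_nonneg_right
    (Finset.sum_nonneg fun _ _ => abs_nonneg _), fun i hi => hm i _ _ (hc i) ?_⟩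
  have h1 := Finset.single_le_sum (f := fun i => |c i|) (fun _ _ => abs_nonneg _)
    (Finset.mem_range.2 (Nat.lt_succ_of_le hi))
  linarith [le_abs_self (c i)]

theorem jb_compact {f : D → F} {U K : Set D} (hU : IsOpen U) (hf : ContDiffOn ℝ ∞ f U)
    (hK : IsCompact K) (hKU : K ⊆ U) (k : ℕ) : ∃ C ≥ 1, ∀ p ∈ K, JB f k p C := by
  obtain ⟨C, h1, h2⟩ := fin_bound_Jet2
    (P := fun i C => ∀ p ∈ K, ‖iteratedFDeriv ℝ i f p‖ ≤ C)
    (fun i a b h hab p hp => (h p hp).trans hab)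
    (fun i => hK.exists_bound_of_continuousOn fun p hp =>
      ((hf.contDiffAt (hU.mem_nhds (hKU hp))).continuousAt_iteratedFDeriv
        (le_infty_Jet1 i)).continuousWithinAt) k
  exact ⟨C, h1, fun p hp i hi => h2 i hi p hp⟩

theorem jb_supp [FiniteDimensional ℝ D] {f : D → F} {r : ℝ} (hf : Supp r f) (k : ℕ) :
    ∃ C ≥ 1, ∀ p, JB f k p C := by
  obtain ⟨C, h1, h2⟩ := jb_compact isOpen_univ hf.1.contDiffOn (isCompact_closedBall (0 : D) r)
    (subset_univ _) k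
  refine ⟨C, h1, fun p => ?_⟩
  by_cases hp : p ∈ closedBall (0 : D) r
  · exact h2 p hp
  · have h3 : f =ᶠ[𝓝 p] fun _ => 0 := by
      filter_upwards [isClosed_closedBall.isOpen_compl.mem_nhds hp] with q hq using hf.2 q hq
    exact (JB_iff_SJB _ _ _ _).2 ((SJB_of_eventually_zero h3).mono le_rfl (zero_le_one.trans h1))

theorem slice_Jet2 {Φ : G × D → F} {y : G × D} (hΦ : ContDiffAt ℝ ∞ Φ y) (i : ℕ) :
    iteratedFDeriv ℝ i (fun q => Φ (y.1, q)) y.2 =
      (iteratedFDeriv ℝ i Φ y).compContinuousLinearMap fun _ => ContinuousLinearMap.inr ℝ G D := by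
  have e : (y.1, (0 : D)) + ContinuousLinearMap.inr ℝ G D y.2 = y := by simp
  have h1 : ContDiffAt ℝ ∞ (fun z => Φ ((y.1, (0 : D)) + z)) (ContinuousLinearMap.inr ℝ G D y.2) := by
    refine ContDiffAt.comp (g := Φ) _ ?_ (contDiffAt_const.add contDiffAt_id)
    rwa [e]
  obtain ⟨U, u1, u2, u3⟩ := open_Jet1 h1 i
  have ho : IsOpen (ContinuousLinearMap.inr ℝ G D ⁻¹' U) :=
    u1.preimage (ContinuousLinearMap.inr ℝ G D).continuous
  have h2 := (ContinuousLinearMap.inr ℝ G D).iteratedFDerivWithin_comp_right u3 u1.uniqueDiffOn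
    ho.uniqueDiffOn u2 le_rfl
  rw [iteratedFDerivWithin_of_isOpen _ ho u2, iteratedFDerivWithin_of_isOpen _ u1 u2,
    iteratedFDeriv_comp_add_left, e] at h2
  rw [← h2]
  congr 1
  funext q
  simp

theorem norm_inr_Jet2 {i : ℕ} (A : ContinuousMultilinearMap ℝ (fun _ : Fin i => G × D) F) :
    ‖A.compContinuousLinearMap fun _ => ContinuousLinearMap.inr ℝ G D‖ ≤ ‖A‖ := by
  refine (A.norm_compContinuousLinearMap_le _).trans (mul_le_of_le_one_right (norm_nonneg _) ?_)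
  exact Finset.prod_le_one (fun _ _ => norm_nonneg _) fun _ _ =>
    ContinuousLinearMap.norm_inr_le_one ℝ G D

theorem jb_param {Φ : G × D → F} {U K : Set (G × D)} (hU : IsOpen U) (hΦ : ContDiffOn ℝ ∞ Φ U)
    (hK : IsCompact K) (hKU : K ⊆ U) (k : ℕ) :
    ∃ C ≥ 1, ∀ y ∈ K, JB (fun q => Φ (y.1, q)) k y.2 C := by
  obtain ⟨C, h1, h2⟩ := jb_compact hU hΦ hK hKU k
  refine ⟨C, h1, fun y hy i hi => ?_⟩
  rw [slice_Jet2 (hΦ.contDiffAt (hU.mem_nhds (hKU hy)))]
  exact (norm_inr_Jet2 _).trans (h2 y hy i hi)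

theorem mean_Jet2 {f : D → F} {k : ℕ} {p q : D} {r M : ℝ}
    (hf : ∀ x ∈ closedBall p r, ContDiffAt ℝ ∞ f x) (h : ∀ x ∈ closedBall p r, JB f (k + 1) x M)
    (hq : q ∈ closedBall p r) (i : ℕ) (hi : i ≤ k) :
    ‖iteratedFDeriv ℝ i f q - iteratedFDeriv ℝ i f p‖ ≤ M * ‖q - p‖ := by
  have hp : p ∈ closedBall p r := mem_closedBall_self (dist_nonneg.trans hq)
  refine (convex_closedBall p r).norm_image_sub_le_of_norm_fderiv_le (𝕜 := ℝ)
    (fun x hx => (hf x hx).differentiableAt_iteratedFDeriv ?_) (fun x hx => ?_) hp hq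
  · exact_mod_cast ENat.natCast_lt_top i
  · rw [norm_fderiv_iteratedFDeriv]
    exact h x hx (i + 1) (Nat.succ_le_succ hi)

theorem jb_param_small [FiniteDimensional ℝ D] [FiniteDimensional ℝ G] {Φ : G × D → F}
    {U : Set (G × D)} {K : Set D} (hU : IsOpen U) (hΦ : ContDiffOn ℝ ∞ Φ U) (hK : IsCompact K)
    (hKU : ∀ p ∈ K, ((0 : G), p) ∈ U) (h0 : ∀ q, ((0 : G), q) ∈ U → Φ (0, q) = 0) (k : ℕ) :
    ∃ C ≥ 1, ∃ δ > 0, ∀ v : G, ‖v‖ ≤ δ → ∀ p ∈ K, (v, p) ∈ U ∧
      JB (fun q => Φ (v, q)) k p (C * ‖v‖) := by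
  have hK0 : IsCompact (({0} : Set G) ×ˢ K) := isCompact_singleton.prod hK
  have hK0U : ({0} : Set G) ×ˢ K ⊆ U := by
    rintro ⟨v, p⟩ ⟨hv, hp⟩
    obtain rfl : v = 0 := hv
    exact hKU p hp
  obtain ⟨δ, hδ, hδU⟩ := hK0.exists_cthickening_subset_open hU hK0U
  obtain ⟨C, h1, h2⟩ := jb_compact hU hΦ (hK0.cthickening (r := δ)) hδU (k + 1)
  refine ⟨C, h1, δ, hδ, fun v hv p hp => ?_⟩
  have hb : closedBall ((0 : G), p) δ ⊆ cthickening δ (({0} : Set G) ×ˢ K) :=
    closedBall_subset_cthickening (mk_mem_prod (mem_singleton _) hp) δ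
  have hn : ‖(v, p) - ((0 : G), p)‖ = ‖v‖ := by simp
  have hv' : (v, p) ∈ closedBall ((0 : G), p) δ := by
    rw [mem_closedBall, dist_eq_norm, hn]
    exact hv
  refine ⟨hδU (hb hv'), fun i hi => ?_⟩
  have h3 := mean_Jet2 (fun x hx => hΦ.contDiffAt (hU.mem_nhds (hδU (hb hx))))
    (fun x hx => h2 x (hb hx)) hv' i hi
  have h4 := slice_Jet2 (hΦ.contDiffAt (hU.mem_nhds (hδU (hb hv')))) i
  have h5 := slice_Jet2 (hΦ.contDiffAt (hU.mem_nhds (hKU p hp))) i
  have h6 : (fun q => Φ (0, q)) =ᶠ[𝓝 p] fun _ => 0 := by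
    have : (fun q : D => ((0 : G), q)) ⁻¹' U ∈ 𝓝 p :=
      (hU.preimage (continuous_const.prodMk continuous_id)).mem_nhds (hKU p hp)
    filter_upwards [this] with q hq using h0 q hq
  dsimp only at h4 h5
  rw [(h6.iteratedFDeriv ℝ i).eq_of_nhds, iteratedFDeriv_fun_zero, Pi.zero_apply] at h5
  have h7 : iteratedFDeriv ℝ i (fun q => Φ (v, q)) p =
      (iteratedFDeriv ℝ i Φ (v, p) - iteratedFDeriv ℝ i Φ (0, p)).compContinuousLinearMap
        fun _ => ContinuousLinearMap.inr ℝ G D := by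
    rw [h4]
    ext m
    have h8 := congrArg (fun A => A m) h5
    simp only [zero_apply,
      ContinuousMultilinearMap.compContinuousLinearMap_apply] at h8
    simp only [ContinuousMultilinearMap.compContinuousLinearMap_apply,
      sub_apply, ← h8, sub_zero]
  rw [h7, ← hn]
  exact (norm_inr_Jet2 _).trans h3

theorem jb_mean {f : D → F} {k : ℕ} {p q : D} {r M : ℝ}
    (hf : ∀ x ∈ closedBall p r, ContDiffAt ℝ ∞ f x) (h : ∀ x ∈ closedBall p r, JB f (k + 1) x M)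
    (hq : q ∈ closedBall p r) (i : ℕ) (hi : i ≤ k) :
    ‖iteratedFDeriv ℝ i f q - iteratedFDeriv ℝ i f p‖ ≤ M * ‖q - p‖ :=
  mean_Jet2 hf h hq i hi

/-- a function smooth on an open set containing the support ball and zero off that ball -/
theorem supp_of_contDiffOn {f : D → F} {U : Set D} {r : ℝ} (hU : IsOpen U)
    (hf : ContDiffOn ℝ ∞ f U) (hr : closedBall (0 : D) r ⊆ U)
    (h0 : ∀ p, p ∉ closedBall (0 : D) r → f p = 0) : Supp r f := by
  refine ⟨contDiff_iff_contDiffAt.2 fun p => ?_, h0⟩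
  by_cases hp : p ∈ closedBall (0 : D) r
  · exact hf.contDiffAt (hU.mem_nhds (hr hp))
  · refine (contDiffAt_const (c := (0 : F))).congr_of_eventuallyEq ?_
    filter_upwards [isClosed_closedBall.isOpen_compl.mem_nhds hp] with q hq using h0 q hq

theorem Supp.mono {f : D → F} {r r' : ℝ} (h : Supp r f) (hr : r ≤ r') : Supp r' f :=
  ⟨h.1, fun p hp => h.2 p fun hq => hp (closedBall_subset_closedBall hr hq)⟩

theorem Supp.hasCompactSupport [FiniteDimensional ℝ D] {f : D → F} {r : ℝ} (h : Supp r f) :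
    HasCompactSupport f :=
  HasCompactSupport.intro (isCompact_closedBall (0 : D) r) h.2

theorem Supp.fderiv {f : D → F} {r : ℝ} (h : Supp r f) : Supp r (fderiv ℝ f) := by
  refine ⟨h.1.fderiv_right (m := ∞) (by simp), fun p hp => ?_⟩
  have h3 : f =ᶠ[𝓝 p] fun _ => 0 := by
    filter_upwards [isClosed_closedBall.isOpen_compl.mem_nhds hp] with q hq using h.2 q hq
  rw [h3.fderiv_eq, fderiv_fun_const, Pi.zero_apply]

theorem Supp.smul_on {a : D → ℝ} {f : D → F} {U : Set D} {r : ℝ} (ha : Supp r a) (hU : IsOpen U)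
    (hf : ContDiffOn ℝ ∞ f U) (hr : closedBall (0 : D) r ⊆ U) :
    Supp r (fun p => a p • f p) :=
  supp_of_contDiffOn hU (ha.1.contDiffOn.smul hf) hr fun p hp => by
    rw [ha.2 p hp, zero_smul]

theorem Supp.clm_on {A : D → F →L[ℝ] G} {f : D → F} {U : Set D} {r : ℝ} (hf : Supp r f)
    (hU : IsOpen U) (hA : ContDiffOn ℝ ∞ A U) (hr : closedBall (0 : D) r ⊆ U) :
    Supp r (fun p => A p (f p)) :=
  supp_of_contDiffOn hU (hA.clm_apply hf.1.contDiffOn) hr fun p hp => by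
    rw [hf.2 p hp, map_zero]

theorem Supp.d1 {γ : E → Cov} {r : ℝ} (h : Supp r γ) : IsLoc r (d1 γ) := by
  refine ⟨⟨?_, fun p hp => ?_⟩, fun p u v => ?_⟩
  · exact h.fderiv.1.sub
      ((ContinuousLinearMap.flipₗᵢ ℝ E E ℝ).contDiff.comp h.fderiv.1)
  · ext u v
    rw [d1_apply, h.fderiv.2 p hp]
    simp
  · rw [d1_apply, d1_apply]
    ring

/-- cut-off functions on `ℝ⁴` -/
theorem exists_cutoff {r r' : ℝ} (hr : 0 < r) (hr' : r < r') : ∃ χ : E → ℝ, Supp r' χ ∧
    (∀ p, 0 ≤ χ p) ∧ (∀ p, χ p ≤ 1) ∧ ∀ p ∈ closedBall (0 : E) r, χ p = 1 := by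
  let b : ContDiffBump (0 : E) := ⟨r, r', hr, hr'⟩
  refine ⟨b, ⟨b.contDiff, fun p hp => b.zero_of_le_dist ?_⟩, fun p => b.nonneg, fun p => b.le_one,
    fun p hp => b.one_of_mem_closedBall hp⟩
  exact (not_le.1 hp).le


end

end Vale.Agent.P204
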