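import Vale.Agent.P204.Defs2
import Vale.Agent.P204.Alg2
import Vale.Agent.P204.Jet2

/-!
P204 At1: geometry of the transition maps.
Plan: `cocycle` with `l = i` gives the inverse; chain rule on the open set (eventual equality).
`ov` is closed (`haus`) and bounded. `lip`: `IsCompact.exists_cthickening_subset_open`, bound
`fderiv τ` on the compact `cthickening`, mean value inequality on `closedBall q δ`; finite minimum
over the pairs `(i, j)` (e.g. via `Filter.eventually_all` on `𝓝[>] 0`, or `Finite.exists_le`).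
`det_pos` from `WL_pull`, `orient` and compatibility of `pp J Ω`. `herm`: continuity of
`(p, v) ↦ g p v v` on the compact ball times the unit sphere.
-/

namespace Vale.Agent.P204

open scoped ContDiff Topology
open Metric MeasureTheory Set Filter

noncomputable section

theorem unif_At1 {ι : Type} [Finite ι] {P : ι → ℝ → Prop}
    (hm : ∀ i L L', 1 ≤ L → L ≤ L' → P i L → P i L') (h : ∀ i, ∃ L ≥ 1, P i L) :
    ∃ L ≥ 1, ∀ i, P i L := by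
  choose f h1 h2 using h
  obtain ⟨M, hM⟩ := Finite.exists_le f
  exact ⟨max 1 M, le_max_left _ _, fun i => hm i _ _ (h1 i) ((hM i).trans (le_max_right _ _)) (h2 i)⟩

theorem bound_At1 {X F : Type} [TopologicalSpace X] [NormedAddCommGroup F] {f : X → F} {K : Set X}
    (hK : IsCompact K) (hf : ContinuousOn f K) : ∃ C ≥ 1, ∀ p ∈ K, ‖f p‖ ≤ C := by
  obtain ⟨C, hC⟩ := hK.exists_bound_of_continuousOn hf
  exact ⟨max 1 C, le_max_left _ _, fun p hp => (hC p hp).trans (le_max_right _ _)⟩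

theorem mv_At1 {F : Type} [NormedAddCommGroup F] [NormedSpace ℝ F] {f : E → F} {U K : Set E}
    (hU : IsOpen U) (hf : ContDiffOn ℝ ∞ f U) (hK : IsCompact K) (hKU : K ⊆ U) :
    ∃ C ≥ 1, ∀ s ⊆ K, Convex ℝ s → ∀ p ∈ s, ∀ q ∈ s, ‖f q - f p‖ ≤ C * ‖q - p‖ := by
  obtain ⟨C, h1, hC⟩ := bound_At1 hK
    ((hf.continuousOn_fderiv_of_isOpen hU (by exact_mod_cast le_top)).mono hKU)
  exact ⟨C, h1, fun s hs hc p hp q hq => hc.norm_image_sub_le_of_norm_fderiv_le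
    (fun x hx => (hf.contDiffAt (hU.mem_nhds (hKU (hs hx)))).differentiableAt (by simp))
    (fun x hx => hC x (hs hx)) hp hq⟩

namespace Atlas

variable {𝒜 : Atlas}

theorem τ_inv (i j : Fin 𝒜.n) {p : E} (hp : p ∈ 𝒜.O i j) : 𝒜.τ j i (𝒜.τ i j p) = p :=
  (𝒜.cocycle i j i p hp (𝒜.maps i j p hp)).2.trans (𝒜.τ_self i p (𝒜.O_sub i j hp))

theorem τ_mem (i j : Fin 𝒜.n) {p : E} (hp : p ∈ 𝒜.O i j) : 𝒜.τ i j p ∈ ball (0 : E) 4 :=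
  𝒜.O_sub j i (𝒜.maps i j p hp)

theorem O_trans (i j l : Fin 𝒜.n) {p : E} (hj : p ∈ 𝒜.O i j) (hl : p ∈ 𝒜.O i l) :
    𝒜.τ i j p ∈ 𝒜.O j l ∧ 𝒜.τ j l (𝒜.τ i j p) = 𝒜.τ i l p := by
  have h := 𝒜.cocycle j i l _ (𝒜.maps i j p hj) (by rwa [τ_inv i j hj])
  exact ⟨h.1, (𝒜.cocycle i j l p hj h.1).2⟩

theorem τ_contDiffAt (i j : Fin 𝒜.n) {p : E} (hp : p ∈ 𝒜.O i j) : ContDiffAt ℝ ∞ (𝒜.τ i j) p :=
  (𝒜.τ_smooth i j).contDiffAt ((𝒜.isOpen_O i j).mem_nhds hp)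

theorem τ_injOn (i j : Fin 𝒜.n) : InjOn (𝒜.τ i j) (𝒜.O i j) := fun p hp q hq h => by
  rw [← τ_inv i j hp, h, τ_inv i j hq]

theorem fderiv_τ_comp (i j l : Fin 𝒜.n) {p : E} (hj : p ∈ 𝒜.O i j) (hl : p ∈ 𝒜.O i l) :
    (fderiv ℝ (𝒜.τ j l) (𝒜.τ i j p)).comp (fderiv ℝ (𝒜.τ i j) p) = fderiv ℝ (𝒜.τ i l) p := by
  rw [← fderiv_comp p ((τ_contDiffAt j l (O_trans i j l hj hl).1).differentiableAt (by simp))
    ((τ_contDiffAt i j hj).differentiableAt (by simp))]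
  refine Filter.EventuallyEq.fderiv_eq ?_
  filter_upwards [(𝒜.isOpen_O i j).mem_nhds hj, (𝒜.isOpen_O i l).mem_nhds hl] with q h1 h2
  exact (O_trans i j l h1 h2).2

theorem fderiv_τ_self (i : Fin 𝒜.n) {p : E} (hp : p ∈ ball (0 : E) 4) :
    fderiv ℝ (𝒜.τ i i) p = ContinuousLinearMap.id ℝ E := by
  rw [← fderiv_id (x := p)]
  refine Filter.EventuallyEq.fderiv_eq ?_
  filter_upwards [isOpen_ball.mem_nhds hp] with q h
  exact 𝒜.τ_self i q h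

theorem ov_compact (i j : Fin 𝒜.n) {r r' : ℝ} (hr : r < 4) (hr' : r' < 4) :
    IsCompact (𝒜.ov i j r r') :=
  (isCompact_closedBall (0 : E) r).of_isClosed_subset (𝒜.haus i j r r' hr hr') fun _ hp => hp.1

theorem ov_swap_At1 {i j : Fin 𝒜.n} {r r' : ℝ} {p : E} (hp : p ∈ 𝒜.ov i j r r') :
    𝒜.τ i j p ∈ 𝒜.ov j i r' r :=
  ⟨hp.2.2, 𝒜.maps i j p hp.2.1, by
    rw [τ_inv i j hp.2.1]
    exact hp.1⟩

theorem ov_image (i j : Fin 𝒜.n) (r r' : ℝ) : 𝒜.τ i j '' 𝒜.ov i j r r' = 𝒜.ov j i r' r := by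
  refine Subset.antisymm ?_ fun q hq => ⟨_, ov_swap_At1 hq, τ_inv j i hq.2.1⟩
  rintro _ ⟨p, hp, rfl⟩
  exact ov_swap_At1 hp

theorem lip {r r' : ℝ} (hr : r < 4) (hr' : r' < 4) : ∃ δ > 0, ∃ L ≥ 1, ∀ i j,
    ∀ q ∈ 𝒜.ov i j r r', ∀ p, dist p q ≤ δ →
      p ∈ 𝒜.O i j ∧ dist (𝒜.τ i j p) (𝒜.τ i j q) ≤ L * dist p q := by
  obtain ⟨L, h1, hL⟩ := unif_At1 (P := fun (z : Fin 𝒜.n × Fin 𝒜.n) L => ∀ q ∈ 𝒜.ov z.1 z.2 r r',
    ∀ p, dist p q ≤ L⁻¹ → p ∈ 𝒜.O z.1 z.2 ∧ dist (𝒜.τ z.1 z.2 p) (𝒜.τ z.1 z.2 q) ≤ L * dist p q)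
    (fun z L L' h1 h2 h q hq p hp => by
      have k := h q hq p (hp.trans (inv_anti₀ (by linarith) h2))
      exact ⟨k.1, k.2.trans (mul_le_mul_of_nonneg_right h2 dist_nonneg)⟩)
    fun z => by
      have hK := ov_compact z.1 z.2 hr hr'
      obtain ⟨δ, h0, hδ⟩ := hK.exists_cthickening_subset_open (𝒜.isOpen_O z.1 z.2)
        fun _ hp => hp.2.1
      obtain ⟨C, h1, hC⟩ := mv_At1 (𝒜.isOpen_O z.1 z.2) (𝒜.τ_smooth z.1 z.2)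
        (hK.cthickening (r := δ)) hδ
      refine ⟨max C δ⁻¹, h1.trans (le_max_left _ _), fun q hq p hp => ?_⟩
      have hp' : p ∈ closedBall q δ := hp.trans (inv_le_of_inv_le₀ h0 (le_max_right _ _))
      have hs := closedBall_subset_cthickening hq δ
      refine ⟨hδ (hs hp'), ?_⟩
      rw [dist_eq_norm, dist_eq_norm]
      exact (hC _ hs (convex_closedBall _ _) q (mem_closedBall_self h0.le) p hp').trans
        (mul_le_mul_of_nonneg_right (le_max_left _ _) (norm_nonneg _))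
  exact ⟨L⁻¹, inv_pos.2 (by linarith), L, h1, fun i j => hL (i, j)⟩

theorem τ_jets (k : ℕ) {r r' : ℝ} (hr : r < 4) (hr' : r' < 4) : ∃ L ≥ 1, ∀ i j,
    ∀ p ∈ 𝒜.ov i j r r', JB (𝒜.τ i j) k p L := by
  obtain ⟨L, h1, hL⟩ := unif_At1 (P := fun (z : Fin 𝒜.n × Fin 𝒜.n) L =>
    ∀ p ∈ 𝒜.ov z.1 z.2 r r', JB (𝒜.τ z.1 z.2) k p L)
    (fun z L L' _ h2 h p hp i hi => (h p hp i hi).trans h2)
    fun z => jb_compact (𝒜.isOpen_O z.1 z.2) (𝒜.τ_smooth z.1 z.2) (ov_compact z.1 z.2 hr hr')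
      (fun _ hp => hp.2.1) k
  exact ⟨L, h1, fun i j => hL (i, j)⟩

theorem dτ_At1 {r r' : ℝ} (hr : r < 4) (hr' : r' < 4) : ∃ L ≥ 1, ∀ i j,
    ∀ p ∈ 𝒜.ov i j r r', ‖fderiv ℝ (𝒜.τ i j) p‖ ≤ L ∧ (fderiv ℝ (𝒜.τ i j) p).det ≤ L := by
  obtain ⟨L, h1, hL⟩ := unif_At1 (P := fun (z : Fin 𝒜.n × Fin 𝒜.n) L =>
    ∀ p ∈ 𝒜.ov z.1 z.2 r r', ‖fderiv ℝ (𝒜.τ z.1 z.2) p‖ ≤ L ∧ (fderiv ℝ (𝒜.τ z.1 z.2) p).det ≤ L)
    (fun z L L' _ h2 h p hp => ⟨(h p hp).1.trans h2, (h p hp).2.trans h2⟩)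
    fun z => by
      have hK := ov_compact z.1 z.2 hr hr'
      have hc : ContinuousOn (fderiv ℝ (𝒜.τ z.1 z.2)) (𝒜.ov z.1 z.2 r r') :=
        ((𝒜.τ_smooth z.1 z.2).continuousOn_fderiv_of_isOpen (𝒜.isOpen_O z.1 z.2)
          (by exact_mod_cast le_top)).mono fun _ hp => hp.2.1
      obtain ⟨C, h1, hC⟩ := bound_At1 hK hc
      obtain ⟨C', -, hC'⟩ := bound_At1 hK (ContinuousLinearMap.continuous_det.comp_continuousOn hc)
      exact ⟨max C C', h1.trans (le_max_left _ _), fun p hp => ⟨(hC p hp).trans (le_max_left _ _),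
        (le_abs_self _).trans ((hC' p hp).trans (le_max_right _ _))⟩⟩
  exact ⟨L, h1, fun i j => hL (i, j)⟩

theorem det_pos_At1 (i j : Fin 𝒜.n) {p : E} (hp : p ∈ 𝒜.O i j) :
    0 < (fderiv ℝ (𝒜.τ i j) p).det := by
  have e : pp (𝒜.J i p) (𝒜.Ω i p) = pullL (fderiv ℝ (𝒜.τ i j) p)
      (pp (𝒜.J j (𝒜.τ i j p)) (𝒜.Ω j (𝒜.τ i j p))) := by
    ext u v
    simp only [pp_apply, pullL_apply]
    rw [𝒜.Ω_compat i j p hp]
    simp only [pullL_apply, 𝒜.J_compat i j p hp]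
  have h := 𝒜.orient i p (𝒜.O_sub i j hp)
  rw [e, WL_pull ((𝒜.Ω_alt j _).pp _) ((𝒜.Ω_alt j _).pp _)] at h
  exact (mul_pos_iff_of_pos_right (𝒜.orient j _ (τ_mem i j hp))).1 h

theorem dτ_bounds {r r' : ℝ} (hr : r < 4) (hr' : r' < 4) : ∃ L ≥ 1, ∀ i j,
    ∀ p ∈ 𝒜.ov i j r r', (∀ v, ‖v‖ ≤ L * ‖fderiv ℝ (𝒜.τ i j) p v‖) ∧ ‖fderiv ℝ (𝒜.τ i j) p‖ ≤ L ∧
      1 ≤ L * (fderiv ℝ (𝒜.τ i j) p).det ∧ (fderiv ℝ (𝒜.τ i j) p).det ≤ L := by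
  obtain ⟨L, h1, hL⟩ := dτ_At1 (𝒜 := 𝒜) hr hr'
  obtain ⟨L', -, hL'⟩ := dτ_At1 (𝒜 := 𝒜) hr' hr
  refine ⟨max L L', h1.trans (le_max_left _ _), fun i j p hp => ?_⟩
  obtain ⟨a1, a2⟩ := hL i j p hp
  obtain ⟨b1, b2⟩ := hL' j i _ (ov_swap_At1 hp)
  have hb := 𝒜.O_sub i j hp.2.1
  have e := (fderiv_τ_comp i j i hp.2.1 (by rwa [𝒜.O_self])).trans (fderiv_τ_self i hb)
  refine ⟨fun v => ?_, a1.trans (le_max_left _ _), ?_, a2.trans (le_max_left _ _)⟩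
  · have e1 : fderiv ℝ (𝒜.τ j i) (𝒜.τ i j p) (fderiv ℝ (𝒜.τ i j) p v) = v :=
      congrArg (fun A : End => A v) e
    exact (congrArg norm e1).ge.trans ((fderiv ℝ (𝒜.τ j i) (𝒜.τ i j p)).le_of_opNorm_le
      (b1.trans (le_max_right L L')) _)
  · have e1 : (fderiv ℝ (𝒜.τ j i) (𝒜.τ i j p)).det * (fderiv ℝ (𝒜.τ i j) p).det = 1 :=
      (LinearMap.det_comp _ _).symm.trans
        ((congrArg ContinuousLinearMap.det e).trans LinearMap.det_id)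
    exact e1.ge.trans (mul_le_mul_of_nonneg_right (b2.trans (le_max_right L L'))
      (det_pos_At1 i j hp.2.1).le)

theorem det_pos (i j : Fin 𝒜.n) {p : E} (hp : p ∈ 𝒜.O i j) : 0 < (fderiv ℝ (𝒜.τ i j) p).det :=
  det_pos_At1 i j hp

theorem g_smooth (j : Fin 𝒜.n) : ContDiffOn ℝ ∞ (𝒜.g j) (ball 0 4) := by
  refine contDiffOn_clm_apply.2 fun u => contDiffOn_clm_apply.2 fun v => ?_
  simp only [g, gOf_apply]
  exact contDiffOn_const.mul ((((𝒜.Ω_smooth j).clm_apply contDiffOn_const).clm_apply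
    ((𝒜.J_smooth j).clm_apply contDiffOn_const)).add (((𝒜.Ω_smooth j).clm_apply
      contDiffOn_const).clm_apply ((𝒜.J_smooth j).clm_apply contDiffOn_const)))

theorem pos_At1 {r : ℝ} (hr : r < 4) (j : Fin 𝒜.n) :
    ∃ c > 0, ∀ p ∈ closedBall (0 : E) r, ∀ v, c * ‖v‖ ^ 2 ≤ 𝒜.g j p v v := by
  have cg : ContinuousOn (fun y : E × E => 𝒜.g j y.1) (closedBall 0 r ×ˢ sphere 0 1) :=
    (g_smooth j).continuousOn.comp continuousOn_fst fun y hy => cb_sub hr hy.1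
  have cf : ContinuousOn (fun y : E × E => 𝒜.g j y.1 y.2 y.2) (closedBall 0 r ×ˢ sphere 0 1) :=
    (cg.clm_apply continuousOn_snd).clm_apply continuousOn_snd
  obtain ⟨c, c0, hc⟩ := ((isCompact_closedBall (0 : E) r).prod
    (isCompact_sphere (0 : E) 1)).exists_forall_le' cf (a := 0) fun y hy => by
      have h := 𝒜.Ω_tame j y.1 (cb_sub hr hy.1) y.2 (ne_of_mem_sphere hy.2 one_ne_zero)
      rw [g, gOf_apply]
      linarith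
  refine ⟨c, c0, fun p hp v => ?_⟩
  rcases eq_or_ne v 0 with rfl | hv
  · simp
  have hn : 0 < ‖v‖ := norm_pos_iff.2 hv
  have k := hc (p, ‖v‖⁻¹ • v) ⟨hp, by
    rw [mem_sphere_zero_iff_norm, norm_smul, norm_inv, norm_norm, inv_mul_cancel₀ hn.ne']⟩
  simp only [map_smul, smul_apply, smul_eq_mul] at k
  rw [← mul_assoc, ← mul_inv, inv_mul_eq_div, le_div_iff₀ (by positivity)] at k
  rwa [sq]

theorem herm {r : ℝ} (hr : r < 4) : ∃ c C : ℝ, 1 ≤ C ∧ ∀ j, ∀ p ∈ closedBall (0 : E) r,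
    Herm (𝒜.g j p) (𝒜.J j p) c C := by
  have h0 : ∀ j, ∃ L ≥ (1 : ℝ), ∀ p ∈ closedBall (0 : E) r,
      (∀ v, L⁻¹ * ‖v‖ ^ 2 ≤ 𝒜.g j p v v) ∧ ‖𝒜.g j p‖ ≤ L ∧ ‖𝒜.J j p‖ ≤ L := fun j => by
    have hK := isCompact_closedBall (0 : E) r
    obtain ⟨C, h1, hC⟩ := bound_At1 hK ((g_smooth j).continuousOn.mono (cb_sub hr))
    obtain ⟨C', -, hC'⟩ := bound_At1 hK ((𝒜.J_smooth j).continuousOn.mono (cb_sub hr))
    obtain ⟨c, c0, hc⟩ := pos_At1 hr j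
    exact ⟨max (max C C') c⁻¹, h1.trans ((le_max_left _ _).trans (le_max_left _ _)),
      fun p hp => ⟨fun v => (mul_le_mul_of_nonneg_right (inv_le_of_inv_le₀ c0 (le_max_right _ _))
        (sq_nonneg _)).trans (hc p hp v),
        (hC p hp).trans ((le_max_left _ _).trans (le_max_left _ _)),
        (hC' p hp).trans ((le_max_right _ _).trans (le_max_left _ _))⟩⟩
  obtain ⟨L, h1, hL⟩ := unif_At1 (fun j L L' h1 h2 h p hp => ⟨fun v => (mul_le_mul_of_nonneg_right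
    (inv_anti₀ (by linarith) h2) (sq_nonneg _)).trans ((h p hp).1 v), (h p hp).2.1.trans h2,
    (h p hp).2.2.trans h2⟩) h0
  exact ⟨L⁻¹, L, h1, fun j p hp => ⟨𝒜.J_sq j p (cb_sub hr hp), gOf_symm _ _,
    gOf_inv (𝒜.Ω_alt j p) (𝒜.J_sq j p (cb_sub hr hp)), (hL j p hp).1, inv_pos.2 (by linarith),
    (hL j p hp).2.1, (hL j p hp).2.2⟩⟩

theorem orient' (j : Fin 𝒜.n) {p : E} (hp : p ∈ ball (0 : E) 4) :
    0 < WL (om (𝒜.g j p) (𝒜.J j p)) (om (𝒜.g j p) (𝒜.J j p)) := by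
  rw [g, om_gOf (𝒜.Ω_alt j p) (𝒜.J_sq j p hp)]
  exact 𝒜.orient j p hp

theorem J_lip {r : ℝ} (hr : r < 4) : ∃ L ≥ 1, ∀ j, ∀ p ∈ closedBall (0 : E) r,
    ∀ q ∈ closedBall (0 : E) r, ‖𝒜.J j q - 𝒜.J j p‖ ≤ L * ‖q - p‖ :=
  unif_At1 (P := fun (j : Fin 𝒜.n) L => ∀ p ∈ closedBall (0 : E) r,
    ∀ q ∈ closedBall (0 : E) r, ‖𝒜.J j q - 𝒜.J j p‖ ≤ L * ‖q - p‖)
    (fun _ _ _ _ h2 h p hp q hq =>
      (h p hp q hq).trans (mul_le_mul_of_nonneg_right h2 (norm_nonneg _)))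
    fun j => by
      obtain ⟨C, h1, hC⟩ := mv_At1 isOpen_ball (𝒜.J_smooth j) (isCompact_closedBall (0 : E) r)
        (cb_sub hr)
      exact ⟨C, h1, hC _ Subset.rfl (convex_closedBall _ _)⟩

theorem lin_compat (β : 𝒜.Form) (i j : Fin 𝒜.n) {y : E × E} (hy : y.1 ∈ 𝒜.O i j) :
    lin β j (𝒜.τ i j y.1, fderiv ℝ (𝒜.τ i j) y.1 y.2) = lin β i y := by
  rw [lin, lin, Form.compat β i j hy, pullL_apply, 𝒜.J_compat i j _ hy]

theorem lin_Am (β : 𝒜.Form) (j : Fin 𝒜.n) (y : E × E) : lin (𝒜.Am β) j y = 0 := by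
  by_cases hy : y.1 ∈ ball (0 : E) 4
  · exact pm_line (𝒜.J_sq j _ hy) (Form.alt β j _) _
  · rw [lin, Form.zero _ j hy]
    rfl

theorem Am_Am (β : 𝒜.Form) : 𝒜.Am (𝒜.Am β) = 𝒜.Am β :=
  Form.ext' fun j p hp => pm_pm (𝒜.J_sq j p hp) _

theorem Am_Ap (β : 𝒜.Form) : 𝒜.Am (𝒜.Ap β) = 0 := by
  rw [Ap_eq, map_sub, Am_Am, sub_self]

theorem Ap_add_Am (β : 𝒜.Form) : 𝒜.Ap β + 𝒜.Am β = β := by
  rw [Ap_eq, sub_add_cancel]

end Atlas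

end

end Vale.Agent.P204
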