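import Vale.Agent.P204.At1

/-!
P204 At2: comparison of jets in different charts, `C^k` seminorms.
Plan: near `p ∈ O i j`, `β i = q ↦ pullL (fderiv τ q) (β j (τ q))` (`Form.compat`, `SJB.congr`);
`SJB.clm_apply`, `SJB.comp`, `τ_jets`; jets of `q ↦ pullL (fderiv τ q)` are bounded on the
compact `ov` by `jb_compact` and `SJB.scale`. `Cn_jb` uses `cover`. `cn` is a supremum of a set
bounded above (`exists_Cn`) and nonempty (`npos`).
-/

namespace Vale.Agent.P204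

open scoped ContDiff Topology
open Metric MeasureTheory Set Filter

noncomputable section

namespace Atlas

variable {𝒜 : Atlas}

private theorem cd_At2 (β : 𝒜.Form) (j : Fin 𝒜.n) {p : E} (hp : p ∈ closedBall (0 : E) 1) :
    ContDiffAt ℝ ∞ (β.1 j) p := Form.contDiffAt β j (cb_sub (by norm_num) hp)

theorem cmp (k : ℕ) {r r' : ℝ} (hr : r < 4) (hr' : r' < 4) : ∃ C ≥ 1, ∀ (β : 𝒜.Form) i j,
    ∀ p ∈ 𝒜.ov i j r r', ∀ t M : ℝ, 0 < t → t ≤ 1 → SJB (β.1 j) k t (𝒜.τ i j p) M →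
      SJB (β.1 i) k t p (C * M) := by
  choose a _ ha using fun x : Fin 𝒜.n × Fin 𝒜.n => jb_compact (𝒜.isOpen_O x.1 x.2)
    (contDiff_pullL.comp_contDiffOn ((𝒜.τ_smooth x.1 x.2).fderiv_of_isOpen (m := ∞)
      (𝒜.isOpen_O x.1 x.2) (by simp))) (ov_compact x.1 x.2 hr hr') (fun _ hp => hp.2.1) k
  obtain ⟨b, hb⟩ := Finite.exists_le a
  obtain ⟨L, hL, h1⟩ := τ_jets (𝒜 := 𝒜) k hr hr'
  refine ⟨2 ^ k * max b 1 * (k.factorial * L ^ k), ?_, fun β i j p hp t M ht ht1 h => ?_⟩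
  · exact one_le_mul_of_one_le_of_one_le (one_le_mul_of_one_le_of_one_le
      (one_le_pow₀ one_le_two) (le_max_right _ _)) (one_le_mul_of_one_le_of_one_le
      (Nat.one_le_cast.2 k.factorial_pos) (one_le_pow₀ hL))
  · have h2 := τ_contDiffAt i j hp.2.1
    have h3 := Form.contDiffAt β j (τ_mem i j hp.2.1)
    have h5 := SJB.comp ht ht1 h3 h2 h hL fun n _ hn => h1 i j p hp n hn
    have h6 := (((JB_iff_SJB _ _ _ _).1 (ha (i, j) p hp)).scale ht.le ht1).mono le_rfl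
      ((hb _).trans (le_max_left b 1))
    have h7 : ContDiffAt ℝ ∞ (fun q => β.1 j (𝒜.τ i j q)) p := h3.comp p h2
    have h4 := SJB.clm_apply ht.le
      (contDiff_pullL.contDiffAt.comp p (h2.fderiv_right (m := ∞) (by simp))) h7 h6 h5
    rw [← mul_assoc] at h4
    refine h4.congr ?_
    filter_upwards [(𝒜.isOpen_O i j).mem_nhds hp.2.1] with q hq using Form.compat β i j hq

theorem Cn_jb (k : ℕ) {r : ℝ} (hr : r < 4) : ∃ C ≥ 1, ∀ (β : 𝒜.Form) M, Cn k β M →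
    ∀ j, ∀ p ∈ closedBall (0 : E) r, JB (β.1 j) k p (C * M) := by
  obtain ⟨C, hC, h⟩ := cmp (𝒜 := 𝒜) k hr (show (1 : ℝ) < 4 by norm_num)
  refine ⟨C, hC, fun β M hβ j p hp => ?_⟩
  obtain ⟨l, h1, h2⟩ := 𝒜.cover j p (cb_sub hr hp)
  exact (JB_iff_SJB _ _ _ _).2 (h β j l p ⟨hp, h1, h2⟩ 1 M one_pos le_rfl
    ((JB_iff_SJB _ _ _ _).1 (hβ l _ h2)))

theorem exists_Cn (k : ℕ) (β : 𝒜.Form) : ∃ M, Cn k β M := by
  choose a _ ha using fun j => jb_compact isOpen_ball (Form.smooth β j)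
    (isCompact_closedBall (0 : E) 1) (cb_sub (by norm_num)) k
  obtain ⟨b, hb⟩ := Finite.exists_le a
  exact ⟨b, fun j p hp i hi => (ha j p hp i hi).trans (hb j)⟩

theorem Cn.nonneg {k : ℕ} {β : 𝒜.Form} {M : ℝ} (h : Cn k β M) : 0 ≤ M :=
  (norm_nonneg _).trans (h ⟨0, 𝒜.npos⟩ 0 (mem_closedBall_self zero_le_one) 0 k.zero_le)

theorem Cn.mono {k k' : ℕ} {β : 𝒜.Form} {M M' : ℝ} (h : Cn k β M) (hk : k' ≤ k) (hM : M ≤ M') :
    Cn k' β M' := fun j p hp i hi => (h j p hp i (hi.trans hk)).trans hM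

theorem Cn.add {k : ℕ} {α β : 𝒜.Form} {M M' : ℝ} (h : Cn k α M) (h' : Cn k β M') :
    Cn k (α + β) (M + M') := fun j p hp =>
  (JB_iff_SJB _ _ _ _).2 (SJB.add zero_le_one (cd_At2 α j hp) (cd_At2 β j hp)
    ((JB_iff_SJB _ _ _ _).1 (h j p hp)) ((JB_iff_SJB _ _ _ _).1 (h' j p hp)))

theorem Cn.smul {k : ℕ} {β : 𝒜.Form} {M : ℝ} (h : Cn k β M) (c : ℝ) : Cn k (c • β) (|c| * M) := by
  intro j p hp i hi
  have e := iteratedFDeriv_const_smul_apply (a := c) ((cd_At2 β j hp).of_le (le_infty_Jet1 i))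
  refine (congrArg norm e).trans_le ?_
  rw [norm_smul, Real.norm_eq_abs]
  exact mul_le_mul_of_nonneg_left (h j p hp i hi) (abs_nonneg c)

theorem Cn.neg {k : ℕ} {β : 𝒜.Form} {M : ℝ} (h : Cn k β M) : Cn k (-β) M := by
  have h1 := h.smul (-1)
  rw [abs_neg, abs_one, one_mul] at h1
  exact neg_one_smul ℝ β ▸ h1

theorem Cn.sub {k : ℕ} {α β : 𝒜.Form} {M M' : ℝ} (h : Cn k α M) (h' : Cn k β M') :
    Cn k (α - β) (M + M') := by
  rw [sub_eq_add_neg]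
  exact h.add h'.neg

theorem Cn_zero (k : ℕ) : Cn k (0 : 𝒜.Form) 0 := fun _ _ _ =>
  (JB_iff_SJB _ _ _ _).2 (SJB_of_eventually_zero (Eventually.of_forall fun _ => rfl))

theorem eq_zero_of_Cn {β : 𝒜.Form} (h : ∀ ε > 0, Cn 0 β ε) : β = 0 := by
  refine Form.ext' fun j p hp => ?_
  obtain ⟨l, h1, h2⟩ := 𝒜.cover j p hp
  have h3 : β.1 l (𝒜.τ j l p) = 0 := norm_le_zero_iff.1 (le_of_forall_pos_le_add fun ε hε => by
    rw [zero_add]
    exact ((JB_iff_SJB _ _ _ _).1 (h ε hε l _ h2)).norm_le)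
  rw [Form.compat β j l h1, h3, map_zero]
  rfl

theorem sjb_Am (k : ℕ) {r : ℝ} (hr : r < 4) : ∃ C ≥ 1, ∀ (β : 𝒜.Form) j,
    ∀ p ∈ closedBall (0 : E) r, ∀ t M : ℝ, 0 < t → t ≤ 1 → SJB (β.1 j) k t p M →
      SJB ((𝒜.Am β).1 j) k t p (C * M) := by
  choose a _ ha using fun j => jb_compact isOpen_ball
    (contDiff_pm.comp_contDiffOn (𝒜.J_smooth j)) (isCompact_closedBall (0 : E) r) (cb_sub hr) k
  obtain ⟨b, hb⟩ := Finite.exists_le a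
  refine ⟨2 ^ k * max b 1, one_le_mul_of_one_le_of_one_le (one_le_pow₀ one_le_two)
    (le_max_right _ _), fun β j p hp t M ht ht1 h => ?_⟩
  exact SJB.clm_apply ht.le ((contDiff_pm.comp_contDiffOn (𝒜.J_smooth j)).contDiffAt
    (isOpen_ball.mem_nhds (cb_sub hr hp))) (Form.contDiffAt β j (cb_sub hr hp))
    ((((JB_iff_SJB _ _ _ _).1 (ha j p hp)).scale ht.le ht1).mono le_rfl
      ((hb _).trans (le_max_left b 1))) h

theorem Cn_Am (k : ℕ) : ∃ C ≥ 1, ∀ (β : 𝒜.Form) M, Cn k β M → Cn k (𝒜.Am β) (C * M) := by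
  obtain ⟨C, hC, h⟩ := sjb_Am (𝒜 := 𝒜) k (show (1 : ℝ) < 4 by norm_num)
  exact ⟨C, hC, fun β M hβ j p hp => (JB_iff_SJB _ _ _ _).2
    (h β j p hp 1 M one_pos le_rfl ((JB_iff_SJB _ _ _ _).1 (hβ j p hp)))⟩

/-- the `C^k` seminorm -/
def cn (k : ℕ) (β : 𝒜.Form) : ℝ := sInf {M | Cn k β M}

theorem Cn_cn (k : ℕ) (β : 𝒜.Form) : Cn k β (cn k β) :=
  fun j p hp i hi => le_csInf (exists_Cn k β) fun _ hM => hM j p hp i hi

theorem cn_le {k : ℕ} {β : 𝒜.Form} {M : ℝ} (h : Cn k β M) : cn k β ≤ M :=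
  csInf_le ⟨0, fun _ hM => Cn.nonneg hM⟩ h

theorem cn_nonneg (k : ℕ) (β : 𝒜.Form) : 0 ≤ cn k β := (Cn_cn k β).nonneg

theorem cn_add_le (k : ℕ) (α β : 𝒜.Form) : cn k (α + β) ≤ cn k α + cn k β :=
  cn_le ((Cn_cn k α).add (Cn_cn k β))

theorem cn_smul (k : ℕ) (c : ℝ) (β : 𝒜.Form) : cn k (c • β) = |c| * cn k β := by
  refine le_antisymm (cn_le ((Cn_cn k β).smul c)) ?_
  rcases eq_or_ne c 0 with rfl | hc
  · rw [abs_zero, zero_mul]
    exact cn_nonneg _ _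
  · have h := cn_le ((Cn_cn k (c • β)).smul c⁻¹)
    rwa [inv_smul_smul₀ hc, abs_inv, le_inv_mul_iff₀ (abs_pos.2 hc)] at h

theorem FinOrd.add {S S' : 𝒜.Form →ₗ[ℝ] ℝ} {k k' : ℕ} {C C' : ℝ} (h : FinOrd S k C)
    (h' : FinOrd S' k' C') : FinOrd (S + S') (max k k') (|C| + |C'|) := by
  intro β M hβ
  have h1 := h β M (hβ.mono (le_max_left _ _) le_rfl)
  have h2 := h' β M (hβ.mono (le_max_right _ _) le_rfl)
  have h3 := mul_le_mul_of_nonneg_right (le_abs_self C) hβ.nonneg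
  have h4 := mul_le_mul_of_nonneg_right (le_abs_self C') hβ.nonneg
  rw [LinearMap.add_apply, add_mul]
  exact (abs_add_le _ _).trans (by linarith)

theorem FinOrd.neg {S : 𝒜.Form →ₗ[ℝ] ℝ} {k : ℕ} {C : ℝ} (h : FinOrd S k C) : FinOrd (-S) k C :=
  fun β M hβ => (abs_neg (S β)).trans_le (h β M hβ)

theorem AOrd.finOrd {A : 𝒜.Form →ₗ[ℝ] ℝ} {k : ℕ} {C : ℝ} (h : AOrd A k C) :
    ∃ C', FinOrd (A ∘ₗ 𝒜.Am) k C' := by
  obtain ⟨D, -, hD⟩ := Cn_Am (𝒜 := 𝒜) k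
  exact ⟨C * D, fun β M hβ => (h _ _ (Am_Am β) (hD β M hβ)).trans_eq (mul_assoc _ _ _).symm⟩

theorem PM.cur_ord : ∃ C ≥ 0, ∀ T : 𝒜.PM, FinOrd T.cur 0 (C * T.mass) := by
  obtain ⟨c, C, hC, h⟩ := herm (𝒜 := 𝒜) (show (1 : ℝ) < 4 by norm_num)
  refine ⟨C, zero_le_one.trans hC, fun T β M hβ => ?_⟩
  rw [PM.cur_apply, PM.mass, Finset.mul_sum, Finset.sum_mul]
  refine (Finset.abs_sum_le_sum_abs _ _).trans (Finset.sum_le_sum fun j _ => ?_)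
  rw [mul_right_comm]
  refine norm_integral_le_of_norm_le_const (f := lin β j) ?_
  filter_upwards [T.supp j] with y hy
  have h1 := ((JB_iff_SJB _ _ _ _).1 (hβ j _ hy.1)).norm_le
  have h2 := (𝒜.J j y.1).le_of_opNorm_le (h j _ hy.1).Jle y.2
  refine ((β.1 j y.1).le_opNorm₂ _ _).trans ?_
  rw [hy.2, mul_one] at *
  rw [mul_comm C]
  exact mul_le_mul h1 h2 (norm_nonneg _) hβ.nonneg

end Atlas

end

end Vale.Agent.P204
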