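import Vale.Agent.P204.Jet2
import Vale.Agent.P204.Alg1

/-!
P204 Cal: exterior calculus on `ℝ⁴`.
Plan: `HasFDerivAt` of `q ↦ (γ (φ q)).comp (fderiv φ q)` by `HasFDerivAt.clm_comp`; the terms with
the second derivative of `φ` cancel by `ContDiffAt.isSymmSndFDerivAt`. For `closedAt_pull`
evaluate on constant vectors (`fderiv_clm_apply`), the six second-derivative terms cancel in
pairs by symmetry and `IsAlt`. `stokes_W`: `WL η (d1 γ)` expands (`WL_apply`) into products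
`η_ab ∂_c γ_d`; integrate by parts (`integral_mul_fderiv_eq_neg_fderiv_mul_of_integrable`, after
multiplying `η` by a cut-off equal to one near the support). `closedAt_of_weak`: test with
`γ = ρ(· - p) • dx_d` (`innerSL (e d)`), get the four components of `dη` at `p` (`moll_tendsto`
of Ms2 may be reproved here or imported), then trilinearity and antisymmetry.
-/

namespace Vale.Agent.P204

open scoped ContDiff Topology
open Metric MeasureTheory Set Filter

noncomputable section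

theorem two_Cal {F : Type} [NormedAddCommGroup F] [NormedSpace ℝ F] {φ : E → F} {p : E}
    (hφ : ContDiffAt ℝ ∞ φ p) :
    HasFDerivAt φ (fderiv ℝ φ p) p ∧ ContDiffAt ℝ ∞ (fderiv ℝ φ) p ∧
      HasFDerivAt (fderiv ℝ φ) (fderiv ℝ (fderiv ℝ φ) p) p ∧
      ∀ u v, fderiv ℝ (fderiv ℝ φ) p u v = fderiv ℝ (fderiv ℝ φ) p v u := by
  have h : ContDiffAt ℝ ∞ (fderiv ℝ φ) p := hφ.fderiv_right (by simp)
  refine ⟨(hφ.differentiableAt (by simp)).hasFDerivAt, h,
    (h.differentiableAt (by simp)).hasFDerivAt, fun u v => ?_⟩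
  exact (hφ.isSymmSndFDerivAt (by
    rw [minSmoothness_of_isRCLikeNormedField]
    exact WithTop.coe_le_coe.2 le_top)).eq u v

theorem ev_Cal {F : E → Bil} {p : E} (hF : DifferentiableAt ℝ F p) (v w : E) {D : E →L[ℝ] ℝ}
    (h : HasFDerivAt (fun q => F q v w) D p) (u : E) : fderiv ℝ F p u v w = D u := by
  have h1 := (hF.hasFDerivAt.clm_apply (hasFDerivAt_const v p)).clm_apply (hasFDerivAt_const w p)
  rw [← h1.unique h]
  simp

theorem cd1_Cal {γ : E → Cov} {p : E} (hγ : ContDiffAt ℝ ∞ γ p) : ContDiffAt ℝ ∞ (d1 γ) p :=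
  (two_Cal hγ).2.1.sub
    ((ContinuousLinearMap.flipₗᵢ ℝ E E ℝ).contDiff.contDiffAt.comp p (two_Cal hγ).2.1)

theorem d1_pull {γ : E → Cov} {φ : E → E} {p : E} (hγ : ContDiffAt ℝ ∞ γ (φ p))
    (hφ : ContDiffAt ℝ ∞ φ p) :
    d1 (fun q => (γ (φ q)).comp (fderiv ℝ φ q)) p = pullL (fderiv ℝ φ p) (d1 γ (φ p)) := by
  obtain ⟨h1, -, h2, h3⟩ := two_Cal hφ
  have H := (((two_Cal hγ).1.comp p h1).clm_comp h2).fderiv
  ext u v
  simp only [Function.comp_apply] at H
  rw [d1_apply, H]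
  simp [h3 u v]

theorem closedAt_pull {β : E → Bil} {φ : E → E} {p : E} (hβ : ContDiffAt ℝ ∞ β (φ p))
    (hφ : ContDiffAt ℝ ∞ φ p) (ha : IsAlt (β (φ p))) (hc : ClosedAt β (φ p)) :
    ClosedAt (fun q => pullL (fderiv ℝ φ q) (β (φ q))) p := by
  obtain ⟨h1, h0, h2, h3⟩ := two_Cal hφ
  have hF : DifferentiableAt ℝ (fun q => pullL (fderiv ℝ φ q) (β (φ q))) p :=
    ((contDiff_pullL.contDiffAt.comp p h0).clm_apply (hβ.comp p hφ)).differentiableAt (by simp)
  have key : ∀ u v w, fderiv ℝ (fun q => pullL (fderiv ℝ φ q) (β (φ q))) p u v w =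
      fderiv ℝ β (φ p) (fderiv ℝ φ p u) (fderiv ℝ φ p v) (fderiv ℝ φ p w) +
        β (φ p) (fderiv ℝ (fderiv ℝ φ) p u v) (fderiv ℝ φ p w) +
        β (φ p) (fderiv ℝ φ p v) (fderiv ℝ (fderiv ℝ φ) p u w) := by
    intro u v w
    have H := (((two_Cal hβ).1.comp p h1).clm_apply (h2.clm_apply (hasFDerivAt_const v p))).clm_apply
      (h2.clm_apply (hasFDerivAt_const w p))
    rw [ev_Cal hF v w (by simpa only [pullL_apply, Function.comp_apply] using H)]
    simp
    ring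
  intro u v w
  rw [key, key, key, h3 v u, h3 w v, h3 u w, ha (fderiv ℝ φ p v), ha (fderiv ℝ φ p w),
    ha (fderiv ℝ φ p u)]
  linarith [hc (fderiv ℝ φ p u) (fderiv ℝ φ p v) (fderiv ℝ φ p w)]

theorem closedAt_d1 {γ : E → Cov} {p : E} (hγ : ContDiffAt ℝ ∞ γ p) : ClosedAt (d1 γ) p := by
  obtain ⟨-, -, h2, h3⟩ := two_Cal hγ
  have key : ∀ u v w, fderiv ℝ (d1 γ) p u v w =
      fderiv ℝ (fderiv ℝ γ) p u v w - fderiv ℝ (fderiv ℝ γ) p u w v := by
    intro u v w
    have H := ((h2.clm_apply (hasFDerivAt_const v p)).clm_apply (hasFDerivAt_const w p)).fun_sub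
      ((h2.clm_apply (hasFDerivAt_const w p)).clm_apply (hasFDerivAt_const v p))
    rw [ev_Cal ((cd1_Cal hγ).differentiableAt (by simp)) v w (by simpa only [d1_apply] using H)]
    simp
  intro u v w
  rw [key, key, key, h3 v u, h3 w v, h3 u w]
  ring

theorem ClosedAt.congr {β β' : E → Bil} {p : E} (h : ClosedAt β p) (hb : β' =ᶠ[𝓝 p] β) :
    ClosedAt β' p := by
  intro u v w
  rw [hb.fderiv_eq]
  exact h u v w

theorem ClosedAt.add {β β' : E → Bil} {p : E} (hβ : ContDiffAt ℝ ∞ β p) (hβ' : ContDiffAt ℝ ∞ β' p)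
    (h : ClosedAt β p) (h' : ClosedAt β' p) : ClosedAt (fun q => β q + β' q) p := by
  intro u v w
  rw [((two_Cal hβ).1.fun_add (two_Cal hβ').1).fderiv]
  simp only [add_apply]
  linarith [h u v w, h' u v w]

theorem ClosedAt.smul {β : E → Bil} {p : E} (hβ : ContDiffAt ℝ ∞ β p) (h : ClosedAt β p) (c : ℝ) :
    ClosedAt (fun q => c • β q) p := by
  intro u v w
  rw [((two_Cal hβ).1.fun_const_smul c).fderiv]
  simp only [smul_apply, smul_eq_mul]
  rw [← mul_add, ← mul_add, h u v w, mul_zero]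

theorem d1_congr {γ γ' : E → Cov} {p : E} (h : γ' =ᶠ[𝓝 p] γ) : d1 γ' p = d1 γ p := by
  rw [d1, d1, h.fderiv_eq]

theorem d1_add {γ γ' : E → Cov} {p : E} (hγ : DifferentiableAt ℝ γ p)
    (hγ' : DifferentiableAt ℝ γ' p) : d1 (fun q => γ q + γ' q) p = d1 γ p + d1 γ' p := by
  ext u v
  simp only [d1_apply, (hγ.hasFDerivAt.fun_add hγ'.hasFDerivAt).fderiv,
    add_apply]
  ring

theorem d1_sum {ι : Type} (s : Finset ι) {γ : ι → E → Cov} {p : E}
    (hγ : ∀ i ∈ s, DifferentiableAt ℝ (γ i) p) :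
    d1 (fun q => ∑ i ∈ s, γ i q) p = ∑ i ∈ s, d1 (γ i) p := by
  ext u v
  simp only [d1_apply, fderiv_fun_sum hγ, sum_apply, Finset.sum_sub_distrib]

theorem d1_smul {f : E → ℝ} {γ : E → Cov} {p : E} (hf : DifferentiableAt ℝ f p)
    (hγ : DifferentiableAt ℝ γ p) :
    d1 (fun q => f q • γ q) p = f p • d1 γ p + wedge1 (fderiv ℝ f p) (γ p) := by
  ext u v
  simp only [d1_apply, (hf.hasFDerivAt.fun_smul hγ.hasFDerivAt).fderiv,
    add_apply, smul_apply, wedge1_apply, smul_eq_mul,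
    ContinuousLinearMap.smulRight_apply]
  ring

theorem contDiffAt_d1 {γ : E → Cov} {p : E} (hγ : ContDiffAt ℝ ∞ γ p) :
    ContDiffAt ℝ ∞ (d1 γ) p := cd1_Cal hγ

theorem norm_d1_le (γ : E → Cov) (p : E) : ‖d1 γ p‖ ≤ 2 * ‖fderiv ℝ γ p‖ := by
  refine (norm_sub_le _ _).trans ?_
  rw [ContinuousLinearMap.opNorm_flip, two_mul]


end

end Vale.Agent.P204
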