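import Vale.Agent.P204.At2
import Vale.Agent.P204.Cal

/-!
P204 At3: extension by zero, partition of unity, exact forms.
Plan: smoothness of `extF l s i` at `p`: if `p ∈ O i l` the formula holds near `p`; otherwise
`p` lies outside the closed set `ov i l r₀ r` (`haus`, `‖p‖ < r₀ < 4`), so `extF` vanishes near
`p`. Compatibility by `O_trans`, `fderiv_τ_comp`, `pullL_comp`, `cocycle`. The same argument for
one-forms gives `exact_ext` (with `d1_pull`). `exact_decomp`: `γ' j = chi j • γ j`; in chart `i`,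
`extF j (d1 (γ' j)) i p = d1 (indicator (chi j ∘ τ) • γ i) p` (`d1_pull`), sum with `d1_sum`,
`chi_sum`.
-/

namespace Vale.Agent.P204

open scoped ContDiff Topology
open Metric MeasureTheory Set Filter

noncomputable section

namespace Atlas

variable {𝒜 : Atlas}

theorem near_At3 (l i : Fin 𝒜.n) {r : ℝ} (hr : r < 4) {p : E} (hp : p ∈ ball (0 : E) 4)
    (hO : p ∉ 𝒜.O i l) :
    ∀ᶠ q in 𝓝 p, q ∈ 𝒜.O i l → 𝒜.τ i l q ∉ closedBall (0 : E) r := by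
  obtain ⟨r₀, h1, h2⟩ := exists_between (mem_ball_zero_iff.1 hp)
  have hc := 𝒜.haus i l r₀ r h2 hr
  have h3 := hc.isOpen_compl.mem_nhds (x := p) (fun h => hO h.2.1)
  have h4 : ball (0 : E) r₀ ∈ 𝓝 p := isOpen_ball.mem_nhds (mem_ball_zero_iff.2 h1)
  filter_upwards [h3, h4] with q hq hq' hqO hqr
  exact hq ⟨ball_subset_closedBall hq', hqO, hqr⟩

theorem supp_At3 {F : Type} [NormedAddCommGroup F] [NormedSpace ℝ F] {r : ℝ} (hr : r < 4)
    {f : E → F} (hf : ∀ p ∈ ball (0 : E) 4, ContDiffAt ℝ ∞ f p)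
    (h0 : ∀ p, p ∉ closedBall (0 : E) r → f p = 0) : Supp r f := by
  refine ⟨contDiff_iff_contDiffAt.2 fun p => ?_, h0⟩
  by_cases hp : p ∈ ball (0 : E) 4
  · exact hf p hp
  · have h1 : p ∉ closedBall (0 : E) r := fun h => hp (cb_sub hr h)
    have h2 : f =ᶠ[𝓝 p] fun _ => 0 := by
      filter_upwards [isClosed_closedBall.isOpen_compl.mem_nhds h1] with q hq
      exact h0 q hq
    exact contDiffAt_const.congr_of_eventuallyEq h2

theorem dτ_At3 (i j : Fin 𝒜.n) {p : E} (hp : p ∈ 𝒜.O i j) :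
    ContDiffAt ℝ ∞ (fderiv ℝ (𝒜.τ i j)) p :=
  (τ_contDiffAt i j hp).fderiv_right (m := ∞) (by simp)

theorem extF_pos_At3 (l i : Fin 𝒜.n) (s : E → Bil) {p : E} (hp : p ∈ 𝒜.O i l) :
    𝒜.extF l s i p = pullL (fderiv ℝ (𝒜.τ i l) p) (s (𝒜.τ i l p)) := by
  unfold extF
  rw [if_pos hp]

theorem extF_neg_At3 (l i : Fin 𝒜.n) (s : E → Bil) {p : E} (hp : p ∉ 𝒜.O i l) :
    𝒜.extF l s i p = 0 := by
  unfold extF
  rw [if_neg hp]

theorem extF_ev_At3 (l i : Fin 𝒜.n) (s : E → Bil) {p : E} (hp : p ∈ 𝒜.O i l) :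
    𝒜.extF l s i =ᶠ[𝓝 p] fun q => pullL (fderiv ℝ (𝒜.τ i l) q) (s (𝒜.τ i l q)) := by
  filter_upwards [(𝒜.isOpen_O i l).mem_nhds hp] with q hq
  exact extF_pos_At3 l i s hq

theorem extF_ev0_At3 (l i : Fin 𝒜.n) {r : ℝ} (hr : r < 4) {s : E → Bil} (hs : Supp r s) {p : E}
    (hp : p ∈ ball (0 : E) 4) (hO : p ∉ 𝒜.O i l) : 𝒜.extF l s i =ᶠ[𝓝 p] fun _ => 0 := by
  filter_upwards [near_At3 l i hr hp hO] with q hq
  by_cases h : q ∈ 𝒜.O i l
  · rw [extF_pos_At3 l i s h, hs.2 _ (hq h), map_zero]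
  · exact extF_neg_At3 l i s h

theorem alt0_At3 : IsAlt (0 : Bil) := fun _ _ => by simp

theorem locAdd_At3 {r : ℝ} {s s' : E → Bil} (hs : IsLoc r s) (hs' : IsLoc r s') :
    IsLoc r (fun p => s p + s' p) := by
  refine ⟨⟨hs.1.1.add hs'.1.1, fun p hp => ?_⟩, fun p u v => ?_⟩
  · beta_reduce
    rw [hs.1.2 p hp, hs'.1.2 p hp, add_zero]
  · simp only [add_apply]
    rw [hs.2 p u v, hs'.2 p u v]; ring

theorem locSmul_At3 {r : ℝ} {s : E → Bil} (hs : IsLoc r s) (c : ℝ) :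
    IsLoc r (fun p => c • s p) := by
  refine ⟨⟨hs.1.1.const_smul c, fun p hp => ?_⟩, fun p => (hs.2 p).smul c⟩
  beta_reduce
  rw [hs.1.2 p hp, smul_zero]

theorem loc0_At3 (r : ℝ) : IsLoc r (fun _ : E => (0 : Bil)) :=
  ⟨⟨contDiff_const, fun _ _ => rfl⟩, fun _ => alt0_At3⟩

theorem locSum_At3 {r : ℝ} {ι : Type} (I : Finset ι) {s : ι → E → Bil}
    (hs : ∀ a ∈ I, IsLoc r (s a)) : IsLoc r (fun p => ∑ a ∈ I, s a p) := by
  classical
  induction I using Finset.induction_on with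
  | empty => simpa using loc0_At3 r
  | insert a I ha ih =>
    simp only [Finset.sum_insert ha]
    exact locAdd_At3 (hs a (Finset.mem_insert_self _ _))
      (ih fun b hb => hs b (Finset.mem_insert_of_mem hb))

theorem sumVal_At3 {ι : Type} (I : Finset ι) (f : ι → 𝒜.Form) (i : Fin 𝒜.n) (p : E) :
    (∑ a ∈ I, f a).1 i p = ∑ a ∈ I, (f a).1 i p := by
  rw [Submodule.coe_sum, Finset.sum_apply, Finset.sum_apply]

theorem d10_At3 (p : E) : d1 (fun _ : E => (0 : Cov)) p = 0 := by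
  ext u v
  simp

theorem locD_At3 {r : ℝ} {γ : E → Cov} (hγ : Supp r γ) : IsLoc r (d1 γ) := by
  refine ⟨⟨contDiff_iff_contDiffAt.2 fun p => contDiffAt_d1 hγ.1.contDiffAt, fun p hp => ?_⟩,
    d1_alt γ⟩
  have h2 : γ =ᶠ[𝓝 p] fun _ => 0 := by
    filter_upwards [isClosed_closedBall.isOpen_compl.mem_nhds hp] with q hq
    exact hγ.2 q hq
  rw [d1_congr h2, d10_At3]

open Classical in
/-- extension by zero of a local one-form -/
def ext1_At3 (l : Fin 𝒜.n) (γ : E → Cov) : Fin 𝒜.n → E → Cov := fun i p =>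
  if p ∈ 𝒜.O i l then (γ (𝒜.τ i l p)).comp (fderiv ℝ (𝒜.τ i l) p) else 0

theorem ext1_pos_At3 (l i : Fin 𝒜.n) (γ : E → Cov) {p : E} (hp : p ∈ 𝒜.O i l) :
    ext1_At3 l γ i p = (γ (𝒜.τ i l p)).comp (fderiv ℝ (𝒜.τ i l) p) := by
  unfold ext1_At3
  rw [if_pos hp]

theorem ext1_neg_At3 (l i : Fin 𝒜.n) (γ : E → Cov) {p : E} (hp : p ∉ 𝒜.O i l) :
    ext1_At3 l γ i p = 0 := by
  unfold ext1_At3
  rw [if_neg hp]

theorem ext1_ev_At3 (l i : Fin 𝒜.n) (γ : E → Cov) {p : E} (hp : p ∈ 𝒜.O i l) :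
    ext1_At3 l γ i =ᶠ[𝓝 p] fun q => (γ (𝒜.τ i l q)).comp (fderiv ℝ (𝒜.τ i l) q) := by
  filter_upwards [(𝒜.isOpen_O i l).mem_nhds hp] with q hq
  exact ext1_pos_At3 l i γ hq

theorem ext1_ev0_At3 (l i : Fin 𝒜.n) {r : ℝ} (hr : r < 4) {γ : E → Cov} (hγ : Supp r γ) {p : E}
    (hp : p ∈ ball (0 : E) 4) (hO : p ∉ 𝒜.O i l) : ext1_At3 l γ i =ᶠ[𝓝 p] fun _ => 0 := by
  filter_upwards [near_At3 l i hr hp hO] with q hq
  by_cases h : q ∈ 𝒜.O i l
  · rw [ext1_pos_At3 l i γ h, hγ.2 _ (hq h), ContinuousLinearMap.zero_comp]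
  · exact ext1_neg_At3 l i γ h

theorem ext1_smooth_At3 (l i : Fin 𝒜.n) {r : ℝ} (hr : r < 4) {γ : E → Cov} (hγ : Supp r γ)
    {p : E} (hp : p ∈ ball (0 : E) 4) : ContDiffAt ℝ ∞ (ext1_At3 l γ i) p := by
  by_cases hO : p ∈ 𝒜.O i l
  · refine ContDiffAt.congr_of_eventuallyEq ?_ (ext1_ev_At3 l i γ hO)
    exact (hγ.1.contDiffAt.comp p (τ_contDiffAt i l hO)).clm_comp (dτ_At3 i l hO)
  · exact contDiffAt_const.congr_of_eventuallyEq (ext1_ev0_At3 l i hr hγ hp hO)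

theorem ext1_form_At3 (l : Fin 𝒜.n) {r : ℝ} (hr : r < 4) {γ : E → Cov} (hγ : Supp r γ) :
    𝒜.IsForm1 (ext1_At3 l γ) := by
  refine ⟨fun j p hp => (ext1_smooth_At3 l j hr hγ hp).contDiffWithinAt, fun i j p hp => ?_⟩
  by_cases hO : p ∈ 𝒜.O i l
  · obtain ⟨h1, h2⟩ := O_trans i j l hp hO
    rw [ext1_pos_At3 l i γ hO, ext1_pos_At3 l j γ h1, h2, ContinuousLinearMap.comp_assoc,
      fderiv_τ_comp i j l hp hO]
  · have h1 : 𝒜.τ i j p ∉ 𝒜.O j l := fun h => hO (𝒜.cocycle i j l p hp h).1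
    rw [ext1_neg_At3 l i γ hO, ext1_neg_At3 l j γ h1, ContinuousLinearMap.zero_comp]

theorem ext1_d_At3 (l i : Fin 𝒜.n) {r : ℝ} (hr : r < 4) {γ : E → Cov} (hγ : Supp r γ)
    {p : E} (hp : p ∈ ball (0 : E) 4) : 𝒜.extF l (d1 γ) i p = d1 (ext1_At3 l γ i) p := by
  by_cases hO : p ∈ 𝒜.O i l
  · rw [extF_pos_At3 l i _ hO, d1_congr (ext1_ev_At3 l i γ hO),
      d1_pull hγ.1.contDiffAt (τ_contDiffAt i l hO)]
  · rw [extF_neg_At3 l i _ hO, d1_congr (ext1_ev0_At3 l i hr hγ hp hO), d10_At3]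

theorem extF_mem (l : Fin 𝒜.n) {r : ℝ} (hr : r < 4) {s : E → Bil} (hs : IsLoc r s) :
    𝒜.extF l s ∈ 𝒜.Form := by
  refine ⟨fun j p hp => ContDiffAt.contDiffWithinAt ?_, fun j p => ?_, fun j p hp => ?_,
    fun i j p hp => ?_⟩
  · by_cases hO : p ∈ 𝒜.O j l
    · refine ContDiffAt.congr_of_eventuallyEq ?_ (extF_ev_At3 l j s hO)
      exact (contDiff_pullL.contDiffAt.comp p (dτ_At3 j l hO)).clm_apply
        (hs.1.1.contDiffAt.comp p (τ_contDiffAt j l hO))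
    · exact contDiffAt_const.congr_of_eventuallyEq (extF_ev0_At3 l j hr hs.1 hp hO)
  · by_cases hO : p ∈ 𝒜.O j l
    · rw [extF_pos_At3 l j s hO]
      exact (hs.2 _).pull _
    · rw [extF_neg_At3 l j s hO]
      exact alt0_At3
  · exact extF_neg_At3 l j s fun h => hp (𝒜.O_sub j l h)
  · by_cases hO : p ∈ 𝒜.O i l
    · obtain ⟨h1, h2⟩ := O_trans i j l hp hO
      rw [extF_pos_At3 l i s hO, extF_pos_At3 l j s h1, h2, pullL_comp,
        fderiv_τ_comp i j l hp hO]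
    · have h1 : 𝒜.τ i j p ∉ 𝒜.O j l := fun h => hO (𝒜.cocycle i j l p hp h).1
      rw [extF_neg_At3 l i s hO, extF_neg_At3 l j s h1, map_zero]

theorem ext_val (l : Fin 𝒜.n) {r : ℝ} (hr : r < 4) {s : E → Bil} (hs : IsLoc r s) :
    (𝒜.ext l s).1 = 𝒜.extF l s := by
  unfold ext
  rw [dif_pos (extF_mem l hr hs)]

theorem ext_self (l : Fin 𝒜.n) {r : ℝ} (hr : r < 4) {s : E → Bil} (hs : IsLoc r s) :
    (𝒜.ext l s).1 l = s := by
  rw [ext_val l hr hs]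
  funext p
  by_cases hp : p ∈ ball (0 : E) 4
  · have hO : p ∈ 𝒜.O l l := by rw [𝒜.O_self]; exact hp
    rw [extF_pos_At3 l l s hO, 𝒜.τ_self l p hp, fderiv_τ_self l hp, pullL_id]
  · rw [extF_neg_At3 l l s fun h => hp (𝒜.O_sub l l h), hs.1.2 p fun h => hp (cb_sub hr h)]

theorem ext_ne_zero (l i : Fin 𝒜.n) {r : ℝ} (hr : r < 4) {s : E → Bil} (hs : IsLoc r s) {p : E}
    (hp : (𝒜.ext l s).1 i p ≠ 0) : p ∈ 𝒜.O i l ∧ s (𝒜.τ i l p) ≠ 0 := by
  rw [ext_val l hr hs] at hp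
  by_cases hO : p ∈ 𝒜.O i l
  · refine ⟨hO, fun h => hp ?_⟩
    rw [extF_pos_At3 l i s hO, h, map_zero]
  · exact absurd (extF_neg_At3 l i s hO) hp

theorem ext_add (l : Fin 𝒜.n) {r : ℝ} (hr : r < 4) {s s' : E → Bil} (hs : IsLoc r s)
    (hs' : IsLoc r s') : 𝒜.ext l (fun p => s p + s' p) = 𝒜.ext l s + 𝒜.ext l s' := by
  apply Subtype.ext
  funext i p
  rw [Submodule.coe_add, Pi.add_apply, Pi.add_apply, ext_val l hr (locAdd_At3 hs hs'),
    ext_val l hr hs, ext_val l hr hs']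
  by_cases hO : p ∈ 𝒜.O i l
  · rw [extF_pos_At3 l i _ hO, extF_pos_At3 l i _ hO, extF_pos_At3 l i _ hO, map_add]
  · rw [extF_neg_At3 l i _ hO, extF_neg_At3 l i _ hO, extF_neg_At3 l i _ hO, add_zero]

theorem ext_smul (l : Fin 𝒜.n) {r : ℝ} (hr : r < 4) {s : E → Bil} (hs : IsLoc r s) (c : ℝ) :
    𝒜.ext l (fun p => c • s p) = c • 𝒜.ext l s := by
  apply Subtype.ext
  funext i p
  rw [Submodule.coe_smul, Pi.smul_apply, Pi.smul_apply, ext_val l hr (locSmul_At3 hs c),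
    ext_val l hr hs]
  by_cases hO : p ∈ 𝒜.O i l
  · rw [extF_pos_At3 l i _ hO, extF_pos_At3 l i _ hO, map_smul]
  · rw [extF_neg_At3 l i _ hO, extF_neg_At3 l i _ hO, smul_zero]

theorem ext_sum (l : Fin 𝒜.n) {r : ℝ} (hr : r < 4) {ι : Type} (I : Finset ι) {s : ι → E → Bil}
    (hs : ∀ a ∈ I, IsLoc r (s a)) :
    𝒜.ext l (fun p => ∑ a ∈ I, s a p) = ∑ a ∈ I, 𝒜.ext l (s a) := by
  apply Subtype.ext
  funext i p
  rw [sumVal_At3, ext_val l hr (locSum_At3 I hs),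
    Finset.sum_congr rfl fun a ha => congrFun (congrFun (ext_val l hr (hs a ha)) i) p]
  by_cases hO : p ∈ 𝒜.O i l
  · rw [extF_pos_At3 l i _ hO, map_sum]
    exact Finset.sum_congr rfl fun a _ => (extF_pos_At3 l i _ hO).symm
  · rw [extF_neg_At3 l i _ hO]
    exact (Finset.sum_eq_zero fun a _ => extF_neg_At3 l i _ hO).symm

theorem isLoc_pm (l : Fin 𝒜.n) {r : ℝ} (hr : r < 4) {s : E → Bil} (hs : IsLoc r s) :
    IsLoc r (fun p => pm (𝒜.J l p) (s p)) := by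
  refine ⟨supp_At3 hr (fun p hp => ?_) fun p hp => ?_, fun p => (hs.2 p).pm _⟩
  · exact (contDiff_pm.contDiffAt.comp p
      ((𝒜.J_smooth l).contDiffAt (isOpen_ball.mem_nhds hp))).clm_apply hs.1.1.contDiffAt
  · rw [hs.1.2 p hp, map_zero]

theorem Am_ext (l : Fin 𝒜.n) {r : ℝ} (hr : r < 4) {s : E → Bil} (hs : IsLoc r s) :
    𝒜.Am (𝒜.ext l s) = 𝒜.ext l (fun p => pm (𝒜.J l p) (s p)) := by
  apply Subtype.ext
  funext i p
  rw [Am_val, ext_val l hr hs, ext_val l hr (isLoc_pm l hr hs)]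
  by_cases hO : p ∈ 𝒜.O i l
  · rw [extF_pos_At3 l i _ hO, extF_pos_At3 l i _ hO]
    ext u v
    simp only [pm_apply, pullL_apply, 𝒜.J_compat i l p hO]
  · rw [extF_neg_At3 l i _ hO, extF_neg_At3 l i _ hO, map_zero]

theorem isLoc_cut (l : Fin 𝒜.n) {r : ℝ} (hr : r < 4) {a : E → ℝ} (ha : Supp r a) (β : 𝒜.Form) :
    IsLoc r (fun p => a p • β.1 l p) := by
  refine ⟨supp_At3 hr (fun p hp => ?_) fun p hp => ?_, fun p => (Form.alt β l p).smul _⟩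
  · exact ha.1.contDiffAt.smul (Form.contDiffAt β l hp)
  · rw [ha.2 p hp, zero_smul]

theorem sum_ext_chi (β : 𝒜.Form) : ∑ l, 𝒜.ext l (fun p => 𝒜.chi l p • β.1 l p) = β := by
  refine Form.ext' fun i p hp => ?_
  have h1 : (1 : ℝ) < 4 := by norm_num
  have h2 : ∀ l, (𝒜.ext l (fun p => 𝒜.chi l p • β.1 l p)).1 i p =
      (𝒜.O i l).indicator (fun q => 𝒜.chi l (𝒜.τ i l q)) p • β.1 i p := by
    intro l
    rw [ext_val l h1 (isLoc_cut l h1 (𝒜.chi_supp l) β)]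
    by_cases hO : p ∈ 𝒜.O i l
    · rw [extF_pos_At3 l i _ hO, indicator_of_mem hO, map_smul, ← Form.compat β i l hO]
    · rw [extF_neg_At3 l i _ hO, indicator_of_notMem hO, zero_smul]
  rw [sumVal_At3, Finset.sum_congr rfl fun l _ => h2 l, ← Finset.sum_smul, 𝒜.chi_sum i p hp,
    one_smul]

/-- a form that vanishes outside the ball of radius `r` of chart `l` is an extension by zero -/
theorem eq_ext_of_supp (l : Fin 𝒜.n) {r : ℝ} (hr : r < 4) (β : 𝒜.Form)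
    (h : ∀ i p, β.1 i p ≠ 0 → p ∈ 𝒜.O i l ∧ 𝒜.τ i l p ∈ closedBall (0 : E) r) :
    IsLoc r (β.1 l) ∧ β = 𝒜.ext l (β.1 l) := by
  have hl : IsLoc r (β.1 l) := by
    refine ⟨supp_At3 hr (fun p hp => Form.contDiffAt β l hp) fun p hp => ?_, Form.alt β l⟩
    by_contra hne
    obtain ⟨h1, h2⟩ := h l p hne
    rw [𝒜.τ_self l p (𝒜.O_sub l l h1)] at h2
    exact hp h2
  refine ⟨hl, ?_⟩
  apply Subtype.ext
  funext i p
  rw [ext_val l hr hl]
  by_cases hO : p ∈ 𝒜.O i l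
  · rw [extF_pos_At3 l i _ hO, ← Form.compat β i l hO]
  · rw [extF_neg_At3 l i _ hO]
    by_contra hne
    exact hO (h i p hne).1

theorem Closed.add {α β : 𝒜.Form} (h : Closed α) (h' : Closed β) : Closed (α + β) := fun j p hp =>
  ClosedAt.add (Form.contDiffAt α j hp) (Form.contDiffAt β j hp) (h j p hp) (h' j p hp)

theorem Closed.smul {β : 𝒜.Form} (h : Closed β) (c : ℝ) : Closed (c • β) := fun j p hp =>
  ClosedAt.smul (Form.contDiffAt β j hp) (h j p hp) c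

theorem closed_zero : Closed (0 : 𝒜.Form) := by
  intro j p _ u v w
  have h : (0 : 𝒜.Form).1 j = fun _ => 0 := rfl
  rw [h]
  simp

theorem Closed.sub {α β : 𝒜.Form} (h : Closed α) (h' : Closed β) : Closed (α - β) := by
  rw [sub_eq_add_neg, ← neg_one_smul ℝ β]
  exact h.add (h'.smul _)

theorem closed_ΩF : Closed 𝒜.ΩF := 𝒜.Ω_closed

theorem Exact.closed {β : 𝒜.Form} (h : Exact β) : Closed β := by
  obtain ⟨γ, hγ, h⟩ := h
  intro j p hp
  refine ClosedAt.congr (closedAt_d1 ((hγ.1 j).contDiffAt (isOpen_ball.mem_nhds hp))) ?_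
  filter_upwards [isOpen_ball.mem_nhds hp] with q hq
  exact h j q hq

theorem Exact.add {α β : 𝒜.Form} (h : Exact α) (h' : Exact β) : Exact (α + β) := by
  obtain ⟨γ, hγ, h⟩ := h
  obtain ⟨γ', hγ', h'⟩ := h'
  refine ⟨fun j p => γ j p + γ' j p, ⟨fun j => (hγ.1 j).add (hγ'.1 j), fun i j p hp => ?_⟩,
    fun j p hp => ?_⟩
  · simp only [ContinuousLinearMap.add_comp]
    rw [← hγ.2 i j p hp, ← hγ'.2 i j p hp]
  · rw [d1_add (((hγ.1 j).contDiffAt (isOpen_ball.mem_nhds hp)).differentiableAt (by simp))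
      (((hγ'.1 j).contDiffAt (isOpen_ball.mem_nhds hp)).differentiableAt (by simp)),
      ← h j p hp, ← h' j p hp]
    rfl

theorem exact_ext (l : Fin 𝒜.n) {r : ℝ} (hr : r < 4) {γ : E → Cov} (hγ : Supp r γ) :
    Exact (𝒜.ext l (d1 γ)) := by
  refine ⟨ext1_At3 l γ, ext1_form_At3 l hr hγ, fun j p hp => ?_⟩
  rw [ext_val l hr (locD_At3 hγ), ext1_d_At3 l j hr hγ hp]

theorem exact_decomp {β : 𝒜.Form} (h : Exact β) : ∃ γ : Fin 𝒜.n → E → Cov,
    (∀ l, Supp 1 (γ l)) ∧ β = ∑ l, 𝒜.ext l (d1 (γ l)) := by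
  obtain ⟨γ, hγ, h⟩ := h
  have h1 : (1 : ℝ) < 4 := by norm_num
  have hS : ∀ l, Supp 1 (fun p => 𝒜.chi l p • γ l p) := fun l =>
    supp_At3 h1 (fun p hp => (𝒜.chi_supp l).1.contDiffAt.smul
      ((hγ.1 l).contDiffAt (isOpen_ball.mem_nhds hp))) fun p hp => by
        rw [(𝒜.chi_supp l).2 p hp, zero_smul]
  refine ⟨fun l p => 𝒜.chi l p • γ l p, hS, Form.ext' fun i p hp => ?_⟩
  have h2 : ∀ l, (𝒜.ext l (d1 fun p => 𝒜.chi l p • γ l p)).1 i p =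
      d1 (ext1_At3 l (fun p => 𝒜.chi l p • γ l p) i) p := fun l => by
    rw [ext_val l h1 (locD_At3 (hS l)), ext1_d_At3 l i h1 (hS l) hp]
  have h3 : (fun q => ∑ l, ext1_At3 l (fun p => 𝒜.chi l p • γ l p) i q) =ᶠ[𝓝 p] γ i := by
    filter_upwards [isOpen_ball.mem_nhds hp] with q hq
    have h4 : ∀ l, ext1_At3 l (fun p => 𝒜.chi l p • γ l p) i q =
        (𝒜.O i l).indicator (fun q => 𝒜.chi l (𝒜.τ i l q)) q • γ i q := by
      intro l
      by_cases hO : q ∈ 𝒜.O i l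
      · rw [ext1_pos_At3 l i _ hO, indicator_of_mem hO, ContinuousLinearMap.smul_comp,
          ← hγ.2 i l q hO]
      · rw [ext1_neg_At3 l i _ hO, indicator_of_notMem hO, zero_smul]
    rw [Finset.sum_congr rfl fun l _ => h4 l, ← Finset.sum_smul, 𝒜.chi_sum i q hq, one_smul]
  rw [sumVal_At3, Finset.sum_congr rfl fun l _ => h2 l,
    ← d1_sum _ fun l _ => (ext1_smooth_At3 l i h1 (hS l) hp).differentiableAt (by simp),
    d1_congr h3, h i p hp]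

theorem closed_ext (l : Fin 𝒜.n) {r : ℝ} (hr : r < 4) {s : E → Bil} (hs : IsLoc r s)
    (hc : ∀ p ∈ ball (0 : E) 4, ClosedAt s p) : Closed (𝒜.ext l s) := by
  intro j p hp
  rw [ext_val l hr hs]
  by_cases hO : p ∈ 𝒜.O j l
  · exact ClosedAt.congr (closedAt_pull hs.1.1.contDiffAt (τ_contDiffAt j l hO) (hs.2 _)
      (hc _ (τ_mem j l hO))) (extF_ev_At3 l j s hO)
  · refine ClosedAt.congr (β := fun _ => 0) (fun u v w => ?_) (extF_ev0_At3 l j hr hs.1 hp hO)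
    simp

end Atlas

end

end Vale.Agent.P204
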