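import Vale.Agent.P204.Jet2

/-!
P204 Ms2: weakly null families, almost Riesz representation, `L²` representation, averages.
Plan: `weak_null`: with `a = a 1_{|a| ≤ L} + a 1_{|a| > L}`, `∫ |a| h ≤ L ∫ h + ‖a 1_{|a|>L}‖₂ ‖h‖₂`
(`integral_mul_le_Lp_mul_Lq_of_nonneg` or the elementary `2xy ≤ εx² + y²/ε`), and the tail of
`∫ a²` tends to zero (dominated convergence). `approx_riesz`: nearly minimise
`F σ = B σ σ / 2 - A σ` (bounded below by `-C²/2`): if `F α ≤ inf + η²/2` then for all real `s`,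
`s (B α σ - A σ) + s² B σ σ / 2 + η²/2 ≥ 0`; discriminant. `riesz_L2`: the image of the submodule
of supported smooth functions in `Lp ℝ 2 volume` (`MemLp.toLp`; two continuous functions equal a.e.
are equal, or use the bound to see that `u` factors), `Real.exists_extension_norm_eq`,
`InnerProductSpace.toDual`, `L2.inner_def`. `avg_sq`: Cauchy-Schwarz on the ball and Fubini.
-/

namespace Vale.Agent.P204

open scoped ContDiff Topology
open Metric MeasureTheory Set Filter

noncomputable section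

theorem weak_null {X : Type} [MeasurableSpace X] (μ : Measure X) {a : X → ℝ} (ha : MemLp a 2 μ)
    {h : ℕ → X → ℝ} (hm : ∀ n, AEStronglyMeasurable (h n) μ) (h0 : ∀ n x, 0 ≤ h n x)
    (h1 : ∀ n, Integrable (h n) μ) (h2 : ∀ n, Integrable (fun x => h n x ^ 2) μ) {C : ℝ}
    (hC : ∀ n, ∫ x, h n x ^ 2 ∂μ ≤ C) (hl : Tendsto (fun n => ∫ x, h n x ∂μ) atTop (𝓝 0)) :
    Tendsto (fun n => ∫ x, |a x| * h n x ∂μ) atTop (𝓝 0) := by
  have _ := hm
  have hC0 : 0 ≤ C := (integral_nonneg fun x => sq_nonneg _).trans (hC 0)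
  have ham := ha.1
  have m1 : ∀ L : ℕ, AEStronglyMeasurable (fun x => max (|a x| - L) 0 ^ 2) μ := fun L =>
    (by fun_prop : Continuous fun y : ℝ => max (|y| - L) 0 ^ 2).comp_aestronglyMeasurable ham
  have b1 : ∀ (L : ℕ) x, ‖max (|a x| - L) 0 ^ 2‖ ≤ a x ^ 2 := fun L x => by
    rw [Real.norm_eq_abs, abs_of_nonneg (sq_nonneg _), ← sq_abs (a x)]
    exact pow_le_pow_left₀ (le_max_right _ _)
      (max_le (sub_le_self _ (Nat.cast_nonneg _)) (abs_nonneg _)) 2
  have t1 := tendsto_integral_of_dominated_convergence (f := fun _ => 0) _ m1 ha.integrable_sq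
    (fun L => Eventually.of_forall (b1 L)) (Eventually.of_forall fun x =>
      tendsto_const_nhds.congr' ((eventually_ge_atTop ⌈|a x|⌉₊).mono fun L hL => by
        simp only [max_eq_right (sub_nonpos.2 (Nat.ceil_le.1 hL))]
        norm_num))
  rw [integral_zero] at t1
  refine tendsto_order.2 ⟨fun b hb => Eventually.of_forall fun n => hb.trans_le
    (integral_nonneg fun x => mul_nonneg (abs_nonneg _) (h0 n x)), fun δ hδ => ?_⟩
  obtain ⟨ε, hε, hεC⟩ : ∃ ε > 0, ε * C ≤ δ / 3 := ⟨δ / 3 / (C + 1), by positivity, by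
    rw [div_mul_eq_mul_div, div_le_iff₀ (by positivity)]
    nlinarith⟩
  obtain ⟨L, hL⟩ := ((t1.const_mul ε⁻¹).eventually_lt_const (show ε⁻¹ * 0 < δ / 3 by
    rw [mul_zero]; positivity)).exists
  filter_upwards [(hl.const_mul (L : ℝ)).eventually_lt_const (show (L : ℝ) * 0 < δ / 3 by
    rw [mul_zero]; positivity)] with n hn
  have i1 : Integrable (fun x => max (|a x| - L) 0 ^ 2) μ :=
    ha.integrable_sq.mono' (m1 L) (Eventually.of_forall (b1 L))
  have i2 : Integrable (fun x => L * h n x + ε * h n x ^ 2) μ :=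
    ((h1 n).const_mul _).add ((h2 n).const_mul _)
  refine (integral_mono_of_nonneg
    (Eventually.of_forall fun x => mul_nonneg (abs_nonneg _) (h0 n x))
    (g := fun x => L * h n x + ε * h n x ^ 2 + ε⁻¹ * max (|a x| - L) 0 ^ 2)
    (i2.add (i1.const_mul _)) (Eventually.of_forall fun x => ?_)).trans_lt ?_
  · have e1 := mul_le_mul_of_nonneg_right (le_max_left (|a x| - L) 0) (h0 n x)
    have e2 := mul_nonneg (le_max_right (|a x| - L) 0) (h0 n x)
    have e3 := two_mul_le_add_mul_sq (a := h n x) (b := max (|a x| - L) 0) hε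
    show |a x| * h n x ≤ _
    linarith
  · rw [integral_add i2 (i1.const_mul _),
      integral_add ((h1 n).const_mul _) ((h2 n).const_mul _), integral_const_mul,
      integral_const_mul, integral_const_mul]
    linarith [mul_le_mul_of_nonneg_left (hC n) hε.le]

theorem approx_riesz {V : Type} [AddCommGroup V] [Module ℝ V] (P : Submodule ℝ V)
    (B : V →ₗ[ℝ] V →ₗ[ℝ] ℝ) (hs : ∀ x y, B x y = B y x) (hp : ∀ x ∈ P, 0 ≤ B x x)
    (A : V →ₗ[ℝ] ℝ) {C : ℝ} (hA : ∀ x ∈ P, |A x| ≤ C * √(B x x)) {η : ℝ} (hη : 0 < η) :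
    ∃ α ∈ P, ∀ x ∈ P, |A x - B α x| ≤ η * √(B x x) := by
  have hb : BddBelow ((fun x => B x x / 2 - A x) '' P) := ⟨-C ^ 2 / 2, by
    rintro _ ⟨x, hx, rfl⟩
    nlinarith [Real.sq_sqrt (hp x hx), sq_nonneg (√(B x x) - C), (abs_le.1 (hA x hx)).2]⟩
  obtain ⟨_, ⟨α, hα, rfl⟩, h1⟩ := exists_lt_of_csInf_lt (s := (fun x => B x x / 2 - A x) '' P)
    ⟨_, 0, P.zero_mem, rfl⟩ (lt_add_of_pos_right _ (half_pos (pow_pos hη 2)))
  refine ⟨α, hα, fun x hx => ?_⟩
  have h2 := discrim_le_zero (a := B x x / 2) (b := B α x - A x) (c := η ^ 2 / 2) fun t => by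
    have := csInf_le hb ⟨α + t • x, P.add_mem hα (P.smul_mem t hx), rfl⟩
    simp only [map_add, map_smul, LinearMap.add_apply, LinearMap.smul_apply, smul_eq_mul,
      hs x α] at this h1
    linarith
  rw [← Real.sqrt_sq hη.le, ← Real.sqrt_mul (sq_nonneg _)]
  refine Real.abs_le_sqrt ?_
  rw [discrim] at h2
  linarith

theorem psd_cs {V : Type} [AddCommGroup V] [Module ℝ V] (P : Submodule ℝ V)
    (B : V →ₗ[ℝ] V →ₗ[ℝ] ℝ) (hs : ∀ x y, B x y = B y x) (hp : ∀ x ∈ P, 0 ≤ B x x)
    {x y : V} (hx : x ∈ P) (hy : y ∈ P) : |B x y| ≤ √(B x x) * √(B y y) := by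
  have h2 := discrim_le_zero (a := B x x) (b := 2 * B x y) (c := B y y) fun t => by
    have := hp _ (P.add_mem (P.smul_mem t hx) hy)
    simp only [map_add, map_smul, LinearMap.add_apply, LinearMap.smul_apply, smul_eq_mul,
      hs y x] at this
    linarith
  rw [← Real.sqrt_mul (hp x hx)]
  refine Real.abs_le_sqrt ?_
  rw [discrim] at h2
  linarith

theorem ms2_inner (f g : Lp ℝ 2 (volume : Measure E)) {ψ : E → ℝ} (hg : g =ᵐ[volume] ψ) :
    inner ℝ f g = ∫ y, f y * ψ y := by
  rw [L2.inner_def]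
  exact integral_congr_ae (hg.mono fun y hy => by simp [hy, mul_comm])

/-- supported smooth functions -/
def ms2S (r : ℝ) : Submodule ℝ (E → ℝ) where
  carrier := {f | Supp r f}
  add_mem' ha hb := ⟨ha.1.add hb.1, fun p hp => by simp [ha.2 p hp, hb.2 p hp]⟩
  zero_mem' := ⟨contDiff_const, fun _ _ => rfl⟩
  smul_mem' c _ ha := ⟨ha.1.const_smul c, fun p hp => by simp [ha.2 p hp]⟩

theorem ms2_mem {r : ℝ} {f : E → ℝ} (h : Supp r f) : MemLp f 2 volume :=
  h.1.continuous.memLp_of_hasCompactSupport h.hasCompactSupport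

theorem riesz_L2 (r : ℝ) (u : (E → ℝ) → ℝ)
    (hadd : ∀ f f', Supp r f → Supp r f' → u (f + f') = u f + u f')
    (hsmul : ∀ (c : ℝ) f, Supp r f → u (c • f) = c * u f) {C : ℝ}
    (hb : ∀ f, Supp r f → |u f| ≤ C * √(∫ y, f y ^ 2)) :
    ∃ a : E → ℝ, MemLp a 2 volume ∧ ∀ f, Supp r f → u f = ∫ y, a y * f y := by
  let T : ms2S r →ₗ[ℝ] Lp ℝ 2 (volume : Measure E) :=
    { toFun := fun f => (ms2_mem f.2).toLp f.1
      map_add' := fun f g => MemLp.toLp_add (ms2_mem f.2) (ms2_mem g.2)
      map_smul' := fun c f => MemLp.toLp_const_smul c (ms2_mem f.2) }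
  have hT : ∀ f : ms2S r, T f =ᵐ[volume] f.1 := fun f => (ms2_mem f.2).coeFn_toLp
  have hi : Function.Injective T := fun f g e => Subtype.ext
    ((f.2.1.continuous.ae_eq_iff_eq volume g.2.1.continuous).1
      ((hT f).symm.trans (e ▸ hT g)))
  let u' : ms2S r →ₗ[ℝ] ℝ :=
    { toFun := fun f => u f.1
      map_add' := fun f g => hadd _ _ f.2 g.2
      map_smul' := fun c f => hsmul c _ f.2 }
  obtain ⟨g, hg, -⟩ := exists_extension_norm_eq (LinearMap.range T)
    ((u' ∘ₗ (LinearEquiv.ofInjective T hi).symm.toLinearMap).mkContinuous C fun x => by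
      obtain ⟨f, rfl⟩ := (LinearEquiv.ofInjective T hi).surjective x
      simp only [LinearMap.comp_apply, LinearEquiv.coe_coe, LinearEquiv.symm_apply_apply]
      refine (hb _ f.2).trans_eq ?_
      show _ = C * ‖T f‖
      rw [norm_eq_sqrt_real_inner, ms2_inner _ _ (hT f)]
      congr 2
      exact integral_congr_ae ((hT f).mono fun y hy => by simp only [hy, sq]))
  refine ⟨(InnerProductSpace.toDual ℝ (Lp ℝ 2 (volume : Measure E))).symm g, Lp.memLp _, fun f hf => ?_⟩
  rw [← ms2_inner _ _ (hT ⟨f, hf⟩), InnerProductSpace.toDual_symm_apply]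
  have := hg (LinearEquiv.ofInjective T hi ⟨f, hf⟩)
  simp only [LinearMap.mkContinuous_apply, LinearMap.comp_apply, LinearEquiv.coe_coe,
    LinearEquiv.symm_apply_apply] at this
  exact this.symm

theorem ms2_tr (f : E → ℝ) (p : E) (s : ℝ) :
    ∫ q in closedBall p s, f q = ∫ z in closedBall (0 : E) s, f (p + z) := by
  rw [← (measurePreserving_add_left volume p).setIntegral_preimage_emb
    (measurableEmbedding_addLeft p), preimage_add_closedBall, sub_self]

theorem ms2_add {p z : E} {R s : ℝ} (hp : p ∈ closedBall (0 : E) R) (hz : z ∈ closedBall (0 : E) s) :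
    p + z ∈ closedBall (0 : E) (R + s) := by
  rw [mem_closedBall_zero_iff] at *
  exact norm_add_le_of_le hp hz

theorem ms2_vol (p : E) {s : ℝ} (hs : 0 ≤ s) : (volume : Measure E).real (closedBall p s) =
    s ^ 4 * (volume : Measure E).real (closedBall 0 1) := by
  rw [Measure.addHaar_real_closedBall' _ p hs, finrank_euclideanSpace_fin]

theorem ms2_cont {f : E → ℝ} {R s : ℝ} (hf : ContinuousOn f (closedBall 0 (R + s))) :
    ContinuousOn (fun p => ∫ q in closedBall p s, f q) (closedBall 0 R) := by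
  simp only [ms2_tr f _ s]
  obtain ⟨M, hM⟩ := (isCompact_closedBall _ _).exists_bound_of_continuousOn hf
  refine continuousOn_of_dominated (bound := fun _ => M) (fun p hp => ?_) (fun p hp => ?_)
    (integrableOn_const measure_closedBall_lt_top.ne) ?_
  · exact (hf.comp (by fun_prop) fun z hz => ms2_add hp hz).aestronglyMeasurable
      measurableSet_closedBall
  · exact ae_restrict_of_forall_mem measurableSet_closedBall fun z hz => hM _ (ms2_add hp hz)
  · exact ae_restrict_of_forall_mem measurableSet_closedBall fun z hz =>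
      hf.comp (by fun_prop) fun p hp => ms2_add hp hz

theorem ms2_sub {f : E → ℝ} {R s : ℝ} (hf : ContinuousOn f (closedBall 0 (R + s)))
    (h0 : ∀ q, 0 ≤ f q) {p : E} (hp : p ∈ closedBall (0 : E) R) :
    ContinuousOn f (closedBall p s) ∧
      ∫ q in closedBall p s, f q ≤ ∫ q in closedBall (0 : E) (R + s), f q := by
  have h : closedBall p s ⊆ closedBall (0 : E) (R + s) :=
    closedBall_subset_closedBall' (by linarith [mem_closedBall.1 hp])
  exact ⟨hf.mono h, setIntegral_mono_set (hf.integrableOn_compact (isCompact_closedBall _ _))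
    (Eventually.of_forall h0) h.eventuallyLE⟩

theorem ms2_fub {f : E → ℝ} {R s : ℝ} (hs : 0 < s) (hf : ContinuousOn f (closedBall 0 (R + s)))
    (h0 : ∀ q, 0 ≤ f q) : ∫ p in closedBall (0 : E) R, (∫ q in closedBall p s, f q) ≤
      s ^ 4 * (volume : Measure E).real (closedBall 0 1) *
        ∫ q in closedBall (0 : E) (R + s), f q := by
  simp only [ms2_tr f _ s]
  rw [integral_integral_swap]
  · rw [← ms2_vol 0 hs.le, ← smul_eq_mul, ← setIntegral_const]
    refine integral_mono_of_nonneg (Eventually.of_forall fun z => integral_nonneg fun p => h0 _)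
      (integrableOn_const measure_closedBall_lt_top.ne)
      (ae_restrict_of_forall_mem measurableSet_closedBall fun z hz => ?_)
    simp only [add_comm _ z, ← ms2_tr f z R]
    rw [add_comm] at hf ⊢
    exact (ms2_sub hf h0 hz).2
  · rw [Measure.prod_restrict]
    exact ContinuousOn.integrableOn_compact
      ((isCompact_closedBall _ _).prod (isCompact_closedBall _ _))
      (hf.comp (f := fun y : E × E => y.1 + y.2) (by fun_prop) fun y hy => ms2_add hy.1 hy.2)

theorem ms2_cs {f : E → ℝ} {p : E} {s : ℝ} (hs : 0 < s) (hf : ContinuousOn f (closedBall p s)) :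
    (∫ q in closedBall p s, f q) ^ 2 ≤ s ^ 4 * (volume : Measure E).real (closedBall 0 1) *
      ∫ q in closedBall p s, f q ^ 2 := by
  have i1 : IntegrableOn f (closedBall p s) := hf.integrableOn_compact (isCompact_closedBall _ _)
  have i2 : IntegrableOn (fun q => f q ^ 2) (closedBall p s) :=
    (hf.pow 2).integrableOn_compact (isCompact_closedBall _ _)
  have h2 := discrim_le_zero (a := (volume : Measure E).real (closedBall p s))
    (b := 2 * ∫ q in closedBall p s, f q) (c := ∫ q in closedBall p s, f q ^ 2) fun t => by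
    have i3 : IntegrableOn (fun _ => t * t) (closedBall p s) :=
      integrableOn_const measure_closedBall_lt_top.ne
    have i4 : IntegrableOn (fun q => t * t + 2 * t * f q) (closedBall p s) :=
      i3.add (i1.const_mul _)
    have : 0 ≤ ∫ q in closedBall p s, (t * t + 2 * t * f q + f q ^ 2) :=
      integral_nonneg fun q => by show 0 ≤ _; nlinarith [sq_nonneg (t + f q)]
    rw [integral_add i4 i2, integral_add i3 (i1.const_mul _), integral_const_mul (2 * t),
      setIntegral_const, smul_eq_mul] at this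
    linarith
  rw [discrim, ms2_vol p hs.le] at h2
  linarith

/-- local averages of a continuous function on a ball are controlled in `L²` and `L¹` -/
theorem avg_sq : ∃ C > 0, ∀ (f : E → ℝ) (R s : ℝ), 0 < s → ContinuousOn f (closedBall 0 (R + s)) →
    (∀ q, 0 ≤ f q) →
    ContinuousOn (fun p => ∫ q in closedBall p s, f q) (closedBall 0 R) ∧
    ∫ p in closedBall (0 : E) R, (∫ q in closedBall p s, f q) ^ 2 ≤
      C * s ^ 8 * ∫ q in closedBall (0 : E) (R + s), f q ^ 2 ∧
    ∫ p in closedBall (0 : E) R, (∫ q in closedBall p s, f q) ≤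
      C * s ^ 4 * ∫ q in closedBall (0 : E) (R + s), f q ∧
    ∀ p ∈ closedBall (0 : E) R, (∫ q in closedBall p s, f q) ^ 2 ≤
      C * s ^ 4 * ∫ q in closedBall (0 : E) (R + s), f q ^ 2 := by
  set V := (volume : Measure E).real (closedBall 0 1)
  have hV : 0 ≤ V := measureReal_nonneg
  refine ⟨(V + 1) ^ 2, by positivity, fun f R s hs hf h0 => ?_⟩
  have hf2 := hf.pow 2
  have h2 : ∀ q, 0 ≤ f q ^ 2 := fun q => sq_nonneg _
  have n1 : 0 ≤ ∫ q in closedBall (0 : E) (R + s), f q := integral_nonneg h0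
  have n2 : 0 ≤ ∫ q in closedBall (0 : E) (R + s), f q ^ 2 := integral_nonneg h2
  have v1 : s ^ 4 * V ≤ (V + 1) ^ 2 * s ^ 4 := by
    rw [mul_comm]
    exact mul_le_mul_of_nonneg_right (by nlinarith) (by positivity)
  refine ⟨ms2_cont hf, ?_, (ms2_fub hs hf h0).trans (mul_le_mul_of_nonneg_right v1 n1),
    fun p hp => (ms2_cs hs (ms2_sub hf h0 hp).1).trans
      (mul_le_mul v1 (ms2_sub hf2 h2 hp).2 (integral_nonneg h2) (by positivity))⟩
  refine (integral_mono_of_nonneg (Eventually.of_forall fun p => sq_nonneg _)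
    (((ms2_cont hf2).integrableOn_compact (isCompact_closedBall _ _)).const_mul (s ^ 4 * V))
    (ae_restrict_of_forall_mem measurableSet_closedBall fun p hp =>
      ms2_cs hs (ms2_sub hf h0 hp).1)).trans ?_
  rw [integral_const_mul]
  refine (mul_le_mul_of_nonneg_left (ms2_fub hs hf2 h2) (by positivity)).trans ?_
  rw [← mul_assoc]
  refine mul_le_mul_of_nonneg_right ?_ n2
  calc s ^ 4 * V * (s ^ 4 * V) = V ^ 2 * s ^ 8 := by ring
    _ ≤ _ := by gcongr; linarith

/-- an approximate identity -/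
theorem exists_moll (δ : ℝ) (hδ : 0 < δ) : ∃ ρ : E → ℝ, Supp δ ρ ∧ (∀ p, 0 ≤ ρ p) ∧
    ∫ p, ρ p = 1 := by
  let b : ContDiffBump (0 : E) := ⟨δ / 2, δ, half_pos hδ, half_lt_self hδ⟩
  refine ⟨b.normed volume, ⟨b.contDiff_normed, fun p hp => ?_⟩, b.nonneg_normed,
    b.integral_normed⟩
  by_contra h
  exact hp (ball_subset_closedBall (b.support_normed_eq (μ := volume) ▸ Function.mem_support.2 h))

theorem moll_tendsto {ρ : ℕ → E → ℝ} {δ : ℕ → ℝ} (hρ : ∀ n, Supp (δ n) (ρ n) ∧ (∀ p, 0 ≤ ρ n p) ∧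
    ∫ p, ρ n p = 1) (hδ : Tendsto δ atTop (𝓝 0)) {f : E → ℝ} {x : E} {U : Set E} (hU : IsOpen U)
    (hx : x ∈ U) (hf : ContinuousOn f U) :
    Tendsto (fun n => ∫ p, ρ n (p - x) * f p) atTop (𝓝 (f x)) := by
  refine Metric.tendsto_nhds.2 fun ε hε => ?_
  obtain ⟨η, hη, h1⟩ := nhds_basis_closedBall.eventually_iff.1 ((Metric.tendsto_nhds.1
    (hf.continuousAt (hU.mem_nhds hx)) _ (half_pos hε)).and (hU.mem_nhds hx))
  filter_upwards [hδ.eventually_le_const hη] with n hn
  obtain ⟨r1, r2, r3⟩ := hρ n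
  have c1 : Continuous fun p => ρ n (p - x) := r1.1.continuous.comp (by fun_prop)
  have s1 : ∀ p, ρ n (p - x) ≠ 0 → p ∈ closedBall x η := fun p hp =>
    mem_closedBall_iff_norm.2
      ((mem_closedBall_zero_iff.1 (not_not.1 fun e => hp (r1.2 _ e))).trans hn)
  have i1 : Integrable fun p => ρ n (p - x) :=
    (integrableOn_iff_integrable_of_support_subset s1).1
      (c1.continuousOn.integrableOn_compact (isCompact_closedBall _ _))
  have i2 : Integrable fun p => ρ n (p - x) * f p :=
    (integrableOn_iff_integrable_of_support_subset fun p hp => s1 p (left_ne_zero_of_mul hp)).1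
      ((c1.continuousOn.mul (hf.mono fun p hp => (h1 hp).2)).integrableOn_compact
        (isCompact_closedBall _ _))
  have e1 : ∫ p, ρ n (p - x) = 1 := (integral_sub_right_eq_self _ x).trans r3
  have e2 : ∀ c : ℝ, ∫ p, ρ n (p - x) * c = c := fun c => by
    rw [integral_mul_const, e1, one_mul]
  rw [dist_eq_norm, ← e2 (f x), ← integral_sub i2 (i1.mul_const _)]
  refine ((norm_integral_le_of_norm_le (i1.mul_const (ε / 2))
    (Eventually.of_forall fun p => ?_)).trans_eq (e2 _)).trans_lt (half_lt_self hε)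
  rw [← mul_sub, norm_mul, Real.norm_of_nonneg (r2 _)]
  by_cases h : ρ n (p - x) = 0
  · simp [h]
  · exact mul_le_mul_of_nonneg_left (h1 (s1 p h)).1.le (r2 _)


end

end Vale.Agent.P204
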