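import Vale.Agent.P204.Cal
import Vale.Agent.P204.Ms2

/-!
P204 Cal2: weakly closed smooth forms are closed.
Plan: test with `γ = ρ n (· - p) • innerSL ℝ (e d)` (`exists_moll`), `d1 γ = wedge1 (dρ) (dx_d)`
(`d1_smul`); `WL (η q) (wedge1 (dρ) dx_d)` is a signed sum of three products `η_ab ∂_c ρ`.
Multiply `η` by a cut-off (`exists_cutoff`, `Supp.smul_on`) to make it globally smooth, integrate by
parts (`integral_mul_fderiv_eq_neg_fderiv_mul_of_integrable`), let `n → ∞` (`moll_tendsto`): the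
cyclic sum vanishes on the four triples of distinct basis vectors. `fderiv η p u` is alternating
for each `u`; expand `u v w` in the basis (`alt_expand_apply`) and conclude with `linear_combination`.
-/

namespace Vale.Agent.P204

open scoped ContDiff Topology
open Metric MeasureTheory Set Filter

noncomputable section

theorem cal2_e (a c : Fin 4) : e a c = if c = a then 1 else 0 := by
  simp [e]

theorem cal2_int {f : E → ℝ} {r : ℝ} (h : Supp r f) : Integrable f :=
  h.1.continuous.integrable_of_hasCompactSupport h.hasCompactSupport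

theorem cal2_fd {a : E → ℝ} (ha : ContDiffOn ℝ ∞ a (ball 0 4)) (u : E) :
    ContDiffOn ℝ ∞ (fun q => fderiv ℝ a q u) (ball 0 4) :=
  (ha.fderiv_of_isOpen isOpen_ball (by simp)).clm_apply contDiffOn_const

theorem cal2_ibp {φ a : E → ℝ} {r : ℝ} (hr : r < 4) (hφ : Supp r φ)
    (ha : ContDiffOn ℝ ∞ a (ball 0 4)) (u : E) :
    Integrable (fun q => fderiv ℝ φ q u * a q) ∧ Integrable (fun q => φ q * fderiv ℝ a q u) ∧
      ∫ q, φ q * fderiv ℝ a q u = -∫ q, fderiv ℝ φ q u * a q := by
  have hb := closedBall_subset_ball (x := (0 : E)) hr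
  have hd : ∀ {f : E → ℝ}, Supp r f → Supp r fun q => fderiv ℝ f q u := fun hf =>
    ⟨hf.fderiv.1.clm_apply contDiff_const, fun q hq => by simp only [hf.fderiv.2 q hq, zero_apply]⟩
  have i1 : Integrable fun q => fderiv ℝ φ q u * a q :=
    cal2_int ((hd hφ).smul_on isOpen_ball ha hb)
  have i2 : Integrable fun q => φ q * fderiv ℝ a q u :=
    cal2_int (hφ.smul_on isOpen_ball (cal2_fd ha u) hb)
  have hg : Supp r fun q => φ q * a q := hφ.smul_on isOpen_ball ha hb
  refine ⟨i1, i2, ?_⟩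
  have h0 := integral_mul_fderiv_eq_neg_fderiv_mul_of_integrable (μ := volume) (v := u)
    (f := fun _ : E => (1 : ℝ)) (g := fun q => φ q * a q) (by simp)
    (by simpa only [one_mul] using cal2_int (hd hg)) (by simpa only [one_mul] using cal2_int hg)
    (fun _ _ => differentiableAt_const _) fun q _ => hg.1.differentiable (by simp) q
  simp only [one_mul, fderiv_fun_const, Pi.zero_apply, zero_apply, zero_mul, integral_zero,
    neg_zero] at h0
  rw [eq_neg_iff_add_eq_zero, ← integral_add i2 i1]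
  refine Eq.trans (integral_congr_ae (Eventually.of_forall fun q => ?_)) h0
  by_cases hq : q ∈ closedBall (0 : E) r
  · simp only
    rw [fderiv_fun_mul (hφ.1.differentiable (by simp) q)
      ((ha.contDiffAt (isOpen_ball.mem_nhds (hb hq))).differentiableAt (by simp))]
    simp only [add_apply, smul_apply, smul_eq_mul]
    ring
  · simp only [hφ.2 q hq, (hd hφ).2 q hq, (hd hg).2 q hq, zero_mul, add_zero]

theorem cal2_div {a : Fin 4 → E → ℝ} (ha : ∀ c, ContDiffOn ℝ ∞ (a c) (ball 0 4))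
    (h : ∀ (r : ℝ) (φ : E → ℝ), r < 4 → Supp r φ → ∫ q, ∑ c, fderiv ℝ φ q (e c) * a c q = 0) :
    ∀ p ∈ ball (0 : E) 4, ∑ c, fderiv ℝ (a c) p (e c) = 0 := by
  have hc : ContinuousOn (fun p => ∑ c, fderiv ℝ (a c) p (e c)) (ball 0 4) :=
    continuousOn_finsetSum _ fun c _ => (cal2_fd (ha c) (e c)).continuousOn
  have h1 := isOpen_ball.ae_eq_zero_of_integral_contDiff_smul_eq_zero (μ := volume)
    (hc.locallyIntegrableOn measurableSet_ball) fun g g1 _ g3 => by
      obtain ⟨r, hr, hs⟩ := exists_lt_subset_ball (isClosed_tsupport g) g3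
      have hg : Supp r g := ⟨g1, fun q hq => image_eq_zero_of_notMem_tsupport fun c =>
        hq (ball_subset_closedBall (hs c))⟩
      have h2 := h r g hr hg
      rw [integral_finsetSum _ fun c _ => (cal2_ibp hr hg (ha c) (e c)).1] at h2
      simp only [smul_eq_mul, Finset.mul_sum]
      rw [integral_finsetSum _ fun c _ => (cal2_ibp hr hg (ha c) (e c)).2.1,
        Finset.sum_congr rfl fun c _ => (cal2_ibp hr hg (ha c) (e c)).2.2, Finset.sum_neg_distrib,
        h2, neg_zero]
  exact Measure.eqOn_open_of_ae_eq ((ae_restrict_iff' measurableSet_ball).2 h1) isOpen_ball hc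
    continuousOn_const

theorem cal2_wedge (β : Bil) (ξ : Cov) (t : ℝ) (d : Fin 4) (q : E) :
    ∑ c, ξ (e c) * WL.flip (ef c d) β =
      WL β (t • d1 (fun _ => innerSL ℝ (e d)) q + wedge1 ξ (innerSL ℝ (e d))) := by
  have h0 : d1 (fun _ => innerSL ℝ (e d)) q = 0 := by
    ext u v
    simp only [d1_apply, fderiv_fun_const, Pi.zero_apply, zero_apply, sub_zero]
  rw [h0, smul_zero, zero_add]
  simp only [Fin.sum_univ_four, ContinuousLinearMap.flip_apply, WL_apply, alg1_ef, wedge1_apply,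
    innerSL_apply_apply, inner_e, cal2_e _ 0, cal2_e _ 1, cal2_e _ 2, cal2_e _ 3]
  simp only [Fin.isValue, Fin.reduceEq, if_true, if_false]
  ring

theorem cal2_alg (B : E →L[ℝ] Bil) (alt : ∀ x, IsAlt (B x))
    (key : ∀ d, ∑ c, WL (B (e c)) (ef c d) = 0) (u v w : E) :
    B u v w + B v w u + B w u v = 0 := by
  have ex : ∀ x : E, B x = x 0 • B (e 0) + x 1 • B (e 1) + x 2 • B (e 2) + x 3 • B (e 3) :=
    fun x => by
      conv_lhs => rw [alg1_expand x]
      simp only [map_add, map_smul]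
  have r0 := key 0
  have r1 := key 1
  have r2 := key 2
  have r3 := key 3
  simp only [Fin.sum_univ_four, WL_apply, alg1_ef, cal2_e] at r0 r1 r2 r3
  simp only [Fin.isValue, Fin.reduceEq, if_true, if_false] at r0 r1 r2 r3
  rw [ex u, ex v, ex w]
  simp only [add_apply, smul_apply, smul_eq_mul]
  rw [alt_expand_apply (alt (e 0)) v w, alt_expand_apply (alt (e 1)) v w,
    alt_expand_apply (alt (e 2)) v w, alt_expand_apply (alt (e 3)) v w,
    alt_expand_apply (alt (e 0)) w u, alt_expand_apply (alt (e 1)) w u,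
    alt_expand_apply (alt (e 2)) w u, alt_expand_apply (alt (e 3)) w u,
    alt_expand_apply (alt (e 0)) u v, alt_expand_apply (alt (e 1)) u v,
    alt_expand_apply (alt (e 2)) u v, alt_expand_apply (alt (e 3)) u v]
  linear_combination
    (u 0 * (v 1 * w 2 - v 2 * w 1) - u 1 * (v 0 * w 2 - v 2 * w 0) + u 2 * (v 0 * w 1 - v 1 * w 0)) * r3 -
    (u 0 * (v 1 * w 3 - v 3 * w 1) - u 1 * (v 0 * w 3 - v 3 * w 0) + u 3 * (v 0 * w 1 - v 1 * w 0)) * r2 +
    (u 0 * (v 2 * w 3 - v 3 * w 2) - u 2 * (v 0 * w 3 - v 3 * w 0) + u 3 * (v 0 * w 2 - v 2 * w 0)) * r1 -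
    (u 1 * (v 2 * w 3 - v 3 * w 2) - u 2 * (v 1 * w 3 - v 3 * w 1) + u 3 * (v 1 * w 2 - v 2 * w 1)) * r0

theorem cal2_clm {η : E → Bil} {B : E →L[ℝ] Bil} {p : E} (h : HasFDerivAt η B p) (L : Bil →L[ℝ] ℝ)
    (x : E) : fderiv ℝ (fun q => L (η q)) p x = L (B x) := by
  have := (L.hasFDerivAt.comp p h).fderiv
  exact congrArg (fun M : E →L[ℝ] ℝ => M x) this

theorem cal2_alt {η : E → Bil} {B : E →L[ℝ] Bil} {p : E} (h : HasFDerivAt η B p)
    (ha : ∀ q, IsAlt (η q)) (x : E) : IsAlt (B x) := by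
  intro y z
  obtain ⟨L, hL⟩ : ∃ L : Bil →L[ℝ] ℝ, ∀ b, L b = b y z + b z y :=
    ⟨(ContinuousLinearMap.apply ℝ ℝ z).comp (ContinuousLinearMap.apply ℝ Cov y) +
      (ContinuousLinearMap.apply ℝ ℝ y).comp (ContinuousLinearMap.apply ℝ Cov z), fun _ => rfl⟩
  have h1 := cal2_clm h L x
  have h2 : (fun q => L (η q)) = fun _ => 0 := funext fun q => by
    rw [hL, ha q y z, neg_add_cancel]
  rw [h2, hL, fderiv_fun_const, Pi.zero_apply, zero_apply] at h1
  exact eq_neg_of_add_eq_zero_left h1.symm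

theorem closedAt_of_weak {η : E → Bil} (hη : ContDiffOn ℝ ∞ η (ball 0 4)) (ha : ∀ q, IsAlt (η q))
    (h : ∀ (r : ℝ) (γ : E → Cov), r < 4 → Supp r γ → ∫ q, WL (η q) (d1 γ q) = 0) :
    ∀ p ∈ ball (0 : E) 4, ClosedAt η p := by
  intro p hp
  have hd : HasFDerivAt η (fderiv ℝ η p) p :=
    ((hη.contDiffAt (isOpen_ball.mem_nhds hp)).differentiableAt (by simp)).hasFDerivAt
  refine cal2_alg _ (cal2_alt hd ha) fun d => ?_
  have hs : ∀ c : Fin 4, ContDiffOn ℝ ∞ (fun q => WL.flip (ef c d) (η q)) (ball 0 4) := fun c =>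
    (WL.flip (ef c d)).contDiff.comp_contDiffOn hη
  have := cal2_div hs (fun r φ hr hφ => ?_) p hp
  · refine Eq.trans (Finset.sum_congr rfl fun c _ => ?_) this
    rw [cal2_clm hd, ContinuousLinearMap.flip_apply]
  · refine Eq.trans (integral_congr_ae (Eventually.of_forall fun q => ?_))
      (h r (fun q => φ q • innerSL ℝ (e d)) hr ⟨hφ.1.smul contDiff_const, fun q hq => by
        simp only [hφ.2 q hq, zero_smul]⟩)
    simp only
    rw [d1_smul (hφ.1.differentiable (by simp) q) (differentiableAt_const _)]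
    exact cal2_wedge _ _ _ _ _


end

end Vale.Agent.P204
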