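import Vale.Agent.P204.At3
import Vale.Agent.P204.Cal2

/-!
P204 At4: change of variables between charts.
Plan: `integral_image_eq_integral_abs_det_fderiv_smul` on the compact set `ov i l 1 r` with
`τ_injOn`, `ov_image`, `det_pos`, `WL_pull`: the `i`-th term of `pair α (ext l s)` equals
`∫_{ov l i r 1} chi i (τ l i q) * WL (α l q) (s q)`; sum over `i` with `chi_sum`
(terms outside `ov` vanish by `chi_supp`). `cov_le` with
`lintegral_image_eq_lintegral_abs_det_fderiv_mul` and `dτ_bounds`. `L2_ge`, `L1_ge`: insert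
`chi_sum`, bound `‖β j p‖ ≤ L² ‖β l (τ p)‖` (`norm_pullL_le`), use `cov_le`.
-/

namespace Vale.Agent.P204

open scoped ContDiff Topology
open Metric MeasureTheory Set Filter

noncomputable section

namespace Atlas

variable {𝒜 : Atlas}

theorem ov_fd (i j : Fin 𝒜.n) (r r' : ℝ) : ∀ x ∈ 𝒜.ov i j r r',
    HasFDerivWithinAt (𝒜.τ i j) (fderiv ℝ (𝒜.τ i j) x) (𝒜.ov i j r r') x := fun _ hx =>
  ((τ_contDiffAt i j hx.2.1).differentiableAt (by simp)).hasFDerivAt.hasFDerivWithinAt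

theorem ov_inj (i j : Fin 𝒜.n) (r r' : ℝ) : InjOn (𝒜.τ i j) (𝒜.ov i j r r') :=
  (τ_injOn i j).mono fun _ hx => hx.2.1

theorem cov_eq (i j : Fin 𝒜.n) {r r' : ℝ} (hr : r < 4) (hr' : r' < 4) (g : E → ℝ) :
    ∫ q in 𝒜.ov j i r' r, g q =
      ∫ p in 𝒜.ov i j r r', (fderiv ℝ (𝒜.τ i j) p).det * g (𝒜.τ i j p) := by
  have hm := (ov_compact i j hr hr').measurableSet
  rw [← ov_image, integral_image_eq_integral_abs_det_fderiv_smul volume hm (ov_fd i j r r')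
    (ov_inj i j r r')]
  refine setIntegral_congr_fun hm fun p hp => ?_
  simp only [smul_eq_mul, abs_of_pos (det_pos i j hp.2.1)]

theorem cov_le {r r' : ℝ} (hr : r < 4) (hr' : r' < 4) : ∃ C ≥ 1, ∀ i j (f : E → ℝ),
    (∀ q, 0 ≤ f q) → IntegrableOn f (closedBall 0 r') →
    IntegrableOn (fun p => f (𝒜.τ i j p)) (𝒜.ov i j r r') ∧
    ∫ p in 𝒜.ov i j r r', f (𝒜.τ i j p) ≤ C * ∫ q in closedBall (0 : E) r', f q := by
  obtain ⟨L, hL, hb⟩ := dτ_bounds (𝒜 := 𝒜) hr hr'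
  refine ⟨L, hL, fun i j f h0 hf => ?_⟩
  have hm := (ov_compact i j hr hr').measurableSet
  have hsub : 𝒜.ov j i r' r ⊆ closedBall 0 r' := fun _ hq => hq.1
  have h1 : IntegrableOn (fun x => |(fderiv ℝ (𝒜.τ i j) x).det| • f (𝒜.τ i j x))
      (𝒜.ov i j r r') := by
    rw [← integrableOn_image_iff_integrableOn_abs_det_fderiv_smul volume hm (ov_fd i j r r')
      (ov_inj i j r r'), ov_image]
    exact hf.mono_set hsub
  have h2 : IntegrableOn (fun x => (fderiv ℝ (𝒜.τ i j) x).det * f (𝒜.τ i j x)) (𝒜.ov i j r r') :=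
    h1.congr_fun (fun p hp => by simp only [smul_eq_mul, abs_of_pos (det_pos i j hp.2.1)]) hm
  have hd : Measurable fun x => (fderiv ℝ (𝒜.τ i j) x).det :=
    ContinuousLinearMap.continuous_det.measurable.comp (measurable_fderiv ℝ _)
  have hle : ∀ p ∈ 𝒜.ov i j r r',
      f (𝒜.τ i j p) ≤ L * ((fderiv ℝ (𝒜.τ i j) p).det * f (𝒜.τ i j p)) := fun p hp => by
    rw [← mul_assoc]
    exact le_mul_of_one_le_left (h0 _) (hb i j p hp).2.2.1
  have h3 : IntegrableOn (fun p => f (𝒜.τ i j p)) (𝒜.ov i j r r') := by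
    refine Integrable.mono' (h2.const_mul L) ?_ ?_
    · refine (hd.inv.aestronglyMeasurable.mul h2.aestronglyMeasurable).congr ?_
      filter_upwards [ae_restrict_mem hm] with p hp
      simp only [Pi.mul_apply, Pi.inv_apply]
      rw [inv_mul_cancel_left₀ (det_pos i j hp.2.1).ne']
    · filter_upwards [ae_restrict_mem hm] with p hp
      rw [Real.norm_eq_abs, abs_of_nonneg (h0 _)]
      exact hle p hp
  refine ⟨h3, (setIntegral_mono_on h3 (h2.const_mul L) hm hle).trans ?_⟩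
  rw [integral_const_mul, ← cov_eq i j hr hr' f]
  exact mul_le_mul_of_nonneg_left (setIntegral_mono_set hf (Eventually.of_forall h0)
    hsub.eventuallyLE) (by linarith)

theorem chi_τ_cont (l i : Fin 𝒜.n) (r r' : ℝ) :
    ContinuousOn (fun q => 𝒜.chi i (𝒜.τ l i q)) (𝒜.ov l i r r') :=
  (𝒜.chi_supp i).1.continuous.comp_continuousOn
    ((𝒜.τ_smooth l i).continuousOn.mono fun _ hq => hq.2.1)

theorem sum_ov (l : Fin 𝒜.n) {r : ℝ} (hr : r < 4) {h : E → ℝ}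
    (hh : ContinuousOn h (closedBall 0 r)) : ∫ q in closedBall (0 : E) r, h q =
      ∑ i, ∫ q in 𝒜.ov l i r 1, 𝒜.chi i (𝒜.τ l i q) * h q := by
  have hK : ∀ i, IsCompact (𝒜.ov l i r 1) := fun i => ov_compact l i hr (by norm_num)
  have hi : ∀ i, Integrable ((𝒜.ov l i r 1).indicator fun q => 𝒜.chi i (𝒜.τ l i q) * h q) :=
    fun i => (((chi_τ_cont l i r 1).mul (hh.mono fun _ hq => hq.1)).integrableOn_compact
      (hK i)).integrable_indicator (hK i).measurableSet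
  simp only [fun i => (integral_indicator (μ := volume)
    (f := fun q => 𝒜.chi i (𝒜.τ l i q) * h q) (hK i).measurableSet).symm]
  rw [← integral_finsetSum _ fun i _ => hi i, ← integral_indicator measurableSet_closedBall]
  refine integral_congr_ae (Eventually.of_forall fun q => ?_)
  by_cases hq : q ∈ closedBall (0 : E) r
  · simp only
    have e1 : h q = (∑ j, (𝒜.O l j).indicator (fun q => 𝒜.chi j (𝒜.τ l j q)) q) * h q := by
      rw [𝒜.chi_sum l q (cb_sub hr hq), one_mul]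
    rw [indicator_of_mem hq]
    refine e1.trans ?_
    rw [Finset.sum_mul]
    refine Finset.sum_congr rfl fun i _ => ?_
    by_cases h1 : q ∈ 𝒜.ov l i r 1
    · rw [indicator_of_mem h1, indicator_of_mem h1.2.1]
    · rw [indicator_of_notMem h1]
      by_cases h2 : q ∈ 𝒜.O l i
      · rw [indicator_of_mem h2, (𝒜.chi_supp i).2 _ fun h3 => h1 ⟨hq, h2, h3⟩, zero_mul]
      · rw [indicator_of_notMem h2, zero_mul]
  · simp only
    rw [indicator_of_notMem hq]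
    exact (Finset.sum_eq_zero fun i _ => indicator_of_notMem (fun h => hq h.1) _).symm

theorem ext_off (l i : Fin 𝒜.n) {r : ℝ} (hr : r < 4) {s : E → Bil} (hs : IsLoc r s) {p : E}
    (hp : p ∈ closedBall (0 : E) 1 \ 𝒜.ov i l 1 r) : (𝒜.ext l s).1 i p = 0 := by
  by_contra h
  obtain ⟨h1, h2⟩ := ext_ne_zero l i hr hs h
  exact hp.2 ⟨hp.1, h1, by_contra fun h3 => h2 (hs.1.2 _ h3)⟩

theorem pair_ext (l : Fin 𝒜.n) {r : ℝ} (hr : r < 4) {s : E → Bil} (hs : IsLoc r s) (α : 𝒜.Form) :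
    𝒜.pair α (𝒜.ext l s) = ∫ q, WL (α.1 l q) (s q) := by
  have hc : ContinuousOn (fun q => WL (α.1 l q) (s q)) (closedBall 0 r) :=
    (WL.continuous.comp_continuousOn ((Form.smooth α l).continuousOn.mono (cb_sub hr))).clm_apply
      hs.1.1.continuous.continuousOn
  rw [← setIntegral_eq_integral_of_forall_compl_eq_zero (s := closedBall (0 : E) r)
    (fun q hq => by rw [hs.1.2 q hq, map_zero]), sum_ov l hr hc, pair_apply]
  refine Finset.sum_congr rfl fun i _ => ?_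
  have hm := (ov_compact i l (r := 1) (by norm_num) hr).measurableSet
  rw [cov_eq i l (by norm_num) hr, setIntegral_eq_of_subset_of_forall_sdiff_eq_zero
    measurableSet_closedBall (fun _ hq => hq.1 : 𝒜.ov i l 1 r ⊆ closedBall 0 1)
    (fun p hp => by rw [ext_off l i hr hs hp, map_zero, mul_zero])]
  refine setIntegral_congr_fun hm fun p hp => ?_
  rw [τ_inv i l hp.2.1, Form.compat α i l hp.2.1, Form.compat (𝒜.ext l s) i l hp.2.1,
    ext_self l hr hs, WL_pull (Form.alt α l _) (hs.2 _)]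
  ring

theorem norm_compat {L : ℝ} (β : 𝒜.Form) (i j : Fin 𝒜.n) {p : E} (hp : p ∈ 𝒜.O i j)
    (hL : ‖fderiv ℝ (𝒜.τ i j) p‖ ≤ L) (m : ℕ) :
    ‖β.1 i p‖ ^ m ≤ (L ^ 2) ^ m * ‖β.1 j (𝒜.τ i j p)‖ ^ m := by
  rw [← mul_pow, Form.compat β i j hp]
  refine pow_le_pow_left₀ (norm_nonneg _) (((pullL _).le_opNorm _).trans ?_) m
  exact mul_le_mul_of_nonneg_right ((norm_pullL_le _).trans
    (pow_le_pow_left₀ (norm_nonneg _) hL 2)) (norm_nonneg _)

theorem Lp_ge (m : ℕ) {r : ℝ} (hr : r < 4) : ∃ C ≥ 1, ∀ (β : 𝒜.Form) j,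
    ∫ p in closedBall (0 : E) r, ‖β.1 j p‖ ^ m ≤
      C * ∑ i, ∫ p in closedBall (0 : E) 1, 𝒜.chi i p * ‖β.1 i p‖ ^ m := by
  obtain ⟨L, hL, hb⟩ := dτ_bounds (𝒜 := 𝒜) hr (r' := 1) (by norm_num)
  obtain ⟨C, hC, hc⟩ := cov_le (𝒜 := 𝒜) hr (r' := 1) (by norm_num)
  have hLm : 1 ≤ (L ^ 2) ^ m := one_le_pow₀ (one_le_pow₀ hL)
  refine ⟨(L ^ 2) ^ m * C, one_le_mul_of_one_le_of_one_le hLm hC, fun β j => ?_⟩
  have hcont : ∀ i, ContinuousOn (fun p => ‖β.1 i p‖ ^ m) (ball 0 4) := fun i =>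
    (Form.smooth β i).continuousOn.norm.pow m
  rw [sum_ov j hr ((hcont j).mono (cb_sub hr)), Finset.mul_sum]
  refine Finset.sum_le_sum fun i _ => ?_
  have hK := ov_compact j i hr (r' := 1) (by norm_num)
  obtain ⟨h1, h2⟩ := hc j i (fun q => 𝒜.chi i q * ‖β.1 i q‖ ^ m)
    (fun q => mul_nonneg (𝒜.chi_nonneg i q) (by positivity))
    (((𝒜.chi_supp i).1.continuous.continuousOn.mul ((hcont i).mono
      (cb_sub (by norm_num)))).integrableOn_compact (isCompact_closedBall _ _))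
  refine (setIntegral_mono_on (((chi_τ_cont j i r 1).mul ((hcont j).mono
    fun _ hq => cb_sub hr hq.1)).integrableOn_compact hK) (h1.const_mul ((L ^ 2) ^ m))
    hK.measurableSet fun p hp => ?_).trans ?_
  · rw [mul_left_comm]
    exact mul_le_mul_of_nonneg_left (norm_compat β j i hp.2.1 (hb j i p hp).2.1 m)
      (𝒜.chi_nonneg i _)
  · rw [integral_const_mul, mul_assoc]
    exact mul_le_mul_of_nonneg_left h2 (by linarith)

theorem L2_ge {r : ℝ} (hr : r < 4) : ∃ C ≥ 1, ∀ (β : 𝒜.Form) j,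
    ∫ p in closedBall (0 : E) r, ‖β.1 j p‖ ^ 2 ≤ C * L2 β ^ 2 := by
  obtain ⟨C, hC, h⟩ := Lp_ge (𝒜 := 𝒜) 2 hr
  refine ⟨C, hC, fun β j => ?_⟩
  rw [L2, Real.sq_sqrt (Finset.sum_nonneg fun i _ => integral_nonneg fun p =>
    mul_nonneg (𝒜.chi_nonneg i p) (by positivity))]
  exact h β j

theorem L1_ge {r : ℝ} (hr : r < 4) : ∃ C ≥ 1, ∀ (β : 𝒜.Form) j,
    ∫ p in closedBall (0 : E) r, ‖β.1 j p‖ ≤ C * L1 β := by
  obtain ⟨C, hC, h⟩ := Lp_ge (𝒜 := 𝒜) 1 hr
  refine ⟨C, hC, fun β j => ?_⟩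
  simpa only [pow_one, L1] using h β j

theorem Lp_ext (m : ℕ) (hm : m ≠ 0) {r : ℝ} (hr : r < 4) : ∃ C ≥ 1, ∀ l (s : E → Bil), IsLoc r s →
    ∑ i, ∫ p in closedBall (0 : E) 1, 𝒜.chi i p * ‖(𝒜.ext l s).1 i p‖ ^ m ≤
      C * ∫ q, ‖s q‖ ^ m := by
  obtain ⟨L, hL, hb⟩ := dτ_bounds (𝒜 := 𝒜) (r := 1) (by norm_num) hr
  obtain ⟨C, hC, hc⟩ := cov_le (𝒜 := 𝒜) (r := 1) (by norm_num) hr
  have hLm : 1 ≤ (L ^ 2) ^ m := one_le_pow₀ (one_le_pow₀ hL)
  have hn : (1 : ℝ) ≤ 𝒜.n := by exact_mod_cast 𝒜.npos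
  refine ⟨𝒜.n * ((L ^ 2) ^ m * C), one_le_mul_of_one_le_of_one_le hn
    (one_le_mul_of_one_le_of_one_le hLm hC), fun l s hs => ?_⟩
  rw [← setIntegral_eq_integral_of_forall_compl_eq_zero (s := closedBall (0 : E) r)
    (fun q hq => by rw [hs.1.2 q hq, norm_zero, zero_pow hm])]
  refine (Finset.sum_le_card_nsmul _ _ ((L ^ 2) ^ m * C * ∫ q in closedBall (0 : E) r, ‖s q‖ ^ m)
    fun i _ => ?_).trans (le_of_eq (by simp [mul_assoc]))
  have hK := ov_compact i l (r := 1) (by norm_num) hr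
  obtain ⟨h1, h2⟩ := hc i l (fun q => ‖s q‖ ^ m) (fun q => by positivity)
    ((hs.1.1.continuous.norm.pow m).continuousOn.integrableOn_compact (isCompact_closedBall _ _))
  rw [setIntegral_eq_of_subset_of_forall_sdiff_eq_zero
    measurableSet_closedBall (fun _ hq => hq.1 : 𝒜.ov i l 1 r ⊆ closedBall 0 1)
    (fun p hp => by rw [ext_off l i hr hs hp, norm_zero, zero_pow hm, mul_zero])]
  refine (setIntegral_mono_on (((𝒜.chi_supp i).1.continuous.continuousOn.mul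
    (((Form.smooth (𝒜.ext l s) i).continuousOn.norm.pow m).mono
    fun _ hq => cb_sub (by norm_num) hq.1)).integrableOn_compact hK) (h1.const_mul ((L ^ 2) ^ m))
    hK.measurableSet fun p hp => ?_).trans ?_
  · have := norm_compat (𝒜.ext l s) i l hp.2.1 (hb i l p hp).2.1 m
    rw [ext_self l hr hs] at this
    exact (mul_le_of_le_one_left (pow_nonneg (norm_nonneg _) m) (𝒜.chi_le i p)).trans this
  · rw [integral_const_mul, mul_assoc]
    exact mul_le_mul_of_nonneg_left h2 (by linarith)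

theorem L2_ext {r : ℝ} (hr : r < 4) : ∃ C ≥ 1, ∀ l (s : E → Bil), IsLoc r s →
    L2 (𝒜.ext l s) ≤ C * √(∫ q, ‖s q‖ ^ 2) := by
  obtain ⟨C, hC, h⟩ := Lp_ext (𝒜 := 𝒜) 2 two_ne_zero hr
  refine ⟨C, hC, fun l s hs => (Real.sqrt_le_sqrt (h l s hs)).trans ?_⟩
  rw [Real.sqrt_mul (by linarith)]
  refine mul_le_mul_of_nonneg_right ?_ (Real.sqrt_nonneg _)
  rw [Real.sqrt_le_left (by linarith)]
  nlinarith

theorem L1_ext {r : ℝ} (hr : r < 4) : ∃ C ≥ 1, ∀ l (s : E → Bil), IsLoc r s →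
    L1 (𝒜.ext l s) ≤ C * ∫ q, ‖s q‖ := by
  obtain ⟨C, hC, h⟩ := Lp_ext (𝒜 := 𝒜) 1 one_ne_zero hr
  refine ⟨C, hC, fun l s hs => ?_⟩
  simpa only [pow_one, L1] using h l s hs

theorem closed_of_weak {η : 𝒜.Form}
    (h : ∀ l (r : ℝ) (γ : E → Cov), r < 4 → Supp r γ → 𝒜.pair η (𝒜.ext l (d1 γ)) = 0) :
    Closed η := fun l =>
  closedAt_of_weak (Form.smooth η l) (Form.alt η l) fun r γ hr hγ => by
    rw [← pair_ext l hr hγ.d1 η]
    exact h l r γ hr hγ

end Atlas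

end

end Vale.Agent.P204
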