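import Vale.Agent.P204.At4

/-!
P204 At5: `L²` and `L¹` norms, duality.
Plan: pointwise algebra (`abs_WL_le`, `Herm.WL_pm_pp`, `WL_anti_pos` with `herm`, `orient'`) and
Cauchy-Schwarz for sums of integrals (e.g. via `2ab ≤ εa² + b²/ε` optimised, or
`integral_mul_le_Lp_mul_Lq_of_nonneg`, `Finset.inner_mul_le_norm_mul_norm`). Duality: test with
`β = ext j (chi j • hs (η j))` (resp. its `Ap` or `Am` part, using `pair_Am_Ap` and `pair_symm`):
`pair_ext`, `norm_sq_le_WL_hs`, `L2_ext`, `norm_hs_le`, `chi² ≤ chi`.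
-/

namespace Vale.Agent.P204

open scoped ContDiff Topology
open Metric MeasureTheory Set Filter

noncomputable section

namespace Atlas

variable {𝒜 : Atlas}

/-- weighted sum of integrals -/
def I5 (𝒜 : Atlas) (f : Fin 𝒜.n → E → ℝ) : ℝ :=
  ∑ j, ∫ p in closedBall (0 : E) 1, 𝒜.chi j p * f j p

theorem cont5 (β : 𝒜.Form) (j : Fin 𝒜.n) : ContinuousOn (β.1 j) (closedBall 0 1) :=
  (Form.smooth β j).continuousOn.mono (cb_sub (by norm_num))

theorem int5 {f : E → ℝ} (j : Fin 𝒜.n) (hf : ContinuousOn f (closedBall 0 1)) :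
    IntegrableOn (fun p => 𝒜.chi j p * f p) (closedBall 0 1) :=
  ContinuousOn.integrableOn_compact (isCompact_closedBall _ _)
    ((𝒜.chi_supp j).1.continuous.continuousOn.mul hf)

theorem I5_mono {f g : Fin 𝒜.n → E → ℝ} (hf : ∀ j, ContinuousOn (f j) (closedBall 0 1))
    (hg : ∀ j, ContinuousOn (g j) (closedBall 0 1))
    (h : ∀ j, ∀ p ∈ closedBall (0 : E) 1, f j p ≤ g j p) : I5 𝒜 f ≤ I5 𝒜 g :=
  Finset.sum_le_sum fun j _ => setIntegral_mono_on (int5 j (hf j)) (int5 j (hg j))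
    measurableSet_closedBall fun p hp => mul_le_mul_of_nonneg_left (h j p hp) (𝒜.chi_nonneg j p)

theorem I5_add {f g : Fin 𝒜.n → E → ℝ} (hf : ∀ j, ContinuousOn (f j) (closedBall 0 1))
    (hg : ∀ j, ContinuousOn (g j) (closedBall 0 1)) :
    I5 𝒜 (fun j p => f j p + g j p) = I5 𝒜 f + I5 𝒜 g := by
  unfold I5
  rw [← Finset.sum_add_distrib]
  refine Finset.sum_congr rfl fun j _ => ?_
  rw [← integral_add (int5 j (hf j)) (int5 j (hg j))]
  simp only [mul_add]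

theorem I5_mul (c : ℝ) (f : Fin 𝒜.n → E → ℝ) : I5 𝒜 (fun j p => c * f j p) = c * I5 𝒜 f := by
  unfold I5
  rw [Finset.mul_sum]
  refine Finset.sum_congr rfl fun j _ => ?_
  rw [← integral_const_mul]
  simp only [mul_left_comm]

theorem I5_nonneg {f : Fin 𝒜.n → E → ℝ} (h : ∀ j p, 0 ≤ f j p) : 0 ≤ I5 𝒜 f :=
  Finset.sum_nonneg fun j _ => integral_nonneg fun p => mul_nonneg (𝒜.chi_nonneg j p) (h j p)

theorem le_of_sq5 {a b : ℝ} (hb : 0 ≤ b) (h : a ^ 2 ≤ b ^ 2) : a ≤ b :=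
  (le_abs_self a).trans (abs_le_of_sq_le_sq h hb)

theorem contW5 (α β : 𝒜.Form) (j : Fin 𝒜.n) :
    ContinuousOn (fun p => WL (α.1 j p) (β.1 j p)) (closedBall 0 1) :=
  (WL.continuous.comp_continuousOn (cont5 α j)).clm_apply (cont5 β j)

theorem abs_pair_I5 (α β : 𝒜.Form) {g : Fin 𝒜.n → E → ℝ}
    (hg : ∀ j, ContinuousOn (g j) (closedBall 0 1))
    (h : ∀ j, ∀ p ∈ closedBall (0 : E) 1, |WL (α.1 j p) (β.1 j p)| ≤ g j p) :
    |𝒜.pair α β| ≤ I5 𝒜 g := by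
  have e1 : 𝒜.pair α β = I5 𝒜 (fun j p => WL (α.1 j p) (β.1 j p)) := rfl
  have h1 := I5_mono (contW5 α β) hg fun j p hp => (le_abs_self _).trans (h j p hp)
  have h2 := I5_mono (f := fun j p => (-1) * WL (α.1 j p) (β.1 j p))
    (fun j => continuousOn_const.mul (contW5 α β j)) hg fun j p hp => by
      have := neg_abs_le (WL (α.1 j p) (β.1 j p))
      have := h j p hp
      linarith
  rw [I5_mul] at h2
  rw [e1, abs_le]
  constructor <;> linarith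

theorem Cn_norm5 {α : 𝒜.Form} {M : ℝ} (h : Cn 0 α M) (j : Fin 𝒜.n) {p : E}
    (hp : p ∈ closedBall (0 : E) 1) : ‖α.1 j p‖ ≤ M :=
  SJB_zero_iff.1 ((JB_iff_SJB _ _ _ _).1 (h j p hp))

theorem L2_nonneg (β : 𝒜.Form) : 0 ≤ L2 β :=
  Real.sqrt_nonneg _

theorem L1_nonneg (β : 𝒜.Form) : 0 ≤ L1 β :=
  I5_nonneg (f := fun j p => ‖β.1 j p‖) fun _ _ => norm_nonneg _

theorem L2_sq (β : 𝒜.Form) :
    L2 β ^ 2 = ∑ j, ∫ p in closedBall (0 : E) 1, 𝒜.chi j p * ‖β.1 j p‖ ^ 2 :=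
  Real.sq_sqrt (I5_nonneg (f := fun j p => ‖β.1 j p‖ ^ 2) fun _ _ => sq_nonneg _)

theorem L2_I5 (β : 𝒜.Form) : L2 β ^ 2 = I5 𝒜 (fun j p => ‖β.1 j p‖ ^ 2) := L2_sq β

theorem L1_I5 (β : 𝒜.Form) : L1 β = I5 𝒜 (fun j p => ‖β.1 j p‖) := rfl

theorem contN5 (β : 𝒜.Form) (j : Fin 𝒜.n) :
    ContinuousOn (fun p => ‖β.1 j p‖ ^ 2) (closedBall 0 1) := (cont5 β j).norm.pow 2

theorem L2_le5 {α β : 𝒜.Form} {C : ℝ} (hC : 0 ≤ C)
    (h : ∀ j, ∀ p ∈ closedBall (0 : E) 1, ‖α.1 j p‖ ≤ C * ‖β.1 j p‖) :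
    L2 α ≤ C * L2 β ∧ L1 α ≤ C * L1 β := by
  constructor
  · refine le_of_sq5 (mul_nonneg hC (L2_nonneg β)) ?_
    rw [mul_pow, L2_I5, L2_I5, ← I5_mul]
    refine I5_mono (contN5 α) (fun j => continuousOn_const.mul (contN5 β j)) fun j p hp => ?_
    rw [← mul_pow]
    exact pow_le_pow_left₀ (norm_nonneg _) (h j p hp) 2
  · rw [L1_I5, L1_I5, ← I5_mul]
    exact I5_mono (fun j => (cont5 α j).norm)
      (fun j => continuousOn_const.mul (cont5 β j).norm) h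

theorem L2_add_le (α β : 𝒜.Form) : L2 (α + β) ≤ 2 * (L2 α + L2 β) := by
  have ha := L2_nonneg α
  have hb := L2_nonneg β
  refine le_of_sq5 (by positivity) ?_
  have h1 : L2 (α + β) ^ 2 ≤ 2 * L2 α ^ 2 + 2 * L2 β ^ 2 := by
    rw [L2_I5, L2_I5, L2_I5, ← I5_mul, ← I5_mul,
      ← I5_add (f := fun j p => 2 * ‖α.1 j p‖ ^ 2) (g := fun j p => 2 * ‖β.1 j p‖ ^ 2)
        (fun j => continuousOn_const.mul (contN5 α j))
        (fun j => continuousOn_const.mul (contN5 β j))]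
    refine I5_mono (contN5 _) (fun j => (continuousOn_const.mul (contN5 α j)).add
      (continuousOn_const.mul (contN5 β j))) fun j p _ => ?_
    have h2 : ‖(α + β).1 j p‖ ≤ ‖α.1 j p‖ + ‖β.1 j p‖ := norm_add_le _ _
    have h3 := pow_le_pow_left₀ (norm_nonneg _) h2 2
    nlinarith [sq_nonneg (‖α.1 j p‖ - ‖β.1 j p‖)]
  nlinarith [mul_nonneg ha hb]

theorem L2_neg (β : 𝒜.Form) : L2 (-β) = L2 β := by
  unfold L2
  simp only [Submodule.coe_neg, Pi.neg_apply, norm_neg]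

theorem pair_symm (α β : 𝒜.Form) : 𝒜.pair α β = 𝒜.pair β α := by
  simp only [pair_apply, WL_symm (α.1 _ _)]

theorem abs_pair_le (α β : 𝒜.Form) : |𝒜.pair α β| ≤ 6 * L2 α * L2 β := by
  have ha := L2_nonneg α
  have hb := L2_nonneg β
  have hc : ∀ j, ContinuousOn (fun p => ‖α.1 j p‖ * ‖β.1 j p‖) (closedBall (0 : E) 1) :=
    fun j => (cont5 α j).norm.mul (cont5 β j).norm
  have h1 := abs_pair_I5 α β (g := fun j p => 6 * (‖α.1 j p‖ * ‖β.1 j p‖))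
    (fun j => continuousOn_const.mul (hc j)) fun j p _ => by
      rw [← mul_assoc]; exact abs_WL_le _ _
  rw [I5_mul] at h1
  have h2 : ∀ t : ℝ, 0 ≤ L2 α ^ 2 * (t * t) +
      (-2 * I5 𝒜 (fun j p => ‖α.1 j p‖ * ‖β.1 j p‖)) * t + L2 β ^ 2 := by
    intro t
    have h3 := I5_mono (f := fun j p => (2 * t) * (‖α.1 j p‖ * ‖β.1 j p‖))
      (g := fun j p => (t * t) * ‖α.1 j p‖ ^ 2 + ‖β.1 j p‖ ^ 2)
      (fun j => continuousOn_const.mul (hc j))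
      (fun j => (continuousOn_const.mul (contN5 α j)).add (contN5 β j)) fun j p _ => by
        nlinarith [sq_nonneg (t * ‖α.1 j p‖ - ‖β.1 j p‖)]
    rw [I5_add (f := fun j p => (t * t) * ‖α.1 j p‖ ^ 2)
      (fun j => continuousOn_const.mul (contN5 α j)) (contN5 β), I5_mul, I5_mul,
      ← L2_I5, ← L2_I5] at h3
    linarith
  have h4 := discrim_le_zero h2
  unfold discrim at h4
  have h5 : I5 𝒜 (fun j p => ‖α.1 j p‖ * ‖β.1 j p‖) ≤ L2 α * L2 β :=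
    le_of_sq5 (mul_nonneg ha hb) (by nlinarith)
  linarith

theorem abs_pair_le_L1 {α : 𝒜.Form} {M : ℝ} (h : Cn 0 α M) (β : 𝒜.Form) :
    |𝒜.pair α β| ≤ 6 * M * L1 β := by
  rw [L1_I5, ← I5_mul]
  refine abs_pair_I5 α β (fun j => continuousOn_const.mul (cont5 β j).norm) fun j p hp => ?_
  refine (abs_WL_le _ _).trans ?_
  have := Cn_norm5 h j hp
  gcongr

theorem pair_Am_Ap (α β : 𝒜.Form) : 𝒜.pair (𝒜.Am α) (𝒜.Ap β) = 0 := by
  obtain ⟨c, C, -, hH⟩ := 𝒜.herm (r := 1) (by norm_num)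
  rw [pair_apply]
  refine Finset.sum_eq_zero fun j _ => setIntegral_eq_zero_of_forall_eq_zero fun p hp => ?_
  rw [Am_val, Ap_val, (hH j p hp).WL_pm_pp (𝒜.orient' j (cb_sub (by norm_num) hp))
    (Form.alt α j p) (Form.alt β j p), mul_zero]

theorem pair_split (α β : 𝒜.Form) :
    𝒜.pair α β = 𝒜.pair (𝒜.Ap α) (𝒜.Ap β) + 𝒜.pair (𝒜.Am α) (𝒜.Am β) := by
  have h1 : 𝒜.pair (𝒜.Ap α) (𝒜.Am β) = 0 := by rw [pair_symm, pair_Am_Ap]
  have h2 := pair_Am_Ap α β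
  conv_lhs => rw [← Ap_add_Am α, ← Ap_add_Am β]
  simp only [map_add, LinearMap.add_apply, h1, h2, add_zero, zero_add]

theorem anti_pos : ∃ κ > 0, ∀ σ : 𝒜.Form, Anti σ → κ * L2 σ ^ 2 ≤ 𝒜.pair σ σ := by
  obtain ⟨c, C, -, hH⟩ := 𝒜.herm (r := 1) (by norm_num)
  obtain ⟨κ, hκ, h⟩ := WL_anti_pos c C
  refine ⟨κ, hκ, fun σ hσ => ?_⟩
  have e1 : 𝒜.pair σ σ = I5 𝒜 (fun j p => WL (σ.1 j p) (σ.1 j p)) := rfl
  rw [e1, L2_I5, ← I5_mul]
  refine I5_mono (fun j => continuousOn_const.mul (contN5 σ j)) (contW5 σ σ) fun j p hp => ?_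
  refine h _ _ (hH j p hp) (𝒜.orient' j (cb_sub (by norm_num) hp)) _ (Form.alt σ j p) ?_
  rw [← Am_val, hσ]

theorem L2_Am_le : ∃ C ≥ 1, ∀ β : 𝒜.Form, L2 (𝒜.Am β) ≤ C * L2 β ∧ L2 (𝒜.Ap β) ≤ C * L2 β ∧
    L1 (𝒜.Am β) ≤ C * L1 β ∧ L1 (𝒜.Ap β) ≤ C * L1 β := by
  obtain ⟨c, C, hC, hH⟩ := 𝒜.herm (r := 1) (by norm_num)
  refine ⟨1 + C ^ 2, by nlinarith, fun β => ?_⟩
  have hJ : ∀ j, ∀ p ∈ closedBall (0 : E) 1, 1 + ‖𝒜.J j p‖ ^ 2 ≤ 1 + C ^ 2 := fun j p hp => by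
    have := pow_le_pow_left₀ (norm_nonneg _) (hH j p hp).Jle 2
    linarith
  have h1 := L2_le5 (α := 𝒜.Am β) (β := β) (C := 1 + C ^ 2) (by positivity) fun j p hp => by
    rw [Am_val]
    exact (ContinuousLinearMap.le_opNorm _ _).trans
      (mul_le_mul_of_nonneg_right ((norm_pm_le _).trans (hJ j p hp)) (norm_nonneg _))
  have h2 := L2_le5 (α := 𝒜.Ap β) (β := β) (C := 1 + C ^ 2) (by positivity) fun j p hp => by
    rw [Ap_val]
    exact (ContinuousLinearMap.le_opNorm _ _).trans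
      (mul_le_mul_of_nonneg_right ((norm_pp_le _).trans (hJ j p hp)) (norm_nonneg _))
  exact ⟨h1.1, h2.1, h1.2, h2.2⟩

theorem L2_le_Cn : ∃ C ≥ 1, ∀ (β : 𝒜.Form) M, Cn 0 β M → L2 β ≤ C * M := by
  have h0 : 0 ≤ I5 𝒜 (fun _ _ => 1) := I5_nonneg fun _ _ => zero_le_one
  refine ⟨1 + I5 𝒜 (fun _ _ => 1), by linarith, fun β M h => ?_⟩
  have hM := h.nonneg
  refine le_of_sq5 (by positivity) ?_
  have h1 : L2 β ^ 2 ≤ M ^ 2 * I5 𝒜 (fun _ _ => 1) := by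
    rw [L2_I5, ← I5_mul]
    refine I5_mono (contN5 β) (fun j => continuousOn_const) fun j p hp => ?_
    rw [mul_one]
    exact pow_le_pow_left₀ (norm_nonneg _) (Cn_norm5 h j hp) 2
  have h2 : I5 𝒜 (fun _ _ => 1) ≤ (1 + I5 𝒜 (fun _ _ => 1)) ^ 2 := by nlinarith
  rw [mul_pow]
  nlinarith [mul_le_mul_of_nonneg_left h2 (sq_nonneg M)]

theorem pair_ord (α : 𝒜.Form) : ∃ C, FinOrd (𝒜.pair α) 0 C := by
  refine ⟨6 * L1 α, fun β M h => ?_⟩
  rw [pair_symm]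
  have := abs_pair_le_L1 h α
  linarith

theorem test5 : ∃ C ≥ 1, ∀ (η : 𝒜.Form) j, ∃ β : 𝒜.Form, L2 β ≤ C * L2 η ∧
    ∫ p in closedBall (0 : E) 1, 𝒜.chi j p * ‖η.1 j p‖ ^ 2 ≤ 24 * 𝒜.pair η β := by
  obtain ⟨C, hC, hL⟩ := 𝒜.L2_ext (r := 1) (by norm_num)
  refine ⟨C * 12, by linarith, fun η j => ?_⟩
  have hs1 : IsLoc 1 (fun p => 𝒜.chi j p • hs (η.1 j p)) :=
    ⟨(𝒜.chi_supp j).smul_on isOpen_ball (hs.contDiff.comp_contDiffOn (Form.smooth η j))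
      (cb_sub (by norm_num)), fun p => (hs_alt _).smul _⟩
  have hc : ContinuousOn (fun p => hs (η.1 j p)) (closedBall (0 : E) 1) :=
    hs.continuous.comp_continuousOn (cont5 η j)
  refine ⟨𝒜.ext j _, (hL j _ hs1).trans ?_, ?_⟩
  · rw [mul_assoc]
    refine mul_le_mul_of_nonneg_left ?_ (by linarith)
    rw [Real.sqrt_le_left (by have := L2_nonneg η; positivity),
      ← setIntegral_eq_integral_of_forall_compl_eq_zero (s := closedBall (0 : E) 1)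
        (fun p hp => by rw [(𝒜.chi_supp j).2 p hp, zero_smul, norm_zero]; norm_num),
      mul_pow, L2_sq]
    have h1 : ∫ p in closedBall (0 : E) 1, 𝒜.chi j p * ‖η.1 j p‖ ^ 2 ≤
        ∑ j, ∫ p in closedBall (0 : E) 1, 𝒜.chi j p * ‖η.1 j p‖ ^ 2 :=
      Finset.single_le_sum (f := fun j => ∫ p in closedBall (0 : E) 1, 𝒜.chi j p * ‖η.1 j p‖ ^ 2)
        (fun i _ => integral_nonneg fun p => mul_nonneg (𝒜.chi_nonneg i p) (sq_nonneg _))
        (Finset.mem_univ j)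
    refine le_trans ?_ (mul_le_mul_of_nonneg_left h1 (by norm_num))
    rw [← integral_const_mul]
    refine setIntegral_mono_on (ContinuousOn.integrableOn_compact (isCompact_closedBall _ _)
      (hs1.1.1.continuous.continuousOn.norm.pow 2)) ((int5 j (contN5 η j)).const_mul _)
      measurableSet_closedBall fun p _ => ?_
    have a1 := 𝒜.chi_nonneg j p
    have a2 := 𝒜.chi_le j p
    have a3 := pow_le_pow_left₀ (norm_nonneg _) (norm_hs_le (η.1 j p)) 2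
    have a4 : 𝒜.chi j p ^ 2 ≤ 𝒜.chi j p := by nlinarith
    rw [norm_smul, mul_pow, Real.norm_eq_abs, sq_abs]
    calc 𝒜.chi j p ^ 2 * ‖hs (η.1 j p)‖ ^ 2 ≤ 𝒜.chi j p * (12 * ‖η.1 j p‖) ^ 2 :=
          mul_le_mul a4 a3 (sq_nonneg _) a1
      _ = _ := by ring
  · rw [pair_ext j (by norm_num) hs1,
      ← setIntegral_eq_integral_of_forall_compl_eq_zero (s := closedBall (0 : E) 1)
        (f := fun q => WL (η.1 j q) (𝒜.chi j q • hs (η.1 j q)))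
        (fun p hp => by rw [(𝒜.chi_supp j).2 p hp, zero_smul, map_zero]), ← integral_const_mul]
    refine setIntegral_mono_on (int5 j (contN5 η j))
      ((ContinuousOn.integrableOn_compact (isCompact_closedBall _ _)
        ((WL.continuous.comp_continuousOn (cont5 η j)).clm_apply
          hs1.1.1.continuous.continuousOn)).const_mul _) measurableSet_closedBall fun p _ => ?_
    rw [map_smul, smul_eq_mul, mul_left_comm]
    exact mul_le_mul_of_nonneg_left (norm_sq_le_WL_hs (Form.alt η j p)) (𝒜.chi_nonneg j p)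

theorem dual5 : ∃ C ≥ 1, ∀ (η : 𝒜.Form) (M : ℝ), 0 ≤ M →
    (∀ β, |𝒜.pair η β| ≤ M * L2 β) → L2 η ≤ C * M := by
  obtain ⟨C, hC, h⟩ := test5 (𝒜 := 𝒜)
  have hn : (1 : ℝ) ≤ 𝒜.n := by exact_mod_cast 𝒜.npos
  refine ⟨𝒜.n * (24 * C), by nlinarith, fun η M hM hη => ?_⟩
  have h1 : L2 η ^ 2 ≤ 𝒜.n * (24 * C) * M * L2 η := by
    rw [L2_sq]
    refine (Finset.sum_le_card_nsmul _ _ (24 * C * M * L2 η) fun j _ => ?_).trans (le_of_eq ?_)
    · obtain ⟨β, h2, h3⟩ := h η j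
      have h4 := (le_abs_self _).trans (hη β)
      have h5 := mul_le_mul_of_nonneg_left h2 hM
      linarith
    · simp only [Finset.card_univ, Fintype.card_fin, nsmul_eq_mul]; ring
  rcases (L2_nonneg η).eq_or_lt with h0 | h0
  · rw [← h0]; positivity
  · rw [sq] at h1
    exact le_of_mul_le_mul_right h1 h0

theorem dual2 : ∃ C ≥ 1, ∀ (η : 𝒜.Form) (M : ℝ), 0 ≤ M →
    ((∀ β, |𝒜.pair η β| ≤ M * L2 β) → L2 η ≤ C * M) ∧
    ((∀ β, 𝒜.Am β = 0 → |𝒜.pair η β| ≤ M * L2 β) → L2 (𝒜.Ap η) ≤ C * M) ∧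
    ((∀ β, Anti β → |𝒜.pair η β| ≤ M * L2 β) → L2 (𝒜.Am η) ≤ C * M) := by
  obtain ⟨C, hC, h⟩ := dual5 (𝒜 := 𝒜)
  obtain ⟨C', hC', h'⟩ := L2_Am_le (𝒜 := 𝒜)
  refine ⟨C * C', by nlinarith, fun η M hM => ⟨fun hη => ?_, fun hη => ?_, fun hη => ?_⟩⟩
  · refine (h η M hM hη).trans (mul_le_mul_of_nonneg_right ?_ hM)
    nlinarith
  · rw [mul_assoc]
    refine h _ _ (by positivity) fun β => ?_
    have e1 : 𝒜.pair (𝒜.Ap η) β = 𝒜.pair η (𝒜.Ap β) := by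
      have a1 : 𝒜.pair (𝒜.Ap η) (𝒜.Am β) = 0 := by rw [pair_symm, pair_Am_Ap]
      have a2 := pair_Am_Ap η β
      conv_lhs => rw [← Ap_add_Am β]
      conv_rhs => rw [← Ap_add_Am η]
      simp only [map_add, LinearMap.add_apply, a1, a2, add_zero]
    rw [e1]
    refine (hη _ (Am_Ap β)).trans ?_
    have := mul_le_mul_of_nonneg_left (h' β).2.1 hM
    linarith
  · rw [mul_assoc]
    refine h _ _ (by positivity) fun β => ?_
    have e1 : 𝒜.pair (𝒜.Am η) β = 𝒜.pair η (𝒜.Am β) := by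
      have a1 : 𝒜.pair (𝒜.Ap η) (𝒜.Am β) = 0 := by rw [pair_symm, pair_Am_Ap]
      have a2 := pair_Am_Ap η β
      conv_lhs => rw [← Ap_add_Am β]
      conv_rhs => rw [← Ap_add_Am η]
      simp only [map_add, LinearMap.add_apply, a1, a2, zero_add]
    rw [e1]
    refine (hη _ (Am_Am β)).trans ?_
    have := mul_le_mul_of_nonneg_left (h' β).1 hM
    linarith

end Atlas

end

end Vale.Agent.P204
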