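import Vale.Agent.P204.Defs

/-!
P204 Ms1: dyadic estimates for integrals of radial kernels against a measure with power growth.
Plan: `dy_tail`: cover by `A 0 = {ζ ≤ s}`, `A (n+1) = {2^n s < ζ ≤ 2^(n+1) s}`; on `A n` the
kernel is `≤ (2^n s / 2)^(-b)`; work with `lintegral` (`lintegral_iUnion_le`), geometric series;
convert with `integral_eq_lintegral_of_nonneg_ae` / `ofReal_integral_eq_lintegral_ofReal`
(the kernel is bounded by `s^(-b)`, the measure is finite). `dy_head`: split at `ζ ≤ η`; on the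
inner part use the pieces `{ζ ≤ s}` and `{η 2^(-n-1) < ζ ≤ η 2^(-n), s < ζ}`. `dy_zero` follows
from `dy_head` by monotone convergence in `s = 1/(n+1)`, and `μ {ζ = 0} ≤ Θ r² → 0`.
`vol_kernel*`: apply the same lemmas to Lebesgue measure restricted to a ball, or use `dy_tail`
on `closedBall x R` and let `R → ∞` (`Measure.addHaar_closedBall`, `finrank = 4`).
-/

namespace Vale.Agent.P204

open scoped ContDiff Topology
open Metric MeasureTheory Set Filter

noncomputable section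

variable {X : Type} [MeasurableSpace X]

theorem ms1_shell (μ : Measure X) {ζ : X → ℝ} (hζ : Measurable ζ) (f : X → ℝ) (ρ c : ℕ → ℝ)
    {B : ℝ} (hB : 0 ≤ B) (hcov : ∀ x, f x ≤ 0 ∨ ∃ j, ζ x ≤ ρ j ∧ f x ≤ c j)
    (h : ∀ j, ENNReal.ofReal (c j) * μ {x | ζ x ≤ ρ j} ≤ ENNReal.ofReal (B * (1 / 2) ^ j)) :
    ∫⁻ x, ENNReal.ofReal (f x) ∂μ ≤ ENNReal.ofReal (2 * B) := by
  have hm : ∀ j, MeasurableSet {x | ζ x ≤ ρ j} := fun j => measurableSet_le hζ measurable_const
  calc ∫⁻ x, ENNReal.ofReal (f x) ∂μ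
      ≤ ∫⁻ x, ∑' j, {x | ζ x ≤ ρ j}.indicator (fun _ => ENNReal.ofReal (c j)) x ∂μ := by
        refine lintegral_mono fun x => ?_
        rcases hcov x with h0 | ⟨j, h1, h2⟩
        · simp [ENNReal.ofReal_of_nonpos h0]
        · refine le_trans ?_ (ENNReal.le_tsum j)
          rw [indicator_of_mem (show x ∈ {x | ζ x ≤ ρ j} from h1)]
          exact ENNReal.ofReal_le_ofReal h2
    _ = ∑' j, ENNReal.ofReal (c j) * μ {x | ζ x ≤ ρ j} := by
        rw [lintegral_tsum fun j => (measurable_const.indicator (hm j)).aemeasurable]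
        exact tsum_congr fun j => lintegral_indicator_const (hm j) _
    _ ≤ ∑' j : ℕ, ENNReal.ofReal (B * (1 / 2) ^ j) := ENNReal.tsum_le_tsum h
    _ = ENNReal.ofReal (2 * B) := by
        rw [← ENNReal.ofReal_tsum_of_nonneg (fun j => by positivity)
          (summable_geometric_two.mul_left B), tsum_mul_left, tsum_geometric_two, mul_comm]

theorem ms1_conv {μ : Measure X} {f : X → ℝ} (hf : Measurable f) (f0 : ∀ x, 0 ≤ f x) {B : ℝ}
    (hB : 0 ≤ B) (h : ∫⁻ x, ENNReal.ofReal (f x) ∂μ ≤ ENNReal.ofReal B) :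
    Integrable f μ ∧ ∫ x, f x ∂μ ≤ B := by
  refine ⟨⟨hf.aestronglyMeasurable, ?_⟩, ?_⟩
  · rw [hasFiniteIntegral_iff_ofReal (Eventually.of_forall f0)]
    exact h.trans_lt ENNReal.ofReal_lt_top
  · rw [integral_eq_lintegral_of_nonneg_ae (Eventually.of_forall f0) hf.aestronglyMeasurable]
    exact ENNReal.toReal_le_of_le_ofReal hB h

theorem ms1_pow {a d : ℕ} (had : a < d) (n : ℕ) : ((2 : ℝ) ^ n) ^ a * 2 ^ n ≤ (2 ^ n) ^ d := by
  rw [← pow_succ]
  exact pow_le_pow_right₀ (one_le_pow₀ one_le_two) had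

theorem ms1_tail {b d : ℕ} (hbd : d < b) (μ : Measure X) {ζ : X → ℝ} (hζ : Measurable ζ)
    (h0 : ∀ x, 0 ≤ ζ x) {Θ s : ℝ} (hΘ : 0 ≤ Θ) (hs : 0 < s)
    (h : ∀ r, s ≤ r → μ {x | ζ x ≤ r} ≤ ENNReal.ofReal (Θ * r ^ d)) :
    Integrable (fun x => 1 / (ζ x + s) ^ b) μ ∧
      ∫ x, 1 / (ζ x + s) ^ b ∂μ ≤ 2 * (2 ^ d * Θ * s ^ d / s ^ b) := by
  refine ms1_conv (by fun_prop) (fun x => by have := h0 x; positivity) (by positivity) ?_
  refine ms1_shell μ hζ _ (fun n => 2 ^ (n + 1) * s) (fun n => 1 / (2 ^ n * s) ^ b)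
    (by positivity) (fun x => Or.inr ?_) (fun n => ?_)
  · have hx := h0 x
    obtain ⟨n, h1, h2⟩ := exists_nat_pow_near (x := (ζ x + s) / s) (y := 2)
      (by rw [le_div_iff₀ hs]; linarith) one_lt_two
    rw [le_div_iff₀ hs] at h1
    rw [div_lt_iff₀ hs] at h2
    refine ⟨n, by linarith, ?_⟩
    exact one_div_le_one_div_of_le (by positivity) (pow_le_pow_left₀ (by positivity) h1 b)
  · have h1 : s ≤ 2 ^ (n + 1) * s := le_mul_of_one_le_left hs.le (one_le_pow₀ one_le_two)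
    refine (mul_le_mul_right (h _ h1) _).trans ?_
    rw [← ENNReal.ofReal_mul (by positivity)]
    refine ENNReal.ofReal_le_ofReal ?_
    have h2 := ms1_pow hbd n
    have h3 : 1 / (2 ^ n * s) ^ b * (Θ * (2 ^ (n + 1) * s) ^ d) =
        2 ^ d * Θ * s ^ d / s ^ b * ((2 ^ n) ^ d / (2 ^ n) ^ b) := by
      rw [pow_succ, mul_pow, mul_pow, mul_pow]
      field_simp
    rw [h3]
    refine mul_le_mul_of_nonneg_left ?_ (by positivity)
    rw [one_div, inv_pow, div_le_iff₀ (by positivity), le_inv_mul_iff₀ (by positivity), mul_comm]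
    exact h2

theorem ms1_head {a d : ℕ} (had : a < d) (μ : Measure X) {ζ : X → ℝ} (hζ : Measurable ζ)
    {Θ s η : ℝ} (hΘ : 0 ≤ Θ) (hs : 0 ≤ s) (hη : 0 < η)
    (h : ∀ r, s ≤ r → 0 < r → μ {x | ζ x ≤ r} ≤ ENNReal.ofReal (Θ * r ^ d)) :
    Integrable (fun x => if s < ζ x ∧ ζ x ≤ η then 1 / ζ x ^ a else 0) μ ∧
      ∫ x, (if s < ζ x ∧ ζ x ≤ η then 1 / ζ x ^ a else 0) ∂μ ≤ 2 * (2 ^ a * Θ * η ^ d / η ^ a) := by
  refine ms1_conv ?_ (fun x => ?_) (by positivity) ?_
  · exact Measurable.ite ((measurableSet_lt measurable_const hζ).inter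
      (measurableSet_le hζ measurable_const)) (by fun_prop) measurable_const
  · split_ifs with hx
    · have := hs.trans_lt hx.1
      positivity
    · exact le_rfl
  refine ms1_shell μ hζ _ (fun n => η / 2 ^ n)
    (fun n => if s ≤ η / 2 ^ n then 1 / (η / 2 ^ (n + 1)) ^ a else 0)
    (by positivity) (fun x => ?_) (fun n => ?_)
  · by_cases hx : s < ζ x ∧ ζ x ≤ η
    · have hp := hs.trans_lt hx.1
      obtain ⟨n, h1, h2⟩ := exists_nat_pow_near (x := η / ζ x) (y := 2)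
        (by rw [le_div_iff₀ hp]; linarith [hx.2]) one_lt_two
      have h3 : ζ x ≤ η / 2 ^ n := by
        rw [le_div_iff₀ hp] at h1
        rw [le_div_iff₀ (by positivity)]
        linarith
      have h4 : η / 2 ^ (n + 1) ≤ ζ x := by
        rw [div_lt_iff₀ hp] at h2
        rw [div_le_iff₀ (by positivity)]
        linarith
      refine Or.inr ⟨n, h3, ?_⟩
      rw [if_pos hx, if_pos (hx.1.le.trans h3)]
      exact one_div_le_one_div_of_le (by positivity) (pow_le_pow_left₀ (by positivity) h4 a)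
    · exact Or.inl (by rw [if_neg hx])
  · split_ifs with h1
    · refine (mul_le_mul_right (h _ h1 (by positivity)) _).trans ?_
      rw [← ENNReal.ofReal_mul (by positivity)]
      refine ENNReal.ofReal_le_ofReal ?_
      have h2 := ms1_pow had n
      have h3 : 1 / (η / 2 ^ (n + 1)) ^ a * (Θ * (η / 2 ^ n) ^ d) =
          2 ^ a * Θ * η ^ d / η ^ a * ((2 ^ n) ^ a / (2 ^ n) ^ d) := by
        rw [pow_succ, div_pow, div_pow, mul_pow]
        field_simp
      rw [h3]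
      refine mul_le_mul_of_nonneg_left ?_ (by positivity)
      rw [one_div, inv_pow, div_le_iff₀ (by positivity), le_inv_mul_iff₀ (by positivity), mul_comm]
      exact h2
    · simp

theorem ms1_real {μ : Measure X} [IsFiniteMeasure μ] {S : Set X} {B : ℝ} (h : μ.real S ≤ B) :
    μ S ≤ ENNReal.ofReal B := by
  rw [← ofReal_measureReal (measure_ne_top μ S)]
  exact ENNReal.ofReal_le_ofReal h

theorem dy_tail (b d : ℕ) (hbd : d < b) : ∃ C > 0, ∀ (μ : Measure X) [IsFiniteMeasure μ]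
    (ζ : X → ℝ), Measurable ζ → (∀ x, 0 ≤ ζ x) → ∀ Θ s : ℝ, 0 < s →
    (∀ r, s ≤ r → μ.real {x | ζ x ≤ r} ≤ Θ * r ^ d) →
    ∫ x, 1 / (ζ x + s) ^ b ∂μ ≤ C * Θ * s ^ d / s ^ b := by
  refine ⟨2 * 2 ^ d, by positivity, fun μ _ ζ hζ h0 Θ s hs h => ?_⟩
  have hΘ : 0 ≤ Θ := nonneg_of_mul_nonneg_left (measureReal_nonneg.trans (h s le_rfl)) (by positivity)
  refine (ms1_tail hbd μ hζ h0 hΘ hs fun r hr => ms1_real (h r hr)).2.trans (le_of_eq ?_)
  ring

theorem dy_head : ∃ C > 0, ∀ (μ : Measure X) [IsFiniteMeasure μ] (ζ : X → ℝ), Measurable ζ →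
    (∀ x, 0 ≤ ζ x) → ∀ Θ s η : ℝ, 0 < s → 0 < η → 0 ≤ Θ →
    (∀ r, s ≤ r → μ.real {x | ζ x ≤ r} ≤ Θ * r ^ 2) →
    ∫ x, 1 / (ζ x + s) ∂μ ≤ C * Θ * η + μ.real univ / η := by
  refine ⟨5, by norm_num, fun μ _ ζ hζ h0 Θ s η hs hη hΘ h => ?_⟩
  have hc : ∫ _ : X, 1 / η ∂μ = μ.real univ / η := by
    rw [integral_const, smul_eq_mul, mul_one_div]
  have hn : ∀ x, 0 ≤ 1 / (ζ x + s) := fun x => by have := h0 x; positivity
  by_cases hsη : η ≤ s
  · have : ∫ x, 1 / (ζ x + s) ∂μ ≤ ∫ _ : X, 1 / η ∂μ :=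
      integral_mono_of_nonneg (Eventually.of_forall hn) (integrable_const _)
        (Eventually.of_forall fun x => one_div_le_one_div_of_le hη (by linarith [h0 x]))
    have h2 : 0 ≤ 5 * Θ * η := by positivity
    linarith
  obtain ⟨i1, b1⟩ := ms1_head one_lt_two μ hζ hΘ hs.le hη fun r hr _ => ms1_real (h r hr)
  have hm : MeasurableSet {x | ζ x ≤ s} := measurableSet_le hζ measurable_const
  have i2 : Integrable ({x | ζ x ≤ s}.indicator fun _ => 1 / s) μ :=
    (integrable_const _).indicator hm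
  have b2 : ∫ x, ({x | ζ x ≤ s}.indicator fun _ => 1 / s) x ∂μ ≤ Θ * η := by
    rw [integral_indicator_const _ hm, smul_eq_mul]
    calc _ ≤ Θ * s ^ 2 * (1 / s) := mul_le_mul_of_nonneg_right (h s le_rfl) (by positivity)
      _ = Θ * s := by field_simp
      _ ≤ Θ * η := mul_le_mul_of_nonneg_left (not_le.mp hsη).le hΘ
  have b3 : ∫ x, 1 / (ζ x + s) ∂μ ≤ ∫ x, (((if s < ζ x ∧ ζ x ≤ η then 1 / ζ x ^ 1 else 0) +
      ({x | ζ x ≤ s}.indicator fun _ => 1 / s) x) + 1 / η) ∂μ := by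
    refine integral_mono_of_nonneg (Eventually.of_forall hn)
      ((i1.add i2).add (integrable_const _)) (Eventually.of_forall fun x => ?_)
    have hx := h0 x
    have e1 : 0 ≤ 1 / η := by positivity
    beta_reduce
    by_cases h1 : ζ x ≤ s
    · rw [if_neg (fun hh => absurd hh.1 (not_lt.mpr h1)),
        indicator_of_mem (show x ∈ {x | ζ x ≤ s} from h1)]
      have := one_div_le_one_div_of_le hs (show s ≤ ζ x + s by linarith)
      linarith
    · rw [indicator_of_notMem (show x ∉ {x | ζ x ≤ s} from h1)]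
      by_cases h2 : ζ x ≤ η
      · rw [if_pos ⟨not_le.mp h1, h2⟩, pow_one]
        have := one_div_le_one_div_of_le (hs.trans (not_le.mp h1))
          (show ζ x ≤ ζ x + s by linarith)
        linarith
      · rw [if_neg (fun hh => h2 hh.2)]
        have := one_div_le_one_div_of_le hη (show η ≤ ζ x + s by linarith [not_le.mp h2])
        linarith
  have i3 : Integrable (fun x => (if s < ζ x ∧ ζ x ≤ η then 1 / ζ x ^ 1 else 0) +
      ({x | ζ x ≤ s}.indicator fun _ => 1 / s) x) μ := i1.add i2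
  rw [integral_add i3 (integrable_const _), integral_add i1 i2, hc] at b3
  have e : 2 * (2 ^ 1 * Θ * η ^ 2 / η ^ 1) = 4 * Θ * η := by field_simp; ring
  linarith

theorem dy_zero (μ : Measure X) [IsFiniteMeasure μ] (ζ : X → ℝ) (hζ : Measurable ζ)
    (h0 : ∀ x, 0 ≤ ζ x) {Θ : ℝ} (h : ∀ r, 0 < r → μ.real {x | ζ x ≤ r} ≤ Θ * r ^ 2) :
    Integrable (fun x => 1 / ζ x) μ ∧ ∀ᵐ x ∂μ, ζ x ≠ 0 := by
  have hΘ : 0 ≤ Θ := by simpa using measureReal_nonneg.trans (h 1 one_pos)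
  obtain ⟨i1, -⟩ := ms1_head one_lt_two μ hζ hΘ le_rfl one_pos fun r _ hr => ms1_real (h r hr)
  constructor
  · refine (i1.add (integrable_const 1)).mono' (by fun_prop : Measurable _).aestronglyMeasurable
      (Eventually.of_forall fun x => ?_)
    have hx := h0 x
    rw [Real.norm_of_nonneg (by positivity)]
    show _ ≤ (if 0 < ζ x ∧ ζ x ≤ 1 then 1 / ζ x ^ 1 else 0) + 1
    split_ifs with h1
    · rw [pow_one]; linarith
    · rcases hx.eq_or_lt with h2 | h2
      · rw [← h2]; simp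
      · rw [zero_add, div_le_one h2]
        exact le_of_not_ge fun h3 => h1 ⟨h2, h3⟩
  · have hz : μ.real {x | ζ x ≤ 0} ≤ 0 := by
      have ht : Tendsto (fun r : ℝ => Θ * r ^ 2) (𝓝[>] 0) (𝓝 (Θ * 0 ^ 2)) :=
        ((by fun_prop : Continuous fun r : ℝ => Θ * r ^ 2).tendsto 0).mono_left nhdsWithin_le_nhds
      rw [show Θ * (0 : ℝ) ^ 2 = 0 by simp] at ht
      refine ge_of_tendsto ht (eventually_nhdsWithin_of_forall fun r hr => ?_)
      exact (measureReal_mono fun x (hx : ζ x ≤ 0) => hx.trans (le_of_lt hr)).trans (h r hr)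
    have hz' := ms1_real hz
    rw [ENNReal.ofReal_zero, nonpos_iff_eq_zero] at hz'
    rw [ae_iff]
    exact measure_mono_null (fun x hx => le_of_eq (not_not.mp hx)) hz'

theorem kernel_integrable (μ : Measure X) [IsFiniteMeasure μ] (ζ : X → ℝ) (hζ : Measurable ζ)
    (h0 : ∀ x, 0 ≤ ζ x) {s : ℝ} (hs : 0 < s) (b : ℕ) :
    Integrable (fun x => 1 / (ζ x + s) ^ b) μ := by
  refine (integrable_const (1 / s ^ b)).mono' (by fun_prop : Measurable _).aestronglyMeasurable
    (Eventually.of_forall fun x => ?_)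
  have hx := h0 x
  rw [Real.norm_of_nonneg (by positivity)]
  exact one_div_le_one_div_of_le (by positivity) (pow_le_pow_left₀ hs.le (by linarith) b)

theorem vol_closedBall (x : E) {r : ℝ} (hr : 0 ≤ r) :
    (volume : Measure E).real (closedBall x r) = (volume : Measure E).real (closedBall 0 1) * r ^ 4 := by
  rw [Measure.addHaar_real_closedBall' _ x hr, finrank_euclideanSpace_fin, mul_comm]

theorem vol_closedBall_pos : 0 < (volume : Measure E).real (closedBall 0 1) :=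
  ENNReal.toReal_pos (measure_closedBall_pos _ _ one_pos).ne' measure_closedBall_lt_top.ne

theorem ms1_vol (x : E) {r : ℝ} (hr : 0 ≤ r) : (volume : Measure E) {y | ‖y - x‖ ≤ r} ≤
    ENNReal.ofReal ((volume : Measure E).real (closedBall 0 1) * r ^ 4) := by
  have : {y : E | ‖y - x‖ ≤ r} = closedBall x r := by
    ext y; simp [dist_eq_norm]
  rw [this, ← vol_closedBall x hr, ofReal_measureReal measure_closedBall_lt_top.ne]

theorem ms1_vol0 (x : E) :
    Integrable (fun y : E => if 0 < ‖y - x‖ ∧ ‖y - x‖ ≤ 8 then 1 / ‖y - x‖ ^ 2 else 0) ∧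
      ∫ y : E, (if 0 < ‖y - x‖ ∧ ‖y - x‖ ≤ 8 then 1 / ‖y - x‖ ^ 2 else 0) ≤
        2 * (2 ^ 2 * (volume : Measure E).real (closedBall 0 1) * 8 ^ 4 / 8 ^ 2) :=
  ms1_head (by norm_num) volume (ζ := fun y => ‖y - x‖) (by fun_prop) vol_closedBall_pos.le le_rfl
    (by norm_num) fun _ hr _ => ms1_vol x hr

theorem vol_kernel5 : ∃ C > 0, ∀ (x : E) (s : ℝ), 0 < s →
    Integrable (fun y : E => 1 / (‖y - x‖ + s) ^ 5) ∧ ∫ y : E, 1 / (‖y - x‖ + s) ^ 5 ≤ C / s := by
  have hv := vol_closedBall_pos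
  refine ⟨2 * (2 ^ 4 * (volume : Measure E).real (closedBall 0 1)), by positivity, fun x s hs => ?_⟩
  obtain ⟨h1, h2⟩ := ms1_tail (b := 5) (d := 4) (by norm_num) volume (ζ := fun y => ‖y - x‖)
    (by fun_prop) (fun y => norm_nonneg _) hv.le hs fun _ hr => ms1_vol x (hs.le.trans hr)
  refine ⟨h1, h2.trans (le_of_eq ?_)⟩
  field_simp

theorem vol_kernel2 : ∃ C > 0, ∀ (x : E) (s : ℝ), 0 < s →
    ∫ y in closedBall x 8, 1 / (‖y - x‖ + s) ^ 2 ≤ C := by
  have hv := vol_closedBall_pos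
  refine ⟨2 * (2 ^ 2 * (volume : Measure E).real (closedBall 0 1) * 8 ^ 4 / 8 ^ 2), by positivity,
    fun x s hs => ?_⟩
  obtain ⟨h1, h2⟩ := ms1_vol0 x
  refine le_trans ?_ ((setIntegral_le_integral (s := closedBall x 8) h1
    (Eventually.of_forall fun y => ?_)).trans h2)
  · refine integral_mono_of_nonneg (Eventually.of_forall fun y => by positivity) h1.integrableOn ?_
    have ha : ∀ᵐ y ∂(volume : Measure E), y ≠ x := by simp [ae_iff]
    filter_upwards [ae_restrict_of_ae ha, ae_restrict_mem measurableSet_closedBall] with y hy hb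
    have hp : 0 < ‖y - x‖ := norm_pos_iff.mpr (sub_ne_zero.mpr hy)
    rw [if_pos ⟨hp, by simpa [dist_eq_norm] using hb⟩]
    exact one_div_le_one_div_of_le (by positivity) (pow_le_pow_left₀ hp.le (by linarith) 2)
  · show 0 ≤ (if 0 < ‖y - x‖ ∧ ‖y - x‖ ≤ 8 then 1 / ‖y - x‖ ^ 2 else 0)
    split_ifs <;> positivity

theorem vol_kernel0 (x : E) : IntegrableOn (fun y : E => 1 / ‖y - x‖ ^ 2) (closedBall x 8) := by
  refine (ms1_vol0 x).1.integrableOn.congr_fun (fun y hy => ?_) measurableSet_closedBall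
  show (if 0 < ‖y - x‖ ∧ ‖y - x‖ ≤ 8 then 1 / ‖y - x‖ ^ 2 else 0) = 1 / ‖y - x‖ ^ 2
  split_ifs with h
  · rfl
  · have : ‖y - x‖ = 0 := by
      by_contra h1
      exact h ⟨(norm_nonneg _).lt_of_ne' h1, by simpa [dist_eq_norm] using hy⟩
    rw [this]; simp


end

end Vale.Agent.P204
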