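import Vale.Agent.P204.At5
import Vale.Agent.P204.Ms1

/-!
P204 At6: pointwise values of a form through localised test forms; majorant norms.
Plan: `loc_limit`: `pair_ext` and `moll_tendsto`. `dualInf`: test with
`ext j (ρ n (· - p) • χ • hs (η j))` (resp. `Ap` of it), `L1_ext`, `L2_Am_le`; in the limit
`‖η j p‖² ≤ C M ‖η j p‖`. `maj_ext`: `lip` and `cmp` with radii `(3, 5/2)`; majorant in chart `i`:
`indicator (ov i l 2 3) (C * f ∘ τ)` (measurable: `ContinuousOn.measurable_piecewise`-type lemma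
or `Measurable` of `Set.piecewise` with a continuous restriction), `cov_le`. If no point of
`closedBall q _` has nonzero value the jets vanish (`ext_ne_zero`, `haus`,
`SJB_of_eventually_zero`). `Maj_apriori`: `M ≤ f j p` for `p ∈ closedBall q t`, integrate
(`vol_closedBall`). `Maj_lim`: majorant `‖σ j p‖ + C t` (mean value `jb_mean`).
-/

namespace Vale.Agent.P204

open scoped ContDiff Topology
open Metric MeasureTheory Set Filter

noncomputable section

namespace Atlas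

variable {𝒜 : Atlas}

theorem loc_limit (η : 𝒜.Form) (j : Fin 𝒜.n) {p : E} (hp : p ∈ closedBall (0 : E) 3)
    {ρ : ℕ → E → ℝ} {δ : ℕ → ℝ} (hρ : ∀ n, Supp (δ n) (ρ n) ∧ (∀ q, 0 ≤ ρ n q) ∧ ∫ q, ρ n q = 1)
    (hδ : Tendsto δ atTop (𝓝 0)) (hδ' : ∀ n, δ n ≤ 1 / 2) {b : Bil} (hb : IsAlt b) :
    (∀ n, IsLoc (7 / 2) (fun q => ρ n (q - p) • b)) ∧
    Tendsto (fun n => 𝒜.pair η (𝒜.ext j (fun q => ρ n (q - p) • b))) atTop
      (𝓝 (WL (η.1 j p) b)) := by
  have h1 : ∀ n, IsLoc (7 / 2) (fun q => ρ n (q - p) • b) := fun n => by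
    refine ⟨⟨((hρ n).1.1.comp (contDiff_id.sub contDiff_const)).smul contDiff_const,
      fun q hq => ?_⟩, fun q => hb.smul _⟩
    have : q - p ∉ closedBall (0 : E) (δ n) := fun h => hq (by
      rw [mem_closedBall_zero_iff] at h hp ⊢
      have := norm_add_le (q - p) p
      rw [sub_add_cancel] at this
      linarith [hδ' n])
    show ρ n (q - p) • b = 0
    rw [(hρ n).1.2 _ this, zero_smul]
  refine ⟨h1, ?_⟩
  have h2 := moll_tendsto hρ hδ (f := fun q => WL (η.1 j q) b) (x := p) isOpen_ball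
    (cb_sub (by norm_num) hp)
    ((WL.continuous.comp_continuousOn (Form.smooth η j).continuousOn).clm_apply continuousOn_const)
  refine h2.congr fun n => ?_
  rw [pair_ext j (by norm_num) (h1 n)]
  simp only [map_smul, smul_eq_mul]

theorem dual6 : ∃ C ≥ 1, ∀ (η : 𝒜.Form) (M : ℝ), 0 ≤ M →
    (∀ β, |𝒜.pair η β| ≤ M * L1 β) → Cn 0 η (C * M) := by
  obtain ⟨C, hC, hL⟩ := 𝒜.L1_ext (r := 7 / 2) (by norm_num)
  refine ⟨288 * C, by linarith, fun η M hM hη j p hp => ?_⟩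
  have hδ : Tendsto (fun n : ℕ => (1 / 2 : ℝ) * (1 / ((n : ℝ) + 1))) atTop (𝓝 0) := by
    simpa only [mul_zero] using (tendsto_one_div_add_atTop_nhds_zero_nat (𝕜 := ℝ)).const_mul (1 / 2)
  choose ρ hρ using fun n : ℕ => exists_moll ((1 / 2 : ℝ) * (1 / ((n : ℝ) + 1))) (by positivity)
  obtain ⟨h1, h2⟩ := loc_limit η j (closedBall_subset_closedBall (by norm_num) hp) hρ hδ
    (fun n => by
      have : 1 / ((n : ℝ) + 1) ≤ 1 := by
        rw [div_le_one (by positivity)]; linarith [Nat.cast_nonneg (α := ℝ) n]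
      linarith) (hs_alt (η.1 j p))
  have h3 : WL (η.1 j p) (hs (η.1 j p)) ≤ M * (C * (12 * ‖η.1 j p‖)) := by
    refine le_of_tendsto' h2 fun n => (le_abs_self _).trans ((hη _).trans ?_)
    refine mul_le_mul_of_nonneg_left ((hL j _ (h1 n)).trans ?_) hM
    refine mul_le_mul_of_nonneg_left ?_ (by linarith)
    have e1 : ∫ q, ‖ρ n (q - p) • hs (η.1 j p)‖ = ‖hs (η.1 j p)‖ := by
      simp only [norm_smul, Real.norm_eq_abs, abs_of_nonneg ((hρ n).2.1 _)]
      rw [integral_mul_const, integral_sub_right_eq_self (ρ n) p, (hρ n).2.2, one_mul]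
    rw [e1]
    exact norm_hs_le _
  have h4 := norm_sq_le_WL_hs (Form.alt η j p)
  rw [JB_iff_SJB, SJB_zero_iff]
  rcases (norm_nonneg (η.1 j p)).eq_or_lt with h0 | h0
  · rw [← h0]; positivity
  · refine le_of_mul_le_mul_right ?_ h0
    nlinarith

theorem dualInf : ∃ C ≥ 1, ∀ (η : 𝒜.Form) (M : ℝ), 0 ≤ M →
    ((∀ β, |𝒜.pair η β| ≤ M * L1 β) → Cn 0 η (C * M)) ∧
    ((∀ β, 𝒜.Am β = 0 → |𝒜.pair η β| ≤ M * L1 β) → Cn 0 (𝒜.Ap η) (C * M)) := by
  obtain ⟨C, hC, h⟩ := dual6 (𝒜 := 𝒜)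
  obtain ⟨C', hC', h'⟩ := L2_Am_le (𝒜 := 𝒜)
  refine ⟨C * C', by nlinarith, fun η M hM => ⟨fun hη => ?_, fun hη => ?_⟩⟩
  · refine (h η M hM hη).mono le_rfl (mul_le_mul_of_nonneg_right ?_ hM)
    nlinarith
  · rw [mul_assoc]
    refine h _ _ (by positivity) fun β => ?_
    have e1 : 𝒜.pair (𝒜.Ap η) β = 𝒜.pair η (𝒜.Ap β) := by
      have a1 : 𝒜.pair (𝒜.Ap η) (𝒜.Am β) = 0 := by rw [pair_symm, pair_Am_Ap]
      have a2 := pair_Am_Ap η β
      conv_lhs => rw [← Ap_add_Am β]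
      conv_rhs => rw [← Ap_add_Am η]
      simp only [map_add, LinearMap.add_apply, a1, a2, add_zero]
    rw [e1]
    refine (hη _ (Am_Ap β)).trans ?_
    have := mul_le_mul_of_nonneg_left (h' β).2.2.2 hM
    linarith

theorem mem3_At6 {p q : E} {t : ℝ} (hp : p ∈ closedBall (0 : E) 2) (hq : q ∈ closedBall p t) :
    ‖q‖ ≤ 2 + t := by
  rw [mem_closedBall_zero_iff] at hp
  rw [mem_closedBall, dist_eq_norm] at hq
  have := norm_add_le (q - p) p
  rw [sub_add_cancel] at this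
  linarith

theorem maj_ext (k : ℕ) : ∃ C₀ ≥ 1, ∃ C ≥ 1, ∃ t₀ > 0, ∀ t ∈ Ioc (0 : ℝ) t₀, ∀ l (s : E → Bil) c,
    IsLoc (5 / 2) s → LMaj s k t C₀ c → Maj (𝒜.ext l s) k t (C * c) := by
  classical
  obtain ⟨δ, hδ, L, hL, hlip⟩ := 𝒜.lip (r := 3) (r' := 5 / 2) (by norm_num) (by norm_num)
  obtain ⟨C₁, hC₁, hcmp⟩ := 𝒜.cmp k (r := 3) (r' := 5 / 2) (by norm_num) (by norm_num)
  obtain ⟨C₂, hC₂, hcov⟩ := 𝒜.cov_le (r := 2) (r' := 3) (by norm_num) (by norm_num)
  have hn : (1 : ℝ) ≤ 𝒜.n := by exact_mod_cast 𝒜.npos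
  have hn2 : (1 : ℝ) ≤ 𝒜.n * C₂ := by nlinarith
  refine ⟨L, hL, 𝒜.n * C₂ * C₁, by nlinarith, min δ (1 / (2 * L)), by positivity, ?_⟩
  rintro t ⟨ht, ht'⟩ l s c hs ⟨f, hf, hf0, hfi, hfc, hfs⟩
  have htδ : t ≤ δ := ht'.trans (min_le_left _ _)
  have htL : L * t ≤ 1 / 2 := by
    have := ht'.trans (min_le_right _ _)
    rw [le_div_iff₀ (by positivity)] at this
    linarith
  have ht2 : t ≤ 1 / 2 := by nlinarith
  have hK : ∀ i, MeasurableSet (𝒜.ov i l 2 3) := fun i =>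
    (𝒜.ov_compact i l (by norm_num) (by norm_num)).measurableSet
  have hm : ∀ i, Measurable ((𝒜.ov i l 2 3).piecewise (𝒜.τ i l) (fun _ => 0)) := fun i =>
    ContinuousOn.measurable_piecewise ((𝒜.τ_smooth i l).continuousOn.mono fun p hp => hp.2.1)
      continuousOn_const (hK i)
  have he : ∀ i, (𝒜.ov i l 2 3).indicator (fun p => C₁ * f (𝒜.τ i l p)) =
      (𝒜.ov i l 2 3).indicator
        (fun p => C₁ * f ((𝒜.ov i l 2 3).piecewise (𝒜.τ i l) (fun _ => 0) p)) := fun i =>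
    indicator_congr fun p hp => by simp only [piecewise_eq_of_mem _ _ _ hp]
  have h0 : ∀ i p, 0 ≤ (𝒜.ov i l 2 3).indicator (fun p => C₁ * f (𝒜.τ i l p)) p := fun i p =>
    indicator_nonneg (fun q _ => mul_nonneg (by linarith) (hf0 _)) p
  have hsq : ∀ i, (fun p => (𝒜.ov i l 2 3).indicator (fun p => C₁ * f (𝒜.τ i l p)) p ^ 2) =
      (𝒜.ov i l 2 3).indicator (fun p => C₁ ^ 2 * f (𝒜.τ i l p) ^ 2) := fun i => by
    funext p
    by_cases hp : p ∈ 𝒜.ov i l 2 3
    · simp only [indicator_of_mem hp, mul_pow]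
    · simp only [indicator_of_notMem hp]; norm_num
  have hc := fun i => hcov i l (fun q => f q ^ 2) (fun q => sq_nonneg _) hfi.integrableOn
  have hi : ∀ i, Integrable
      (fun p => (𝒜.ov i l 2 3).indicator (fun p => C₁ * f (𝒜.τ i l p)) p ^ 2) := fun i => by
    rw [hsq, integrable_indicator_iff (hK i)]
    exact (hc i).1.const_mul _
  refine ⟨fun i => (𝒜.ov i l 2 3).indicator (fun p => C₁ * f (𝒜.τ i l p)), fun i => ?_, h0,
    fun i => (hi i).integrableOn, ?_, fun i p hp q hq => ?_⟩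
  · simp only [he i]
    exact ((hf.comp (hm i)).const_mul C₁).indicator (hK i)
  · refine (Finset.sum_le_card_nsmul _ _ (C₁ ^ 2 * (C₂ * c ^ 2)) fun i _ => ?_).trans ?_
    · refine (setIntegral_le_integral (hi i) (Eventually.of_forall fun p => sq_nonneg _)).trans ?_
      rw [hsq, integral_indicator (hK i), integral_const_mul]
      refine mul_le_mul_of_nonneg_left ((hc i).2.trans ?_) (sq_nonneg _)
      refine mul_le_mul_of_nonneg_left (le_trans ?_ hfc) (by linarith)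
      exact setIntegral_le_integral hfi (Eventually.of_forall fun p => sq_nonneg _)
    · simp only [Finset.card_univ, Fintype.card_fin, nsmul_eq_mul]
      have a1 : 0 ≤ (𝒜.n * C₂) * (C₁ * c) ^ 2 := by positivity
      nlinarith [mul_le_mul_of_nonneg_right hn2 a1]
  · have hq3 := mem3_At6 hp hq
    by_cases hqo : q ∈ 𝒜.ov i l 3 (5 / 2)
    · have hd : dist p q ≤ t := by rw [dist_comm]; exact hq
      obtain ⟨a1, a2⟩ := hlip i l q hqo p (hd.trans htδ)
      have a3 : dist (𝒜.τ i l p) (𝒜.τ i l q) ≤ L * t :=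
        a2.trans (mul_le_mul_of_nonneg_left hd (by linarith))
      have hpo : p ∈ 𝒜.ov i l 2 3 := by
        refine ⟨hp, a1, ?_⟩
        have a4 := hqo.2.2
        rw [mem_closedBall] at a4 ⊢
        linarith [dist_triangle (𝒜.τ i l p) (𝒜.τ i l q) 0]
      simp only [indicator_of_mem hpo]
      refine hcmp _ i l q hqo t _ ht (by linarith) ?_
      rw [ext_self l (by norm_num) hs]
      exact hfs _ _ (by rw [mem_closedBall, dist_comm]; exact a3)
    · refine (SJB_of_eventually_zero ?_).mono le_rfl (h0 i p)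
      have a1 : (𝒜.ov i l 3 (5 / 2))ᶜ ∈ 𝓝 q :=
        (𝒜.haus i l 3 (5 / 2) (by norm_num) (by norm_num)).isOpen_compl.mem_nhds hqo
      have a2 : ball (0 : E) 3 ∈ 𝓝 q :=
        isOpen_ball.mem_nhds (by rw [mem_ball_zero_iff]; linarith)
      filter_upwards [a1, a2] with x hx hx'
      by_contra hne
      obtain ⟨b1, b2⟩ := ext_ne_zero l i (by norm_num) hs hne
      exact hx ⟨ball_subset_closedBall hx', b1, by_contra fun h => b2 (hs.1.2 _ h)⟩

theorem Maj_apriori (k : ℕ) : ∃ C ≥ 1, ∀ t ∈ Ioc (0 : ℝ) 1, ∀ (σ : 𝒜.Form) c, 0 ≤ c →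
    Maj σ k t c → ∀ K ≤ k, Cn K σ (C * c / t ^ (K + 2)) := by
  have hv := vol_closedBall_pos
  set v := (volume : Measure E).real (closedBall 0 1) with hvdef
  have hv1 : 0 < 1 / v := by positivity
  refine ⟨1 + 1 / v, by linarith, ?_⟩
  rintro t ⟨ht, ht1⟩ σ c hc ⟨f, -, hf0, hfi, hfc, hfs⟩ K hK j q hq
  have hsub : closedBall q t ⊆ closedBall (0 : E) 2 := by
    refine closedBall_subset_closedBall' ?_
    rw [mem_closedBall] at hq
    linarith
  have key : SJB (σ.1 j) K t q ((1 + 1 / v) * c / t ^ 2) := fun i hi => by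
    set a := t ^ i * ‖iteratedFDeriv ℝ i (σ.1 j) q‖ with ha
    have ha0 : 0 ≤ a := by positivity
    have h1 : ∫ _p in closedBall q t, a ^ 2 ≤ ∫ p in closedBall q t, f j p ^ 2 :=
      setIntegral_mono_on (continuousOn_const.integrableOn_compact (isCompact_closedBall _ _))
        ((hfi j).mono_set hsub) measurableSet_closedBall fun p hp =>
          pow_le_pow_left₀ ha0 (hfs j p (hsub hp) q (mem_closedBall_comm.1 hp) i (hi.trans hK)) 2
    have h2 : ∫ p in closedBall q t, f j p ^ 2 ≤ ∫ p in closedBall (0 : E) 2, f j p ^ 2 :=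
      setIntegral_mono_set (hfi j) (Eventually.of_forall fun p => sq_nonneg _) hsub.eventuallyLE
    have h3 : ∫ p in closedBall (0 : E) 2, f j p ^ 2 ≤
        ∑ j, ∫ p in closedBall (0 : E) 2, f j p ^ 2 :=
      Finset.single_le_sum (f := fun j => ∫ p in closedBall (0 : E) 2, f j p ^ 2)
        (fun i _ => integral_nonneg fun p => sq_nonneg _) (Finset.mem_univ j)
    rw [setIntegral_const, smul_eq_mul, vol_closedBall q ht.le, ← hvdef] at h1
    rw [le_div_iff₀ (by positivity)]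
    refine le_of_sq5 (by positivity) ?_
    have h4 : v * (a * t ^ 2) ^ 2 ≤ c ^ 2 := by nlinarith
    have h5 : (a * t ^ 2) ^ 2 ≤ 1 / v * c ^ 2 := by
      rw [div_mul_eq_mul_div, le_div_iff₀ hv]; linarith
    have h6 : 1 / v ≤ (1 + 1 / v) ^ 2 := by nlinarith
    rw [mul_pow (1 + 1 / v)]
    exact h5.trans (mul_le_mul_of_nonneg_right h6 (sq_nonneg _))
  have := key.jb ht ht1
  rwa [div_div, ← pow_add, add_comm 2 K] at this

theorem Maj_of_Cn (k : ℕ) : ∃ C ≥ 1, ∀ t ∈ Ioc (0 : ℝ) 1, ∀ (σ : 𝒜.Form) M, Cn k σ M →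
    Maj σ k t (C * M) := by
  obtain ⟨C, hC, h⟩ := 𝒜.Cn_jb k (r := 3) (by norm_num)
  set v := (𝒜.n : ℝ) * (volume : Measure E).real (closedBall 0 2) with hv
  have hv0 : 0 ≤ v := by positivity
  refine ⟨(1 + v) * C, by nlinarith, ?_⟩
  rintro t ⟨ht, ht1⟩ σ M hσ
  have hM := hσ.nonneg
  refine ⟨fun _ _ => C * M, fun _ => measurable_const, fun _ _ => by positivity, fun _ =>
    continuousOn_const.integrableOn_compact (isCompact_closedBall _ _), ?_, fun j p hp q hq => ?_⟩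
  · simp only [setIntegral_const, smul_eq_mul, Finset.sum_const, Finset.card_univ,
      Fintype.card_fin, nsmul_eq_mul]
    rw [← mul_assoc, ← hv, mul_assoc (1 + v), mul_pow (1 + v)]
    exact mul_le_mul_of_nonneg_right (by nlinarith) (sq_nonneg _)
  · have := mem3_At6 hp hq
    exact ((JB_iff_SJB _ _ _ _).1 (h σ M hσ j q
      (by rw [mem_closedBall_zero_iff]; linarith))).scale ht.le ht1

theorem L2_le_Maj {σ : 𝒜.Form} {k : ℕ} {t c : ℝ} (ht : 0 ≤ t) (hc : 0 ≤ c) (h : Maj σ k t c) :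
    L2 σ ≤ c := by
  obtain ⟨f, -, hf0, hfi, hfc, hfs⟩ := h
  have hsub : closedBall (0 : E) 1 ⊆ closedBall 0 2 := closedBall_subset_closedBall (by norm_num)
  refine le_of_sq5 hc (le_trans ?_ hfc)
  rw [L2_sq]
  refine Finset.sum_le_sum fun j _ => le_trans ?_ (setIntegral_mono_set (hfi j)
    (Eventually.of_forall fun p => sq_nonneg _) hsub.eventuallyLE)
  refine setIntegral_mono_on (int5 j (contN5 σ j)) ((hfi j).mono_set hsub)
    measurableSet_closedBall fun p hp => ?_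
  have h1 := pow_le_pow_left₀ (norm_nonneg _)
    (hfs j p (hsub hp) p (mem_closedBall_self ht)).norm_le 2
  exact (mul_le_of_le_one_left (sq_nonneg _) (𝒜.chi_le j p)).trans h1

theorem Maj_lim (k : ℕ) : ∃ C ≥ 1, ∀ (σ : 𝒜.Form) (ε : ℝ), 0 < ε → ∃ t₀ > 0,
    ∀ t ∈ Ioc (0 : ℝ) t₀, Maj σ k t (C * L2 σ + ε) := by
  classical
  obtain ⟨C₁, hC₁, h₁⟩ := 𝒜.Cn_jb (k + 1) (r := 3) (by norm_num)
  obtain ⟨C₂, hC₂, h₂⟩ := 𝒜.L2_ge (r := 2) (by norm_num)
  have hn : (1 : ℝ) ≤ 𝒜.n := by exact_mod_cast 𝒜.npos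
  have hn2 : (1 : ℝ) ≤ 𝒜.n * (2 * C₂) := by nlinarith
  refine ⟨𝒜.n * (2 * C₂), hn2, fun σ ε hε => ?_⟩
  obtain ⟨M, hM⟩ := exists_Cn (k + 1) σ
  have hA := h₁ σ M hM
  have hA0 : 0 ≤ C₁ * M := mul_nonneg (by linarith) hM.nonneg
  set A := C₁ * M with hAdef
  set v := (volume : Measure E).real (closedBall 0 2) with hv
  have hv0 : 0 ≤ v := by positivity
  have hB0 : 0 ≤ 𝒜.n * (v * (2 * A ^ 2)) := by positivity
  refine ⟨min 1 (ε ^ 2 / (𝒜.n * (v * (2 * A ^ 2)) + 1)), by positivity, ?_⟩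
  rintro t ⟨ht, ht'⟩
  have ht1 : t ≤ 1 := ht'.trans (min_le_left _ _)
  have ht2 := ht'.trans (min_le_right _ _)
  rw [le_div_iff₀ (by positivity)] at ht2
  have hcn : ∀ j, ContinuousOn (fun p => ‖σ.1 j p‖) (closedBall (0 : E) 2) := fun j =>
    ((Form.smooth σ j).continuousOn.mono (cb_sub (by norm_num))).norm
  have he : ∀ j, EqOn (fun p => ((closedBall (0 : E) 2).piecewise (fun p => ‖σ.1 j p‖)
      (fun _ => 0) p + A * t) ^ 2) (fun p => (‖σ.1 j p‖ + A * t) ^ 2) (closedBall 0 2) :=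
    fun j p hp => by simp only [piecewise_eq_of_mem _ _ _ hp]
  have hi : ∀ j, IntegrableOn (fun p => (‖σ.1 j p‖ + A * t) ^ 2) (closedBall (0 : E) 2) :=
    fun j => (((hcn j).add continuousOn_const).pow 2).integrableOn_compact
      (isCompact_closedBall _ _)
  refine ⟨fun j p => (closedBall (0 : E) 2).piecewise (fun p => ‖σ.1 j p‖) (fun _ => 0) p + A * t,
    fun j => (ContinuousOn.measurable_piecewise (hcn j) continuousOn_const
      measurableSet_closedBall).add_const _, fun j p => ?_,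
    fun j => (hi j).congr_fun (he j).symm measurableSet_closedBall, ?_, fun j p hp q hq => ?_⟩
  · refine add_nonneg ?_ (by positivity)
    by_cases hp : p ∈ closedBall (0 : E) 2
    · simp only [piecewise_eq_of_mem _ _ _ hp, norm_nonneg]
    · simp only [piecewise_eq_of_notMem _ _ _ hp, le_refl]
  · refine (Finset.sum_le_card_nsmul _ _
      (2 * (C₂ * L2 σ ^ 2) + v * (2 * (A * t) ^ 2)) fun j _ => ?_).trans ?_
    · rw [setIntegral_congr_fun measurableSet_closedBall (he j)]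
      have i1 : IntegrableOn (fun p => 2 * ‖σ.1 j p‖ ^ 2) (closedBall (0 : E) 2) :=
        (continuousOn_const.mul ((hcn j).pow 2)).integrableOn_compact (isCompact_closedBall _ _)
      have i2 : IntegrableOn (fun _ : E => 2 * (A * t) ^ 2) (closedBall (0 : E) 2) :=
        continuousOn_const.integrableOn_compact (isCompact_closedBall _ _)
      refine (setIntegral_mono_on (hi j) (i1.add i2) measurableSet_closedBall
        fun p _ => ?_).trans ?_
      · show _ ≤ 2 * ‖σ.1 j p‖ ^ 2 + 2 * (A * t) ^ 2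
        nlinarith [sq_nonneg (‖σ.1 j p‖ - A * t)]
      · show ∫ p in closedBall (0 : E) 2, (2 * ‖σ.1 j p‖ ^ 2 + 2 * (A * t) ^ 2) ≤ _
        rw [integral_add i1 i2, integral_const_mul, setIntegral_const, smul_eq_mul]
        linarith [h₂ σ j]
    · simp only [Finset.card_univ, Fintype.card_fin, nsmul_eq_mul]
      have hL := L2_nonneg σ
      have a1 : 𝒜.n * (v * (2 * A ^ 2)) * t ^ 2 ≤ 𝒜.n * (v * (2 * A ^ 2)) * t :=
        mul_le_mul_of_nonneg_left (by nlinarith) hB0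
      have a2 : 𝒜.n * (2 * C₂) * L2 σ ^ 2 ≤ (𝒜.n * (2 * C₂)) ^ 2 * L2 σ ^ 2 :=
        mul_le_mul_of_nonneg_right (by nlinarith) (sq_nonneg _)
      have a3 : 0 ≤ 𝒜.n * (2 * C₂) * L2 σ * ε := by positivity
      nlinarith
  · simp only [piecewise_eq_of_mem _ _ _ hp]
    have hb : ∀ x ∈ closedBall p t, x ∈ closedBall (0 : E) 3 := fun x hx => by
      have := mem3_At6 hp hx
      rw [mem_closedBall_zero_iff]; linarith
    intro i hi
    rcases Nat.eq_zero_or_pos i with rfl | hi0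
    · have a1 := jb_mean (k := k) (fun x hx => Form.contDiffAt σ j (cb_sub (by norm_num) (hb x hx)))
        (fun x hx => hA j x (hb x hx)) hq 0 (Nat.zero_le _)
      have a2 := norm_le_insert' (iteratedFDeriv ℝ 0 (σ.1 j) q) (iteratedFDeriv ℝ 0 (σ.1 j) p)
      rw [norm_iteratedFDeriv_zero (x := p)] at a2
      have a3 : A * ‖q - p‖ ≤ A * t :=
        mul_le_mul_of_nonneg_left (by rwa [mem_closedBall, dist_eq_norm] at hq) hA0
      rw [pow_zero, one_mul]
      linarith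
    · have a1 := hA j q (hb q hq) i (hi.trans (Nat.le_succ _))
      have a2 : t ^ i ≤ t := pow_le_of_le_one ht.le ht1 hi0.ne'
      have a3 := mul_le_mul a2 a1 (norm_nonneg _) ht.le
      linarith [norm_nonneg (σ.1 j p)]

end Atlas

end

end Vale.Agent.P204
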