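import Vale.Agent.P204.Ru1

/-!
P204 Bt1: powers of `Q t = 1 - Am ∘ R t` gain powers of `t`.
Plan: for anti `σ`, `Q σ = - Am (R σ - σ)`; `sjb_Am` (radius 3, `t = 1`, `JB_iff_SJB`) with the fields
`jet` and `small` give the one-step estimates (orders `≤ k`, take the maximum of the constants or
use that the statement for each order is needed only for finitely many orders). Induction on `n`:
`Q^(n+1) σ = Q (Q^n σ)`; if `l = 0` use the bounded step, else the gaining step and the induction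
hypothesis with `(i+1, l-1)`; points of `closedBall p (C₁ t)` satisfy the hypothesis
`‖q‖ + C_n t ≤ 3`. `Q_cn` from `Q_jets` and `Cn_jb`. `telescope`: `Finset.sum_range_succ`.
-/

namespace Vale.Agent.P204

open scoped ContDiff Topology
open Metric MeasureTheory Set Filter

noncomputable section

namespace Atlas

variable {𝒜 : Atlas}

/-- `1 - Am ∘ R t` -/
def Reg.Q (ℛ : 𝒜.Reg) (t : ℝ) : Module.End ℝ 𝒜.Form := 1 - 𝒜.Am ∘ₗ ℛ.R t

theorem Q_apply_Bt1 (ℛ : 𝒜.Reg) (t : ℝ) (σ : 𝒜.Form) : ℛ.Q t σ = σ - 𝒜.Am (ℛ.R t σ) := rfl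

theorem Q_succ_Bt1 (ℛ : 𝒜.Reg) (t : ℝ) (n : ℕ) (σ : 𝒜.Form) :
    (ℛ.Q t ^ (n + 1)) σ = ℛ.Q t ((ℛ.Q t ^ n) σ) := by
  rw [pow_succ', Module.End.mul_apply]

theorem Reg.Q_anti (ℛ : 𝒜.Reg) (t : ℝ) (n : ℕ) {σ : 𝒜.Form} (h : Anti σ) :
    Anti ((ℛ.Q t ^ n) σ) := by
  induction n with
  | zero => exact h
  | succ n ih =>
    unfold Anti at ih ⊢
    rw [Q_succ_Bt1, Q_apply_Bt1, map_sub, ih, Am_Am]

theorem Reg.telescope (ℛ : 𝒜.Reg) (t : ℝ) (n : ℕ) (σ : 𝒜.Form) :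
    σ = (ℛ.Q t ^ n) σ + ∑ l ∈ Finset.range n, 𝒜.Am (ℛ.R t ((ℛ.Q t ^ l) σ)) := by
  induction n with
  | zero => rw [Finset.sum_range_zero, add_zero, pow_zero, Module.End.one_apply]
  | succ n ih =>
    rw [Finset.sum_range_succ, Q_succ_Bt1, Q_apply_Bt1]
    refine ih.trans ?_
    abel

/-- one-step estimates at order `i` -/
def St_Bt1 (ℛ : 𝒜.Reg) (i : ℕ) (C t₀ : ℝ) : Prop :=
  ∀ t ∈ Ioc (0 : ℝ) t₀, ∀ σ : 𝒜.Form, Anti σ → ∀ j, ∀ p ∈ closedBall (0 : E) 3, ∀ M,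
    ((∀ q ∈ closedBall p (C * t), JB (σ.1 j) i q M) → JB ((ℛ.Q t σ).1 j) i p (C * M)) ∧
    ((∀ q ∈ closedBall p (C * t), JB (σ.1 j) (i + 1) q M) → JB ((ℛ.Q t σ).1 j) i p (C * t * M))

theorem jb_nonneg_Bt1 {f : E → Bil} {k : ℕ} {p : E} {M : ℝ} (h : JB f k p M) : 0 ≤ M :=
  (norm_nonneg _).trans (h 0 k.zero_le)

theorem jb_mono_Bt1 {f : E → Bil} {k : ℕ} {p : E} {M M' : ℝ} (h : JB f k p M) (hM : M ≤ M') :
    JB f k p M' := fun i hi => (h i hi).trans hM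

theorem st_mono_Bt1 {ℛ : 𝒜.Reg} {i : ℕ} {C C' t₀ t₁ : ℝ} (h : St_Bt1 ℛ i C t₀) (h0 : 0 ≤ C)
    (hC : C ≤ C') (ht : t₁ ≤ t₀) : St_Bt1 ℛ i C' t₁ := by
  intro t ht' σ hσ j p hp M
  have t0 := ht'.1
  obtain ⟨h1, h2⟩ := h t ⟨t0, ht'.2.trans ht⟩ σ hσ j p hp M
  have hs : closedBall p (C * t) ⊆ closedBall p (C' * t) :=
    closedBall_subset_closedBall (mul_le_mul_of_nonneg_right hC t0.le)
  have hm : p ∈ closedBall p (C' * t) := mem_closedBall_self (mul_nonneg (h0.trans hC) t0.le)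
  refine ⟨fun H => jb_mono_Bt1 (h1 fun q hq => H q (hs hq)) ?_,
    fun H => jb_mono_Bt1 (h2 fun q hq => H q (hs hq)) ?_⟩
  · exact mul_le_mul_of_nonneg_right hC (jb_nonneg_Bt1 (H p hm))
  · exact mul_le_mul_of_nonneg_right (mul_le_mul_of_nonneg_right hC t0.le) (jb_nonneg_Bt1 (H p hm))

theorem st_one_Bt1 (ℛ : 𝒜.Reg) (i : ℕ) : ∃ C ≥ 1, ∃ t₀ > 0, St_Bt1 ℛ i C t₀ := by
  obtain ⟨a, a1, ha⟩ := sjb_Am (𝒜 := 𝒜) i (r := 3) (by norm_num)
  obtain ⟨b, b1, s, s0, -, hb⟩ := ℛ.jet i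
  obtain ⟨c, c1, u, u0, -, hc⟩ := ℛ.small i
  have e1 : 1 + b + c ≤ a * (1 + b + c) := le_mul_of_one_le_left (by linarith) a1
  refine ⟨a * (1 + b + c), by linarith, min s u, lt_min s0 u0, fun t ht σ hσ j p hp M => ?_⟩
  have t0 := ht.1
  have hp4 : p ∈ ball (0 : E) 4 := cb_sub (by norm_num) hp
  have e : ℛ.Q t σ = 𝒜.Am (σ - ℛ.R t σ) := by rw [map_sub, hσ, Q_apply_Bt1]
  have hm : p ∈ closedBall p (a * (1 + b + c) * t) := mem_closedBall_self (by positivity)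
  rw [e]
  refine ⟨fun H => ?_, fun H => ?_⟩
  · have M0 := jb_nonneg_Bt1 (H p hm)
    have h1 := hb t ⟨t0, ht.2.trans (min_le_left _ _)⟩ σ j p hp M fun q hq => H q
      (closedBall_subset_closedBall (mul_le_mul_of_nonneg_right (by linarith) t0.le) hq)
    have h2 : SJB ((σ - ℛ.R t σ).1 j) i 1 p (M + b * M) :=
      SJB.sub zero_le_one (Form.contDiffAt σ j hp4) (Form.contDiffAt _ j hp4)
        ((JB_iff_SJB _ _ _ _).1 (H p hm)) ((JB_iff_SJB _ _ _ _).1 h1)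
    refine jb_mono_Bt1 ((JB_iff_SJB _ _ _ _).2 (ha _ j p hp 1 _ one_pos le_rfl h2)) ?_
    have : 0 ≤ a * (c * M) := by positivity
    linarith
  · have M0 := jb_nonneg_Bt1 (H p hm)
    have h1 := hc t ⟨t0, ht.2.trans (min_le_right _ _)⟩ σ j p hp M fun q hq => H q
      (closedBall_subset_closedBall (mul_le_mul_of_nonneg_right (by linarith) t0.le) hq)
    have h2 : JB ((σ - ℛ.R t σ).1 j) i p (c * t * M) := fun m hm => by
      have e2 : (σ - ℛ.R t σ).1 j = -(ℛ.R t σ - σ).1 j := by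
        rw [← neg_sub (ℛ.R t σ) σ]
        rfl
      rw [e2, iteratedFDeriv_neg_apply, norm_neg]
      exact h1 m hm
    refine jb_mono_Bt1 ((JB_iff_SJB _ _ _ _).2
      (ha _ j p hp 1 _ one_pos le_rfl ((JB_iff_SJB _ _ _ _).1 h2))) ?_
    have : 0 ≤ a * ((1 + b) * (t * M)) := by positivity
    linarith

theorem st_all_Bt1 (ℛ : 𝒜.Reg) (k : ℕ) : ∃ C ≥ 1, ∃ t₀ > 0, ∀ i ≤ k, St_Bt1 ℛ i C t₀ := by
  induction k with
  | zero =>
    obtain ⟨C, c1, t₀, t0, h⟩ := st_one_Bt1 ℛ 0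
    exact ⟨C, c1, t₀, t0, fun i hi => Nat.le_zero.1 hi ▸ h⟩
  | succ k ih =>
    obtain ⟨C, c1, t₀, t0, h⟩ := st_one_Bt1 ℛ (k + 1)
    obtain ⟨C', c1', t₁, t1, h'⟩ := ih
    refine ⟨max C C', c1.trans (le_max_left _ _), min t₀ t₁, lt_min t0 t1, fun i hi => ?_⟩
    rcases hi.eq_or_lt with rfl | hi
    · exact st_mono_Bt1 h (by linarith) (le_max_left _ _) (min_le_left _ _)
    · exact st_mono_Bt1 (h' i (Nat.lt_succ_iff.1 hi)) (by linarith) (le_max_right _ _)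
        (min_le_right _ _)

theorem Reg.Q_jets (ℛ : 𝒜.Reg) (k n : ℕ) : ∃ C ≥ 1, ∃ t₀ > 0, t₀ ≤ 1 ∧ ∀ t ∈ Ioc (0 : ℝ) t₀,
    ∀ σ : 𝒜.Form, Anti σ → ∀ j (p : E), ‖p‖ + C * t ≤ 3 → ∀ i l : ℕ, l ≤ n → i + l ≤ k → ∀ M,
    (∀ q ∈ closedBall p (C * t), JB (σ.1 j) (i + l) q M) →
      JB (((ℛ.Q t ^ n) σ).1 j) i p (C * t ^ l * M) := by
  induction n with
  | zero =>
    refine ⟨1, le_rfl, 1, one_pos, le_rfl, fun t ht σ _ j p _ i l hl _ M H => ?_⟩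
    obtain rfl := Nat.le_zero.1 hl
    rw [pow_zero, pow_zero, one_mul, one_mul]
    exact H p (mem_closedBall_self (by linarith [ht.1]))
  | succ n ih =>
    obtain ⟨a, a1, s, s0, ha⟩ := st_all_Bt1 ℛ k
    obtain ⟨b, b1, u, u0, u1, hb⟩ := ih
    have e1 : a ≤ a * b := le_mul_of_one_le_right (by linarith) b1
    have e2 : b ≤ a * b := le_mul_of_one_le_left (by linarith) a1
    refine ⟨2 * (a * b), by linarith, min s u, lt_min s0 u0, (min_le_right _ _).trans u1,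
      fun t ht σ hσ j p hp i l hl hil M H => ?_⟩
    have t0 := ht.1
    have e3 : a * t + b * t ≤ 2 * (a * b) * t := by
      rw [← add_mul]
      exact mul_le_mul_of_nonneg_right (by linarith) t0.le
    have e4 : 0 ≤ a * t := by positivity
    have e5 : 0 ≤ b * t := by positivity
    have M0 := jb_nonneg_Bt1 (H p (mem_closedBall_self (by linarith)))
    have key : ∀ i' l' : ℕ, l' ≤ n → i' + l' = i + l → ∀ q ∈ closedBall p (a * t),
        JB (((ℛ.Q t ^ n) σ).1 j) i' q (b * t ^ l' * M) := fun i' l' h1 h2 q hq => by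
      refine hb t ⟨t0, ht.2.trans (min_le_right _ _)⟩ σ hσ j q ?_ i' l' h1 (h2 ▸ hil) M
        fun y hy => h2 ▸ H y ?_
      · have h3 := norm_le_norm_add_norm_sub' q p
        rw [mem_closedBall_iff_norm] at hq
        linarith
      · rw [mem_closedBall] at hq hy ⊢
        linarith [dist_triangle y q p]
    obtain ⟨h1, h2⟩ : (∀ M, (∀ q ∈ closedBall p (a * t), JB (((ℛ.Q t ^ n) σ).1 j) i q M) →
        JB ((ℛ.Q t ((ℛ.Q t ^ n) σ)).1 j) i p (a * M)) ∧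
        ∀ M, (∀ q ∈ closedBall p (a * t), JB (((ℛ.Q t ^ n) σ).1 j) (i + 1) q M) →
          JB ((ℛ.Q t ((ℛ.Q t ^ n) σ)).1 j) i p (a * t * M) :=
      forall_and.1 (ha i (by omega) t ⟨t0, ht.2.trans (min_le_left _ _)⟩ _ (ℛ.Q_anti t n hσ) j p
        (mem_closedBall_zero_iff.2 (by linarith)))
    rw [Q_succ_Bt1]
    have e6 : 0 ≤ a * b * t ^ l * M := by positivity
    rcases l with _ | l
    · exact jb_mono_Bt1 (h1 _ (key i 0 n.zero_le rfl)) (by linarith)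
    · refine jb_mono_Bt1 (h2 _ (key (i + 1) l (by omega) (by omega))) ?_
      rw [pow_succ] at e6 ⊢
      linarith

theorem Reg.Q_cn (ℛ : 𝒜.Reg) (k n : ℕ) : ∃ C ≥ 1, ∃ t₀ > 0, t₀ ≤ 1 ∧ ∀ t ∈ Ioc (0 : ℝ) t₀,
    ∀ σ : 𝒜.Form, Anti σ → ∀ i l : ℕ, l ≤ n → i + l ≤ k → ∀ M, Cn (i + l) σ M →
      Cn i ((ℛ.Q t ^ n) σ) (C * t ^ l * M) := by
  obtain ⟨a, a1, s, s0, s1, ha⟩ := ℛ.Q_jets k n
  choose b b1 hb using fun m => Cn_jb (𝒜 := 𝒜) m (r := 3) (by norm_num)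
  obtain ⟨c, hc⟩ := Finite.exists_le fun m : Fin (k + 1) => b m
  have c1 : 1 ≤ c := (b1 _).le.trans (hc 0)
  have a0 : 0 < a := by linarith
  refine ⟨a * c, one_le_mul_of_one_le_of_one_le a1 c1, min s a⁻¹, lt_min s0 (inv_pos.2 a0),
    (min_le_left _ _).trans s1, fun t ht σ hσ i l hl hil M H j p hp => ?_⟩
  have t0 := ht.1
  have e1 : a * t ≤ 1 := by
    rw [← mul_inv_cancel₀ a0.ne']
    exact mul_le_mul_of_nonneg_left (ht.2.trans (min_le_right _ _)) a0.le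
  rw [mem_closedBall_zero_iff] at hp
  have h1 := ha t ⟨t0, ht.2.trans (min_le_left _ _)⟩ σ hσ j p (by linarith) i l hl hil (c * M)
    fun q hq => jb_mono_Bt1 (hb _ σ M H j q (by
      have h3 := norm_le_norm_add_norm_sub' q p
      rw [mem_closedBall_iff_norm] at hq
      rw [mem_closedBall_zero_iff]
      linarith)) (mul_le_mul_of_nonneg_right (hc ⟨i + l, Nat.lt_succ_of_le hil⟩) H.nonneg)
  exact jb_mono_Bt1 h1 (le_of_eq (by ring))

end Atlas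

end

end Vale.Agent.P204
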