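import Vale.Agent.P204.Ru1

/-!
P204 Ru2: representing forms of regularised functionals.
Plan: `rep_ABd`: `maj_R`, `dual2` (note `Anti (Am x)` by `Am_Am`). `rbd_of_rep`: for anti `σ`,
`pair η σ = pair (Am η) σ` (`pair_split`, `Ap σ = 0`), `abs_pair_le`. `rep_ord`: `cn_smooth`, `dual2`.
`am_bound`: `κ x² ≤ pair (Am η) (Am η) = pair η η - pair (Ap η) (Ap η)` with `x = L2 (Am η)`,
`pair η η = -2 pair η ξ - pair ξ ξ`, `abs_pair_le`, `L2_add_le`, `Ap_add_Am`; quadratic inequality.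
-/

namespace Vale.Agent.P204

open scoped ContDiff Topology
open Metric MeasureTheory Set Filter

noncomputable section

namespace Atlas

variable {𝒜 : Atlas}

theorem LBd.abd {A : 𝒜.Form →ₗ[ℝ] ℝ} {α t : ℝ} (h : LBd A α) (hα : 0 ≤ α) (ht : 0 ≤ t) (k : ℕ) :
    ABd A k t α := fun σ _ hσ hc hM =>
  (h σ hσ).trans (mul_le_mul_of_nonneg_left (L2_le_Maj ht hc hM) hα)

theorem Reg.rep_ABd (ℛ : 𝒜.Reg) (k : ℕ) : ∃ C ≥ 1, ∃ t₀ > 0, ∀ t ∈ Ioc (0 : ℝ) t₀,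
    ∀ (A : 𝒜.Form →ₗ[ℝ] ℝ) (η : 𝒜.Form) (α : ℝ), 0 ≤ α → Rep η (A ∘ₗ 𝒜.Am ∘ₗ ℛ.R t) →
      ABd A k t α → L2 (𝒜.Ap η) ≤ C * t * α ∧ L2 (𝒜.Am η) ≤ C * α := by
  obtain ⟨C, hC, t₀, ht₀, h⟩ := ℛ.maj_R k
  obtain ⟨D, hD, hd⟩ := dual2 (𝒜 := 𝒜)
  refine ⟨D * C, one_le_mul_of_one_le_of_one_le hD hC, t₀, ht₀, fun t ht A η α hα hη hA => ?_⟩
  have hC0 : 0 ≤ C := zero_le_one.trans hC
  have ht0 := ht.1.le
  constructor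
  · refine ((hd η (C * t * α) (by positivity)).2.1 fun β hβ => ?_).trans_eq (by ring)
    have h1 := L2_nonneg β
    rw [hη β]
    exact (hA _ _ (Am_Am _) (by positivity) ((h t ht β).2 hβ)).trans_eq (by ring)
  · refine ((hd η (C * α) (by positivity)).2.2 fun β _ => ?_).trans_eq (by ring)
    have h1 := L2_nonneg β
    rw [hη β]
    exact (hA _ _ (Am_Am _) (by positivity) (h t ht β).1).trans_eq (by ring)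

theorem Reg.rbd_of_rep (ℛ : 𝒜.Reg) {t : ℝ} {A : 𝒜.Form →ₗ[ℝ] ℝ} {η : 𝒜.Form}
    (h : Rep η (A ∘ₗ 𝒜.Am ∘ₗ ℛ.R t)) : ℛ.RBd A t (6 * L2 (𝒜.Am η)) := by
  intro σ hσ
  have h1 : A (𝒜.Am (ℛ.R t σ)) = 𝒜.pair η σ := (h σ).symm
  have h2 : 𝒜.Ap σ = 0 := by rw [Ap_eq, hσ, sub_self]
  rw [h1, pair_split, h2, map_zero, zero_add, hσ]
  exact abs_pair_le _ _

theorem Reg.RBd.mono {ℛ : 𝒜.Reg} {t b b' : ℝ} {A : 𝒜.Form →ₗ[ℝ] ℝ} (h : ℛ.RBd A t b)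
    (hb : b ≤ b') : ℛ.RBd A t b' := fun σ hσ =>
  (h σ hσ).trans (mul_le_mul_of_nonneg_right hb (L2_nonneg σ))

theorem Reg.rep_ord (ℛ : 𝒜.Reg) (j : ℕ) : ∃ C ≥ 1, ∃ t₀ > 0, ∀ t ∈ Ioc (0 : ℝ) t₀,
    ∀ (μ : 𝒜.Form →ₗ[ℝ] ℝ) (ξ : 𝒜.Form), FinOrd μ j 1 → Rep ξ (μ ∘ₗ ℛ.R t) →
      L2 ξ ≤ C / t ^ (j + 2) := by
  obtain ⟨C, hC, t₀, ht₀, h⟩ := ℛ.cn_smooth j
  obtain ⟨D, hD, hd⟩ := dual2 (𝒜 := 𝒜)
  refine ⟨D * C, one_le_mul_of_one_le_of_one_le hD hC, t₀, ht₀, fun t ht μ ξ hμ hξ => ?_⟩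
  have hC0 : 0 ≤ C := zero_le_one.trans hC
  have ht0 := ht.1.le
  refine ((hd ξ (C / t ^ (j + 2)) (by positivity)).1 fun β => ?_).trans_eq (by ring)
  rw [hξ β]
  exact (hμ _ _ (h t ht β)).trans_eq (one_mul _)

theorem quad_Ru2 {κ x s a : ℝ} (hκ : 0 < κ) (n1 : 0 ≤ s) (n2 : 0 ≤ a)
    (h4 : κ * x ^ 2 ≤ 12 * x * s + 6 * (s + a) ^ 2) : x ≤ (1 + 18 / κ) * (s + a) := by
  by_contra hn
  push Not at hn
  have h5 : 0 ≤ 18 / κ * (s + a) := by positivity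
  have h6 : s + a < x := by linarith
  have h7 : 0 < x := by linarith
  have h8 : κ * x ≤ 18 * (s + a) := by
    refine le_of_mul_le_mul_right ?_ h7
    nlinarith [mul_nonneg n2 h7.le, mul_le_mul_of_nonneg_left h6.le (add_nonneg n1 n2)]
  have h9 : x ≤ 18 / κ * (s + a) := by
    rw [div_mul_eq_mul_div, le_div_iff₀ hκ]
    linarith
  linarith

theorem am_bound : ∃ C ≥ 1, ∀ η ξ : 𝒜.Form, 𝒜.pair (η + ξ) (η + ξ) = 0 →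
    L2 (𝒜.Am η) ≤ C * (L2 ξ + L2 (𝒜.Ap η)) := by
  obtain ⟨κ, hκ, hk⟩ := anti_pos (𝒜 := 𝒜)
  have hq : 0 < 18 / κ := by positivity
  refine ⟨1 + 18 / κ, by linarith, fun η ξ h => ?_⟩
  have h1 := hk _ (Am_Am η)
  have h2 := pair_split η η
  have h3 : 𝒜.pair η ξ = 𝒜.pair (𝒜.Ap η) ξ + 𝒜.pair (𝒜.Am η) ξ := by
    rw [← LinearMap.add_apply, ← map_add, Ap_add_Am]
  simp only [map_add, LinearMap.add_apply] at h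
  rw [pair_symm ξ η] at h
  have a1 := (abs_le.1 (abs_pair_le (𝒜.Ap η) ξ)).1
  have a2 := (abs_le.1 (abs_pair_le (𝒜.Am η) ξ)).1
  have a3 := (abs_le.1 (abs_pair_le ξ ξ)).1
  have a4 := (abs_le.1 (abs_pair_le (𝒜.Ap η) (𝒜.Ap η))).1
  exact quad_Ru2 hκ (L2_nonneg ξ) (L2_nonneg _) (by linarith)

/-- representing forms for `S` and for `A ∘ Am` exist at small scales -/
theorem Reg.rep_am (ℛ : 𝒜.Reg) : ∃ t₀ > 0, ∀ t ∈ Ioc (0 : ℝ) t₀, ∀ (A : 𝒜.Form →ₗ[ℝ] ℝ) (k : ℕ)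
    (C : ℝ), AOrd A k C → ∃ η, Rep η (A ∘ₗ 𝒜.Am ∘ₗ ℛ.R t) := by
  obtain ⟨t₀, ht₀, h⟩ := ℛ.rep
  refine ⟨t₀, ht₀, fun t ht A k C hA => ?_⟩
  obtain ⟨C', hC'⟩ := hA.finOrd
  exact h t ht _ k C' hC'

theorem FinOrd.aOrd {A : 𝒜.Form →ₗ[ℝ] ℝ} {k : ℕ} {C : ℝ} (h : FinOrd A k C) : AOrd A k C :=
  fun σ M _ hM => h σ M hM

end Atlas

end

end Vale.Agent.P204
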