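import Vale.Agent.P204.Bt1
import Vale.Agent.P204.Ru2

/-!
P204 Bt2: the bootstrap over scales.
Plan: `boot_step`: with `t = lam * ε`, `telescope` with `n = k`; if `f` is the majorant of `σ` at
scale `ε` then `C lam^k f` is a majorant of `Q^k σ` at scale `t` (`Q_jets` with `l = k - i`,
`M = f j p / ε^k` by `SJB.jb`, balls `closedBall q (C t) ⊆ closedBall p ε` when `(C+1) lam ≤ 1`), and
`C f` is a majorant of order 0 of `Q^l σ`, so `L2 (Q^l σ) ≤ C c` (`L2_le_Maj`); one constant for all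
`l ≤ k`. `boot`: `k = K+3`; choose `lam` with `C₀ lam ≤ 1/4`, `η₀ = lam^(K+2) / (4 C₁)`, so that
`θ = C₁ η₀ + C₀ lam^k ≤ lam^(K+2) / 2`; prove by induction on `n`, for all `ε ≤ t₀`:
`ABd ε (C b / ε^q + 2^(-n) C' CA / ε^(K+2))` (start: `Maj_apriori`), with
`C = 2 C₁ / lam^q`; let `n → ∞`.
-/

namespace Vale.Agent.P204

open scoped ContDiff Topology
open Metric MeasureTheory Set Filter

noncomputable section

namespace Atlas

variable {𝒜 : Atlas}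

theorem ABd.mono {A : 𝒜.Form →ₗ[ℝ] ℝ} {k : ℕ} {t α α' : ℝ} (h : ABd A k t α) (hα : α ≤ α') :
    ABd A k t α' := fun σ c hσ hc hm =>
  (h σ c hσ hc hm).trans (mul_le_mul_of_nonneg_right hα hc)

theorem bt2_maj {σ τ : 𝒜.Form} {k k' : ℕ} {ε t c D : ℝ} (hD : 0 ≤ D) (h : Maj σ k ε c)
    (hp : ∀ j, ∀ p ∈ closedBall (0 : E) 2, ∀ M, (∀ q ∈ closedBall p ε, SJB (σ.1 j) k ε q M) →
      ∀ q ∈ closedBall p t, SJB (τ.1 j) k' t q (D * M)) : Maj τ k' t (D * c) := by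
  obtain ⟨f, f1, f2, f3, f4, f5⟩ := h
  refine ⟨fun j p => D * f j p, fun j => (f1 j).const_mul D, fun j p => mul_nonneg hD (f2 j p),
    fun j => ?_, ?_, fun j p hpp => hp j p hpp _ (f5 j p hpp)⟩
  · simp only [mul_pow]
    exact (f3 j).const_mul _
  · simp only [mul_pow, integral_const_mul]
    rw [← Finset.mul_sum]
    exact mul_le_mul_of_nonneg_left f4 (sq_nonneg D)

theorem bt2_unif (ℛ : 𝒜.Reg) (k N : ℕ) : ∃ C ≥ 1, ∃ t₀ > 0, ∀ n ≤ N, ∀ t ∈ Ioc (0 : ℝ) t₀,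
    ∀ σ : 𝒜.Form, Anti σ → ∀ j (p : E), ‖p‖ + C * t ≤ 3 → ∀ i l : ℕ, l ≤ n → i + l ≤ k → ∀ M,
    (∀ q ∈ closedBall p (C * t), JB (σ.1 j) (i + l) q M) →
      JB (((ℛ.Q t ^ n) σ).1 j) i p (C * t ^ l * M) := by
  choose C hC t₀ ht₀ ht1 h using fun n => ℛ.Q_jets k n
  have hne : (Finset.range (N + 1)).Nonempty := ⟨0, by simp⟩
  refine ⟨(Finset.range (N + 1)).sup' hne C, (hC 0).trans (Finset.le_sup' C (by simp)),
    (Finset.range (N + 1)).inf' hne t₀, (Finset.lt_inf'_iff hne).2 fun n _ => ht₀ n, ?_⟩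
  intro n hn t ht σ hσ j p hp i l hl hil M hM
  have hm : n ∈ Finset.range (N + 1) := Finset.mem_range.2 (Nat.lt_succ_of_le hn)
  have h1 : C n ≤ (Finset.range (N + 1)).sup' hne C := Finset.le_sup' C hm
  have h2 : C n * t ≤ (Finset.range (N + 1)).sup' hne C * t :=
    mul_le_mul_of_nonneg_right h1 ht.1.le
  have h0 : 0 ≤ C n * t := mul_nonneg (zero_le_one.trans (hC n)) ht.1.le
  have hM0 : 0 ≤ M :=
    (norm_nonneg _).trans (hM p (mem_closedBall_self (h0.trans h2)) 0 (Nat.zero_le _))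
  have h3 := h n t ⟨ht.1, ht.2.trans (Finset.inf'_le t₀ hm)⟩ σ hσ j p (by linarith) i l hl hil M
    fun q hq => hM q (closedBall_subset_closedBall h2 hq)
  intro a ha
  refine (h3 a ha).trans (mul_le_mul_of_nonneg_right
    (mul_le_mul_of_nonneg_right h1 (pow_nonneg ht.1.le l)) hM0)

theorem Reg.boot_step (ℛ : 𝒜.Reg) (k : ℕ) : ∃ C₀ ≥ 1, ∃ C₁ ≥ 1, ∃ ε₁ > 0, ε₁ ≤ 1 ∧ ∃ l₀ > 0,
    l₀ ≤ 1 ∧ ∀ lam ∈ Ioc (0 : ℝ) l₀, ∀ ε ∈ Ioc (0 : ℝ) ε₁, ∀ (A : 𝒜.Form →ₗ[ℝ] ℝ) (α b : ℝ),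
    0 ≤ α → 0 ≤ b → ABd A k (lam * ε) α → ℛ.RBd A (lam * ε) b →
      ABd A k ε (C₁ * b + C₀ * lam ^ k * α) := by
  obtain ⟨C, hC, t₀, ht₀, h⟩ := bt2_unif ℛ k k
  have hC0 : 0 < C := zero_lt_one.trans_le hC
  have hkC : 0 ≤ (k : ℝ) * C := by positivity
  refine ⟨C, hC, k * C + 1, by linarith, min t₀ 1, lt_min ht₀ one_pos, min_le_right _ _,
    1 / (C + 1), by positivity, by rw [div_le_one (by positivity)]; linarith, ?_⟩
  intro lam hlam ε hε A α b hα hb hA hR σ c hσ hc hm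
  have hε1 : ε ≤ 1 := hε.2.trans (min_le_right _ _)
  have hl : (C + 1) * lam ≤ 1 := by
    have := hlam.2
    rwa [le_div_iff₀' (by positivity)] at this
  have hl0 := hlam.1
  have hε0 := hε.1
  have ht0 : 0 < lam * ε := by positivity
  have htε : (C + 1) * (lam * ε) ≤ ε := by
    rw [← mul_assoc]
    exact mul_le_of_le_one_left hε0.le hl
  have hCt : 0 < C * (lam * ε) := by positivity
  have ht : lam * ε ∈ Ioc (0 : ℝ) t₀ :=
    ⟨ht0, le_trans (by linarith) (hε.2.trans (min_le_left _ _))⟩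
  have hq : ∀ p ∈ closedBall (0 : E) 2, ∀ q ∈ closedBall p (lam * ε),
      ‖q‖ + C * (lam * ε) ≤ 3 ∧ closedBall q (C * (lam * ε)) ⊆ closedBall p ε := by
    intro p hp q hq
    have e1 : ‖p‖ ≤ 2 := mem_closedBall_zero_iff.1 hp
    have e2 : dist q p ≤ lam * ε := hq
    have e3 : ‖q‖ ≤ ‖p‖ + dist q p := by
      rw [dist_eq_norm]
      exact norm_le_insert' q p
    exact ⟨by linarith, closedBall_subset_closedBall' (by linarith)⟩
  have m1 : Maj ((ℛ.Q (lam * ε) ^ k) σ) k (lam * ε) (C * lam ^ k * c) := by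
    refine bt2_maj (by positivity) hm fun j p hp M hM q hq' i hi => ?_
    obtain ⟨l, hl⟩ := Nat.exists_eq_add_of_le hi
    have h1 := h k le_rfl _ ht σ hσ j q (hq p hp q hq').1 i l (by omega) hl.ge (M / ε ^ k)
      (fun q' hq'' => hl ▸ (hM q' ((hq p hp q hq').2 hq'')).jb hε0 hε1) i le_rfl
    refine (mul_le_mul_of_nonneg_left h1 (pow_nonneg ht0.le i)).trans (le_of_eq ?_)
    have e : (lam * ε) ^ i * (lam * ε) ^ l = lam ^ k * ε ^ k := by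
      rw [← pow_add, ← hl, mul_pow]
    calc (lam * ε) ^ i * (C * (lam * ε) ^ l * (M / ε ^ k))
        = C * ((lam * ε) ^ i * (lam * ε) ^ l) * (M / ε ^ k) := by ring
      _ = C * lam ^ k * M := by rw [e]; field_simp
  have m2 : ∀ n ≤ k, L2 ((ℛ.Q (lam * ε) ^ n) σ) ≤ C * c := by
    intro n hn
    refine L2_le_Maj (k := 0) ht0.le (by positivity)
      (bt2_maj hC0.le hm fun j p hp M hM q hq' i hi => ?_)
    have h1 := h n hn _ ht σ hσ j q (hq p hp q hq').1 0 0 (Nat.zero_le _) (Nat.zero_le _) M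
      (fun q' hq'' a ha => by
        have := hM q' ((hq p hp q hq').2 hq'') 0 (Nat.zero_le _)
        rw [pow_zero, one_mul] at this
        rw [Nat.le_zero.1 ha]
        exact this) 0 le_rfl
    rw [pow_zero, mul_one] at h1
    rw [Nat.le_zero.1 hi, pow_zero, one_mul]
    exact h1
  have a1 := hA _ _ (ℛ.Q_anti _ k hσ) (by positivity) m1
  have a2 : |∑ l ∈ Finset.range k, A (𝒜.Am (ℛ.R (lam * ε) ((ℛ.Q (lam * ε) ^ l) σ)))| ≤
      k * (b * (C * c)) := by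
    refine (Finset.abs_sum_le_sum_abs _ _).trans ?_
    refine (Finset.sum_le_card_nsmul _ _ (b * (C * c)) fun l hl => ?_).trans
      (by rw [Finset.card_range, nsmul_eq_mul])
    exact (hR _ (ℛ.Q_anti _ l hσ)).trans
      (mul_le_mul_of_nonneg_left (m2 l (Finset.mem_range.1 hl).le) hb)
  have e : A σ = A ((ℛ.Q (lam * ε) ^ k) σ) +
      ∑ l ∈ Finset.range k, A (𝒜.Am (ℛ.R (lam * ε) ((ℛ.Q (lam * ε) ^ l) σ))) := by
    rw [← map_sum, ← map_add, ← ℛ.telescope]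
  rw [e]
  have hbc : 0 ≤ b * c := mul_nonneg hb hc
  refine (abs_add_le _ _).trans ?_
  linarith

theorem Reg.boot (ℛ : 𝒜.Reg) (K q : ℕ) (hq : q ≤ K + 2) : ∃ η₀ > 0, ∃ C ≥ 1, ∃ ε₁ > 0, ε₁ ≤ 1 ∧
    ∀ (A : 𝒜.Form →ₗ[ℝ] ℝ) (CA : ℝ), AOrd A K CA → ∀ b ≥ 0, ∀ t₀ ∈ Ioc (0 : ℝ) ε₁,
    (∀ t ∈ Ioc (0 : ℝ) t₀, ∀ α ≥ 0, ABd A (K + 3) t α → ℛ.RBd A t (b / t ^ q + η₀ * α)) →
      ∀ ε ∈ Ioc (0 : ℝ) t₀, ABd A (K + 3) ε (C * b / ε ^ q) := by
  obtain ⟨C₀, hC₀, C₁, hC₁, ε₁, hε₁, hε₁', l₀, hl₀, hl₀', hstep⟩ := ℛ.boot_step (K + 3)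
  obtain ⟨C', hC', hap⟩ := Maj_apriori (𝒜 := 𝒜) (K + 3)
  obtain ⟨lam, hl0, hl1, hl2⟩ : ∃ lam : ℝ, 0 < lam ∧ lam ≤ l₀ ∧ C₀ * lam ≤ 1 / 4 := by
    refine ⟨min l₀ (1 / (4 * C₀)), lt_min hl₀ (by positivity), min_le_left _ _, ?_⟩
    calc C₀ * min l₀ (1 / (4 * C₀)) ≤ C₀ * (1 / (4 * C₀)) :=
          mul_le_mul_of_nonneg_left (min_le_right _ _) (by positivity)
      _ = 1 / 4 := by field_simp
  have hl3 : lam ≤ 1 := hl1.trans hl₀'
  have hlq : lam ^ q ≤ 1 := pow_le_one₀ hl0.le hl3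
  have hlq' : lam ^ (K + 2) ≤ lam ^ q := pow_le_pow_of_le_one hl0.le hl3 hq
  refine ⟨lam ^ (K + 2) / (4 * C₁), by positivity, 2 * C₁ / lam ^ q, ?_, ε₁, hε₁, hε₁', ?_⟩
  · rw [ge_iff_le, le_div_iff₀ (by positivity)]
    linarith
  intro A CA hA b hb t₀ ht₀ hR
  have hb0 : 0 ≤ b := hb
  have key : ∀ n : ℕ, ∀ ε ∈ Ioc (0 : ℝ) t₀, ABd A (K + 3) ε
      (2 * C₁ / lam ^ q * b / ε ^ q + (1 / 2) ^ n * (|CA| * C' / ε ^ (K + 2))) := by
    intro n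
    induction n with
    | zero =>
      intro ε hε σ c hσ hc hm
      have hε0 := hε.1
      have h1 := hA σ _ hσ (hap ε ⟨hε.1, hε.2.trans (ht₀.2.trans hε₁')⟩ σ c hc hm K (by omega))
      have h2 : CA * (C' * c / ε ^ (K + 2)) ≤ |CA| * (C' * c / ε ^ (K + 2)) :=
        mul_le_mul_of_nonneg_right (le_abs_self _) (by positivity)
      have h3 : 0 ≤ 2 * C₁ / lam ^ q * b / ε ^ q * c := by positivity
      have h4 : |CA| * (C' * c / ε ^ (K + 2)) = |CA| * C' / ε ^ (K + 2) * c := by ring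
      rw [pow_zero, one_mul, add_mul]
      linarith
    | succ n ih =>
      intro ε hε
      have hε0 := hε.1
      have ht : lam * ε ∈ Ioc (0 : ℝ) t₀ :=
        ⟨by positivity, (mul_le_of_le_one_left hε0.le hl3).trans hε.2⟩
      obtain ⟨α, hα⟩ : ∃ α : ℝ, α = 2 * C₁ / lam ^ q * b / (lam * ε) ^ q +
        (1 / 2) ^ n * (|CA| * C' / (lam * ε) ^ (K + 2)) := ⟨_, rfl⟩
      have hα0 : 0 ≤ α := by rw [hα]; positivity
      have h1 := ih _ ht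
      rw [← hα] at h1
      refine (hstep lam ⟨hl0, hl1⟩ ε ⟨hε0, hε.2.trans ht₀.2⟩ A α _ hα0 (by positivity) h1
        (hR _ ht α hα0 h1)).mono ?_
      have e1 : C₁ * (b / (lam * ε) ^ q + lam ^ (K + 2) / (4 * C₁) * α) =
          2 * C₁ / lam ^ q * b / ε ^ q / 2 + lam ^ (K + 2) * α / 4 := by
        rw [mul_pow]
        field_simp
      have e2 : C₀ * lam ^ (K + 3) * α ≤ lam ^ (K + 2) * α / 4 := by
        have : C₀ * lam ^ (K + 3) * α = C₀ * lam * (lam ^ (K + 2) * α) := by ring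
        rw [this]
        have h0 : 0 ≤ lam ^ (K + 2) * α := by positivity
        nlinarith
      have e3 : lam ^ (K + 2) * α = lam ^ (K + 2) / lam ^ q * (2 * C₁ / lam ^ q * b / ε ^ q) +
          2 * ((1 / 2) ^ (n + 1) * (|CA| * C' / ε ^ (K + 2))) := by
        rw [hα, mul_pow, mul_pow, pow_succ (1 / 2 : ℝ) n]
        generalize (1 / 2 : ℝ) ^ n = w
        field_simp
      have e4 : lam ^ (K + 2) / lam ^ q * (2 * C₁ / lam ^ q * b / ε ^ q) ≤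
          2 * C₁ / lam ^ q * b / ε ^ q :=
        mul_le_of_le_one_left (by positivity) ((div_le_one (by positivity)).2 hlq')
      linarith
  intro ε hε σ c hσ hc hm
  have ht : Tendsto (fun n : ℕ => (2 * C₁ / lam ^ q * b / ε ^ q +
      (1 / 2 : ℝ) ^ n * (|CA| * C' / ε ^ (K + 2))) * c) atTop
      (𝓝 ((2 * C₁ / lam ^ q * b / ε ^ q + 0 * (|CA| * C' / ε ^ (K + 2))) * c)) :=
    (((tendsto_pow_atTop_nhds_zero_of_lt_one (by norm_num) (by norm_num)).mul_const _).const_add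
      _).mul_const c
  rw [zero_mul, add_zero] at ht
  exact ge_of_tendsto' ht fun n => key n ε hε σ c hσ hc hm

end Atlas

end

end Vale.Agent.P204
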