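import Vale.Agent.P204.Bt1
import Vale.Agent.P204.Ru2

/-!
P204 Bt3: reduction of the order.
Plan: `p = q + 1`, `t l = lam^l t₁`, `σ 0 = σ`, `σ (l+1) = Q (t l) ^ p (σ l)` (all anti). With the
constant `C` of `Q_cn` (for `k = K + p + 1`, and all powers `n ≤ p`): `Cn p (σ l) (C^l M)`,
`Cn 0 (σ (l+1)) (C (t l)^p C^l M)`, `Cn (K+1) (σ l) (C^l M')` (`exists_Cn`),
`Cn K (σ (l+1)) (C (t l) C^l M')`, so `A (σ l) → 0` when `C lam ≤ 1/2`. By `telescope`, `RBd`,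
`L2_le_Cn`: `|A (σ l) - A (σ (l+1))| ≤ p C' (N / (t l)^q) * (C^0 bound of σ l)`, a geometric series.
-/

namespace Vale.Agent.P204

open scoped ContDiff Topology
open Metric MeasureTheory Set Filter

noncomputable section

namespace Atlas

variable {𝒜 : Atlas}

theorem Reg.Q_unif_Bt3 (ℛ : 𝒜.Reg) (k p : ℕ) : ∃ C ≥ 1, ∃ t₀ > 0, ∀ n ≤ p, ∀ t ∈ Ioc (0 : ℝ) t₀,
    ∀ σ : 𝒜.Form, Anti σ → ∀ i l : ℕ, l ≤ n → i + l ≤ k → ∀ M, Cn (i + l) σ M →
      Cn i ((ℛ.Q t ^ n) σ) (C * t ^ l * M) := by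
  choose C hC t ht _ H using fun n : Fin (p + 1) => ℛ.Q_cn k n
  obtain ⟨a, ha⟩ := Finite.exists_max C
  obtain ⟨b, hb⟩ := Finite.exists_min t
  refine ⟨C a, hC a, t b, ht b, fun n hn s hs σ hσ i l hl hi M hM => ?_⟩
  refine (H ⟨n, by omega⟩ s ⟨hs.1, hs.2.trans (hb _)⟩ σ hσ i l hl hi M hM).mono le_rfl ?_
  have := hM.nonneg
  have := hs.1
  have := ha ⟨n, by omega⟩
  gcongr

theorem Reg.order_red (ℛ : 𝒜.Reg) (K q : ℕ) {t₀ N CA : ℝ} (ht₀ : 0 < t₀) (A : 𝒜.Form →ₗ[ℝ] ℝ)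
    (hA : AOrd A K CA) (h : ∀ t ∈ Ioc (0 : ℝ) t₀, ℛ.RBd A t (N / t ^ q)) :
    ∃ C', AOrd A (q + 1) C' := by
  obtain ⟨C, hC, t₂, ht₂, H⟩ := ℛ.Q_unif_Bt3 (K + q + 2) (q + 1)
  obtain ⟨CL, hCL, hL⟩ := L2_le_Cn (𝒜 := 𝒜)
  obtain ⟨t₁, ht₁, h10, h12⟩ : ∃ t₁ > 0, t₁ ≤ t₀ ∧ t₁ ≤ t₂ :=
    ⟨min t₀ t₂, lt_min ht₀ ht₂, min_le_left _ _, min_le_right _ _⟩
  have hC0 : 0 < C := by linarith
  obtain ⟨lam, hl0, hlC⟩ : ∃ lam > 0, C * lam = 1 / 2 := ⟨1 / (2 * C), by positivity, by field_simp⟩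
  have hl1 : lam ≤ 1 := by nlinarith
  let t : ℕ → ℝ := fun l => lam ^ l * t₁
  have tpos : ∀ l, 0 < t l := fun l => by positivity
  have tle : ∀ l, t l ≤ t₁ := fun l => mul_le_of_le_one_left ht₁.le (pow_le_one₀ hl0.le hl1)
  have tC : ∀ l, C ^ l * t l = t₁ / 2 ^ l := fun l => by
    simp only [t]
    rw [← mul_assoc, ← mul_pow, hlC, one_div, inv_pow, div_eq_inv_mul]
  obtain ⟨D, hD, hD1, hD2⟩ : ∃ D ≥ 0, 1 ≤ D * t₁ ^ (q + 1) ∧ 1 ≤ D * lam ^ (q + 1) := by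
    refine ⟨(t₁ ^ (q + 1))⁻¹ + (lam ^ (q + 1))⁻¹, by positivity, ?_, ?_⟩
    · rw [add_mul, inv_mul_cancel₀ (by positivity)]
      exact le_add_of_nonneg_right (by positivity)
    · rw [add_mul, inv_mul_cancel₀ (by positivity)]
      exact le_add_of_nonneg_left (by positivity)
  refine ⟨2 * ((q + 1 : ℕ) * (|N| * CL * C * D * t₁)), fun σ M hσ hM => ?_⟩
  have hM0 := hM.nonneg
  let s : ℕ → 𝒜.Form := fun l => Nat.rec σ (fun l x => (ℛ.Q (t l) ^ (q + 1)) x) l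
  have hs : ∀ l, s (l + 1) = (ℛ.Q (t l) ^ (q + 1)) (s l) := fun l => rfl
  have anti : ∀ l, Anti (s l) := fun l => by
    induction l with
    | zero => exact hσ
    | succ l ih => exact ℛ.Q_anti _ _ ih
  have H' := fun l n hn => H n hn (t l) ⟨tpos l, (tle l).trans h12⟩ (s l) (anti l)
  have grow : ∀ i ≤ K + q + 2, ∀ B, Cn i σ B → ∀ l, Cn i (s l) (C ^ l * B) := fun i hi B hB l => by
    induction l with
    | zero => rw [pow_zero, one_mul]; exact hB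
    | succ l ih =>
      refine (H' l _ le_rfl i 0 (Nat.zero_le _) hi _ ih).mono le_rfl (le_of_eq ?_)
      ring
  have zero : ∀ l, Cn 0 (s l) (D * t l ^ (q + 1) * (C ^ l * M)) := fun l => by
    cases l with
    | zero =>
      refine hM.mono (Nat.zero_le _) ?_
      simp only [t, pow_zero, one_mul]
      exact le_mul_of_one_le_left hM0 hD1
    | succ l =>
      refine (H' l _ le_rfl 0 (q + 1) le_rfl (by omega) _
        (by rw [zero_add]; exact grow _ (by omega) M hM l)).mono le_rfl ?_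
      have e : D * t (l + 1) ^ (q + 1) * (C ^ (l + 1) * M) =
          D * lam ^ (q + 1) * (C * t l ^ (q + 1) * (C ^ l * M)) := by
        simp only [t, mul_pow]; ring
      rw [e]
      have := tpos l
      exact le_mul_of_one_le_left (by positivity) hD2
  have step : ∀ l, dist (A (s l)) (A (s (l + 1))) ≤
      2 * ((q + 1 : ℕ) * (|N| * CL * C * D * t₁)) * M / 2 / 2 ^ l := fun l => by
    have e : A (s l) - A (s (l + 1)) =
        ∑ j ∈ Finset.range (q + 1), A (𝒜.Am (ℛ.R (t l) ((ℛ.Q (t l) ^ j) (s l)))) := by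
      rw [← map_sum, hs, ← map_sub]
      exact congrArg A (sub_eq_of_eq_add' (ℛ.telescope (t l) (q + 1) (s l)))
    have hb : ∀ j ∈ Finset.range (q + 1), |A (𝒜.Am (ℛ.R (t l) ((ℛ.Q (t l) ^ j) (s l))))| ≤
        |N| * CL * C * D * t₁ * M / 2 ^ l := fun j hj => by
      have h1 := h (t l) ⟨tpos l, (tle l).trans h10⟩ _ (ℛ.Q_anti (t l) j (anti l))
      have h2 := hL _ _ (H' l j (Finset.mem_range.1 hj).le 0 0 (Nat.zero_le _) (Nat.zero_le _) _
        (zero l))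
      have h3 := tpos l
      have h4 := L2_nonneg ((ℛ.Q (t l) ^ j) (s l))
      have h5 := le_abs_self N
      refine h1.trans ((?_ : _ ≤ |N| / t l ^ q *
        (CL * (C * t l ^ 0 * (D * t l ^ (q + 1) * (C ^ l * M))))).trans (le_of_eq ?_))
      · gcongr
      · have e2 : |N| * CL * C * D * t₁ * M / 2 ^ l = |N| * CL * C * D * M * (C ^ l * t l) := by
          rw [tC]; ring
        rw [e2]
        field_simp
        ring
    rw [Real.dist_eq, e]
    refine (Finset.abs_sum_le_sum_abs _ _).trans ((Finset.sum_le_card_nsmul _ _ _ hb).trans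
      (le_of_eq ?_))
    rw [Finset.card_range, nsmul_eq_mul]
    ring
  obtain ⟨M', hM'⟩ := exists_Cn (K + 1) σ
  have lim : Tendsto (fun l => A (s l)) atTop (𝓝 0) := by
    rw [← tendsto_add_atTop_iff_nat 1]
    have hz : Tendsto (fun l : ℕ => CA * (C * M' * t₁) * (1 / 2) ^ l) atTop (𝓝 0) := by
      simpa using (tendsto_pow_atTop_nhds_zero_of_lt_one (r := (1 / 2 : ℝ)) (by norm_num)
        (by norm_num)).const_mul (CA * (C * M' * t₁))
    refine squeeze_zero_norm (fun l => ?_) hz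
    refine (hA _ _ (anti (l + 1)) (H' l _ le_rfl K 1 (by omega) (by omega) _
      (grow _ (by omega) M' hM' l))).trans (le_of_eq ?_)
    have e : CA * (C * t l ^ 1 * (C ^ l * M')) = CA * C * M' * (C ^ l * t l) := by ring
    rw [e, tC, one_div, inv_pow]
    ring
  have := dist_le_of_le_geometric_two_of_tendsto₀ step lim
  rwa [Real.dist_eq, sub_zero] at this

end Atlas

end

end Vale.Agent.P204
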