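import Mathlib

/-!
P204: basic definitions (linear algebra of two-forms on `ℝ⁴`, jets, the abstract atlas, forms).
See `notes/P204.md` for the whole proof.
-/

namespace Vale.Agent.P204

open scoped ContDiff Topology
open Metric MeasureTheory Set Filter

noncomputable section

abbrev E : Type := EuclideanSpace ℝ (Fin 4)
abbrev Cov : Type := E →L[ℝ] ℝ
abbrev Bil : Type := E →L[ℝ] Cov
abbrev End : Type := E →L[ℝ] E

instance iCovN : NormedAddCommGroup Cov := inferInstance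
instance iCovS : NormedSpace ℝ Cov := inferInstance
instance iBilN : NormedAddCommGroup Bil := inferInstance
instance iBilS : NormedSpace ℝ Bil := inferInstance
instance iBDN : NormedAddCommGroup (Bil →L[ℝ] ℝ) := inferInstance
instance iBDS : NormedSpace ℝ (Bil →L[ℝ] ℝ) := inferInstance
instance iBBN : NormedAddCommGroup (Bil →L[ℝ] Bil) := inferInstance
instance iBBS : NormedSpace ℝ (Bil →L[ℝ] Bil) := inferInstance
instance iCBN : NormedAddCommGroup (Cov →L[ℝ] Bil) := inferInstance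
instance iCBS : NormedSpace ℝ (Cov →L[ℝ] Bil) := inferInstance
instance iEBN : NormedAddCommGroup (E →L[ℝ] Bil) := inferInstance
instance iEBS : NormedSpace ℝ (E →L[ℝ] Bil) := inferInstance

/-! ### Linear algebra -/

/-- standard basis vector -/
def e (a : Fin 4) : E := EuclideanSpace.single a 1

def IsAlt (b : Bil) : Prop := ∀ u v, b u v = -b v u

/-- pull-back of a bilinear form by an endomorphism -/
def pullL (A : End) : Bil →L[ℝ] Bil :=
  (ContinuousLinearMap.compL ℝ E Cov Cov ((ContinuousLinearMap.compL ℝ E E ℝ).flip A)).comp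
    ((ContinuousLinearMap.compL ℝ E E Cov).flip A)

@[simp] theorem pullL_apply (A : End) (b : Bil) (u v : E) : pullL A b u v = b (A u) (A v) := by
  simp [pullL]

theorem contDiff_pullL : ContDiff ℝ ∞ pullL := by
  unfold pullL
  exact ((ContinuousLinearMap.compL ℝ E Cov Cov).contDiff.comp
    (ContinuousLinearMap.compL ℝ E E ℝ).flip.contDiff).clm_comp
    (ContinuousLinearMap.compL ℝ E E Cov).flip.contDiff

/-- anti-invariant part -/
def pm (J : End) : Bil →L[ℝ] Bil := (1 / 2 : ℝ) • (ContinuousLinearMap.id ℝ Bil - pullL J)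

/-- invariant part -/
def pp (J : End) : Bil →L[ℝ] Bil := (1 / 2 : ℝ) • (ContinuousLinearMap.id ℝ Bil + pullL J)

@[simp] theorem pm_apply (J : End) (b : Bil) (u v : E) :
    pm J b u v = 1 / 2 * (b u v - b (J u) (J v)) := by simp [pm]

@[simp] theorem pp_apply (J : End) (b : Bil) (u v : E) :
    pp J b u v = 1 / 2 * (b u v + b (J u) (J v)) := by simp [pp]; ring

theorem contDiff_pm : ContDiff ℝ ∞ pm := by
  unfold pm
  exact (contDiff_const.sub contDiff_pullL).const_smul _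

theorem contDiff_pp : ContDiff ℝ ∞ pp := by
  unfold pp
  exact (contDiff_const.add contDiff_pullL).const_smul _

/-- the component functional `b ↦ b(e_a, e_c)` -/
def ev (a c : Fin 4) : Bil →L[ℝ] ℝ :=
  (ContinuousLinearMap.apply ℝ ℝ (e c)).comp (ContinuousLinearMap.apply ℝ Cov (e a))

@[simp] theorem ev_apply (a c : Fin 4) (b : Bil) : ev a c b = b (e a) (e c) := by simp [ev]

/-- wedge product of two two-forms, as a multiple of the standard volume form -/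
def WL : Bil →L[ℝ] Bil →L[ℝ] ℝ :=
  (ev 0 1).smulRight (ev 2 3) - (ev 0 2).smulRight (ev 1 3) + (ev 0 3).smulRight (ev 1 2) +
    (ev 1 2).smulRight (ev 0 3) - (ev 1 3).smulRight (ev 0 2) + (ev 2 3).smulRight (ev 0 1)

theorem WL_apply (α β : Bil) : WL α β =
    α (e 0) (e 1) * β (e 2) (e 3) - α (e 0) (e 2) * β (e 1) (e 3) + α (e 0) (e 3) * β (e 1) (e 2) +
    α (e 1) (e 2) * β (e 0) (e 3) - α (e 1) (e 3) * β (e 0) (e 2) + α (e 2) (e 3) * β (e 0) (e 1) := by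
  simp only [WL, add_apply, sub_apply, ContinuousLinearMap.smulRight_apply, ev_apply, smul_apply,
    smul_eq_mul]

/-- wedge product of two covectors -/
def wedge1 (α β : Cov) : Bil := α.smulRight β - β.smulRight α

@[simp] theorem wedge1_apply (α β : Cov) (u v : E) :
    wedge1 α β u v = α u * β v - β u * α v := by simp [wedge1]

/-- the bivector `u ∧ v` seen as a two-form through the Euclidean structure -/
def bv (u v : E) : Bil := wedge1 (innerSL ℝ u) (innerSL ℝ v)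

/-- elementary two-form `dx_a ∧ dx_c` -/
def ef (a c : Fin 4) : Bil := bv (e a) (e c)

/-- Euclidean Hodge star on two-forms -/
def hs : Bil →L[ℝ] Bil :=
  (ev 2 3).smulRight (ef 0 1) - (ev 1 3).smulRight (ef 0 2) + (ev 1 2).smulRight (ef 0 3) +
    (ev 0 3).smulRight (ef 1 2) - (ev 0 2).smulRight (ef 1 3) + (ev 0 1).smulRight (ef 2 3)

/-- determinant of four vectors -/
def det4 (a b c d : E) : ℝ := WL (bv a b) (bv c d)

/-- the metric `g(u,v) = (Ω(u,Jv) + Ω(v,Ju))/2` -/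
def gOf (Ω : Bil) (J : End) : Bil :=
  (1 / 2 : ℝ) • (Ω.bilinearComp (ContinuousLinearMap.id ℝ E) J +
    (Ω.bilinearComp (ContinuousLinearMap.id ℝ E) J).flip)

@[simp] theorem gOf_apply (Ω : Bil) (J : End) (u v : E) :
    gOf Ω J u v = 1 / 2 * (Ω u (J v) + Ω v (J u)) := by simp [gOf]; ring

/-- `g(w,w)` times the squared distance from `z` to the complex line of `w` -/
def Del (g : Bil) (J : End) (w z : E) : ℝ := g w w * g z z - g w z ^ 2 - g (J w) z ^ 2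

/-- a Hermitian structure: `J² = -1`, `g` symmetric and `J`-invariant, `g ≥ c`, norms `≤ C` -/
structure Herm (g : Bil) (J : End) (c C : ℝ) : Prop where
  sq : ∀ v, J (J v) = -v
  symm : ∀ u v, g u v = g v u
  inv : ∀ u v, g (J u) (J v) = g u v
  pos : ∀ v, c * ‖v‖ ^ 2 ≤ g v v
  cpos : 0 < c
  gle : ‖g‖ ≤ C
  Jle : ‖J‖ ≤ C

/-- the fundamental form `g(Ju, v)` -/
def om (g : Bil) (J : End) : Bil := g.comp J

/-! ### Calculus -/

/-- exterior derivative of a one-form -/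
def d1 (γ : E → Cov) (p : E) : Bil := fderiv ℝ γ p - (fderiv ℝ γ p).flip

@[simp] theorem d1_apply (γ : E → Cov) (p u v : E) :
    d1 γ p u v = fderiv ℝ γ p u v - fderiv ℝ γ p v u := by simp [d1]

/-- the exterior derivative of the two-form `β` vanishes at `p` -/
def ClosedAt (β : E → Bil) (p : E) : Prop :=
  ∀ u v w, fderiv ℝ β p u v w + fderiv ℝ β p v w u + fderiv ℝ β p w u v = 0

section jets
variable {D F : Type} [NormedAddCommGroup D] [NormedSpace ℝ D] [NormedAddCommGroup F]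
  [NormedSpace ℝ F]

/-- all derivatives of order `≤ k` at `p` are bounded by `M` -/
def JB (f : D → F) (k : ℕ) (p : D) (M : ℝ) : Prop := ∀ i ≤ k, ‖iteratedFDeriv ℝ i f p‖ ≤ M

/-- scaled jet bound at scale `t` -/
def SJB (f : D → F) (k : ℕ) (t : ℝ) (p : D) (M : ℝ) : Prop :=
  ∀ i ≤ k, t ^ i * ‖iteratedFDeriv ℝ i f p‖ ≤ M

/-- smooth on the whole space and zero outside the closed ball of radius `r` -/
def Supp (r : ℝ) (f : D → F) : Prop := ContDiff ℝ ∞ f ∧ ∀ p, p ∉ closedBall (0 : D) r → f p = 0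

end jets

/-- local smooth two-form supported in the closed ball of radius `r` -/
def IsLoc (r : ℝ) (s : E → Bil) : Prop := Supp r s ∧ ∀ p, IsAlt (s p)

/-- local majorant norm at scale `t` -/
def LMaj (s : E → Bil) (k : ℕ) (t C0 c : ℝ) : Prop :=
  ∃ f : E → ℝ, Measurable f ∧ (∀ p, 0 ≤ f p) ∧ Integrable (fun p => f p ^ 2) ∧
    ∫ p, f p ^ 2 ≤ c ^ 2 ∧ ∀ p, ∀ q ∈ closedBall p (C0 * t), SJB s k t q (f p)

/-- mass of the part of `μ` over the closed ball of centre `x` and radius `s` -/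
def bm (μ : Measure (E × E)) (x : E) (s : ℝ) : ℝ := μ.real (Prod.fst ⁻¹' closedBall x s)

/-- points of positive upper two-density -/
def Zs (μ : Measure (E × E)) : Set E :=
  {p | ¬ Tendsto (fun n : ℕ => bm μ p (1 / ((n : ℝ) + 1)) * ((n : ℝ) + 1) ^ 2) atTop (𝓝 0)}

/-! ### The abstract atlas -/

/-- A finite atlas of a closed four-manifold, each chart being the ball of radius 4, together
with a partition of unity, an almost complex structure and a taming closed form, all charts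
being positively oriented. -/
structure Atlas where
  n : ℕ
  npos : 0 < n
  O : Fin n → Fin n → Set E
  τ : Fin n → Fin n → E → E
  isOpen_O : ∀ i j, IsOpen (O i j)
  O_sub : ∀ i j, O i j ⊆ ball 0 4
  O_self : ∀ i, O i i = ball 0 4
  τ_self : ∀ i, ∀ p ∈ ball (0 : E) 4, τ i i p = p
  τ_smooth : ∀ i j, ContDiffOn ℝ ∞ (τ i j) (O i j)
  maps : ∀ i j, ∀ p ∈ O i j, τ i j p ∈ O j i
  cocycle : ∀ i j l, ∀ p ∈ O i j, τ i j p ∈ O j l → p ∈ O i l ∧ τ j l (τ i j p) = τ i l p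
  haus : ∀ i j (r r' : ℝ), r < 4 → r' < 4 →
    IsClosed {p : E | p ∈ closedBall (0 : E) r ∧ p ∈ O i j ∧ τ i j p ∈ closedBall (0 : E) r'}
  cover : ∀ i, ∀ p ∈ ball (0 : E) 4, ∃ j, p ∈ O i j ∧ τ i j p ∈ closedBall (0 : E) 1
  chi : Fin n → E → ℝ
  chi_supp : ∀ j, Supp 1 (chi j)
  chi_nonneg : ∀ j p, 0 ≤ chi j p
  chi_le : ∀ j p, chi j p ≤ 1
  chi_sum : ∀ i, ∀ p ∈ ball (0 : E) 4, ∑ j, (O i j).indicator (fun q => chi j (τ i j q)) p = 1
  J : Fin n → E → End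
  J_smooth : ∀ j, ContDiffOn ℝ ∞ (J j) (ball 0 4)
  J_sq : ∀ j, ∀ p ∈ ball (0 : E) 4, ∀ v, J j p (J j p v) = -v
  J_compat : ∀ i j, ∀ p ∈ O i j, ∀ v,
    fderiv ℝ (τ i j) p (J i p v) = J j (τ i j p) (fderiv ℝ (τ i j) p v)
  Ω : Fin n → E → Bil
  Ω_smooth : ∀ j, ContDiffOn ℝ ∞ (Ω j) (ball 0 4)
  Ω_alt : ∀ j p, IsAlt (Ω j p)
  Ω_zero : ∀ j p, p ∉ ball (0 : E) 4 → Ω j p = 0
  Ω_compat : ∀ i j, ∀ p ∈ O i j, Ω i p = pullL (fderiv ℝ (τ i j) p) (Ω j (τ i j p))
  Ω_closed : ∀ j, ∀ p ∈ ball (0 : E) 4, ClosedAt (Ω j) p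
  Ω_tame : ∀ j, ∀ p ∈ ball (0 : E) 4, ∀ v, v ≠ 0 → 0 < Ω j p v (J j p v)
  orient : ∀ j, ∀ p ∈ ball (0 : E) 4, 0 < WL (pp (J j p) (Ω j p)) (pp (J j p) (Ω j p))

namespace Atlas

variable (𝒜 : Atlas)

/-- the metric in chart `j` -/
def g (j : Fin 𝒜.n) (p : E) : Bil := gOf (𝒜.Ω j p) (𝒜.J j p)

/-- smooth two-forms: compatible families, normalised to vanish outside the chart domains -/
def Form : Submodule ℝ (Fin 𝒜.n → E → Bil) where
  carrier := {β | (∀ j, ContDiffOn ℝ ∞ (β j) (ball 0 4)) ∧ (∀ j p, IsAlt (β j p)) ∧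
    (∀ j p, p ∉ ball (0 : E) 4 → β j p = 0) ∧
    ∀ i j, ∀ p ∈ 𝒜.O i j, β i p = pullL (fderiv ℝ (𝒜.τ i j) p) (β j (𝒜.τ i j p))}
  add_mem' := by
    rintro a b ⟨a1, a2, a3, a4⟩ ⟨b1, b2, b3, b4⟩
    refine ⟨fun j => (a1 j).add (b1 j), fun j p u v => ?_, fun j p hp => ?_, fun i j p hp => ?_⟩
    · simp only [Pi.add_apply, add_apply]
      rw [a2 j p u v, b2 j p u v]; ring
    · simp [a3 j p hp, b3 j p hp]
    · simp only [Pi.add_apply, map_add]
      rw [a4 i j p hp, b4 i j p hp]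
  zero_mem' := ⟨fun _ => contDiffOn_const, fun _ _ _ _ => by simp, fun _ _ _ => rfl,
    fun _ _ _ _ => by simp⟩
  smul_mem' := by
    rintro c a ⟨a1, a2, a3, a4⟩
    refine ⟨fun j => (a1 j).const_smul c, fun j p u v => ?_, fun j p hp => ?_, fun i j p hp => ?_⟩
    · simp only [Pi.smul_apply, smul_apply, smul_eq_mul]
      rw [a2 j p u v]; ring
    · simp [a3 j p hp]
    · simp only [Pi.smul_apply, map_smul]
      rw [a4 i j p hp]

/-- the taming form -/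
def ΩF : 𝒜.Form := ⟨𝒜.Ω, 𝒜.Ω_smooth, 𝒜.Ω_alt, 𝒜.Ω_zero, 𝒜.Ω_compat⟩

/-- smooth one-forms (no normalisation) -/
def IsForm1 (γ : Fin 𝒜.n → E → Cov) : Prop :=
  (∀ j, ContDiffOn ℝ ∞ (γ j) (ball 0 4)) ∧
    ∀ i j, ∀ p ∈ 𝒜.O i j, γ i p = (γ j (𝒜.τ i j p)).comp (fderiv ℝ (𝒜.τ i j) p)

variable {𝒜}

def Closed (β : 𝒜.Form) : Prop := ∀ j, ∀ p ∈ ball (0 : E) 4, ClosedAt (β.1 j) p

def Exact (β : 𝒜.Form) : Prop :=
  ∃ γ, 𝒜.IsForm1 γ ∧ ∀ j, ∀ p ∈ ball (0 : E) 4, β.1 j p = d1 (γ j) p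

/-- `C^k` bound -/
def Cn (k : ℕ) (β : 𝒜.Form) (M : ℝ) : Prop := ∀ j, ∀ p ∈ closedBall (0 : E) 1, JB (β.1 j) k p M

/-- a functional of order `k` -/
def FinOrd (S : 𝒜.Form →ₗ[ℝ] ℝ) (k : ℕ) (C : ℝ) : Prop := ∀ β M, Cn k β M → |S β| ≤ C * M

/-- majorant norm at scale `t` -/
def Maj (σ : 𝒜.Form) (k : ℕ) (t c : ℝ) : Prop :=
  ∃ f : Fin 𝒜.n → E → ℝ, (∀ j, Measurable (f j)) ∧ (∀ j p, 0 ≤ f j p) ∧
    (∀ j, IntegrableOn (fun p => f j p ^ 2) (closedBall 0 2)) ∧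
    ∑ j, ∫ p in closedBall (0 : E) 2, f j p ^ 2 ≤ c ^ 2 ∧
    ∀ j, ∀ p ∈ closedBall (0 : E) 2, ∀ q ∈ closedBall p t, SJB (σ.1 j) k t q (f j p)

def L2 (β : 𝒜.Form) : ℝ := √(∑ j, ∫ p in closedBall (0 : E) 1, 𝒜.chi j p * ‖β.1 j p‖ ^ 2)

def L1 (β : 𝒜.Form) : ℝ := ∑ j, ∫ p in closedBall (0 : E) 1, 𝒜.chi j p * ‖β.1 j p‖

variable (𝒜)

open Classical in
/-- extension by zero of a local two-form in chart `l`, as a family -/
def extF (l : Fin 𝒜.n) (s : E → Bil) : Fin 𝒜.n → E → Bil := fun i p =>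
  if p ∈ 𝒜.O i l then pullL (fderiv ℝ (𝒜.τ i l) p) (s (𝒜.τ i l p)) else 0

open Classical in
/-- extension by zero of a local two-form in chart `l` -/
def ext (l : Fin 𝒜.n) (s : E → Bil) : 𝒜.Form :=
  if h : 𝒜.extF l s ∈ 𝒜.Form then ⟨𝒜.extF l s, h⟩ else 0

/-- the compact overlap of the closed balls of radii `r` (chart `i`) and `r'` (chart `j`) -/
def ov (i j : Fin 𝒜.n) (r r' : ℝ) : Set E :=
  {p : E | p ∈ closedBall (0 : E) r ∧ p ∈ 𝒜.O i j ∧ 𝒜.τ i j p ∈ closedBall (0 : E) r'}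

/-- a positive current: a finite measure on unit vectors over the unit balls of the charts -/
structure PM where
  m : Fin 𝒜.n → Measure (E × E)
  fin : ∀ j, IsFiniteMeasure (m j)
  supp : ∀ j, ∀ᵐ y ∂(m j), y.1 ∈ closedBall (0 : E) 1 ∧ ‖y.2‖ = 1

variable {𝒜}

instance (T : 𝒜.PM) (j : Fin 𝒜.n) : IsFiniteMeasure (T.m j) := T.fin j

def PM.mass (T : 𝒜.PM) : ℝ := ∑ j, (T.m j).real univ

/-- restriction to base points in `Z` -/
def PM.restr (T : 𝒜.PM) (Z : Fin 𝒜.n → Set E) : 𝒜.PM where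
  m j := (T.m j).restrict (Prod.fst ⁻¹' Z j)
  fin _ := inferInstance
  supp j := ae_restrict_of_ae (T.supp j)

/-- the whole current seen in chart `j`, over the closed ball of radius 3 -/
def PM.tr (T : 𝒜.PM) (j : Fin 𝒜.n) : Measure (E × E) :=
  ∑ i, Measure.map (fun y : E × E => (𝒜.τ i j y.1, fderiv ℝ (𝒜.τ i j) y.1 y.2))
    ((T.m i).restrict (Prod.fst ⁻¹' 𝒜.ov i j 1 3))

end Atlas

end

end Vale.Agent.P204
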