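import Vale.Agent.P204.Bt2
import Vale.Agent.P204.Bt3

/-!
P204 El1: the dual elliptic estimate.
Plan: `dual_rbd`: for small `t` take `η` representing `A ∘ Am ∘ R t` (`rep_am`) and `ξ` representing
`μ ∘ R t` (field `rep`); `η + ξ` represents `S ∘ R t`, `S = A ∘ Am + μ`, is closed (`closed_rep`,
`Exact.closed`), so `pair (η+ξ) (η+ξ) = S (R (η+ξ)) = 0` (field `closed`); `am_bound`, `rep_ord`,
`rep_ABd`, `rbd_of_rep`. `dual_est`: `q = j + 2`. Stage 1: `boot` with `K' = max K j`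
(`t₀` so small that `C t₀ ≤ η₀`), then `dual_rbd` gives `RBd t (N / t^q)`, and `order_red` gives order
`j + 3`. Stage 2: `boot` with `K = j + 3` at the fixed scale `ε = t₀(j)`, then `Maj_of_Cn`.
-/

namespace Vale.Agent.P204

open scoped ContDiff Topology
open Metric MeasureTheory Set Filter

noncomputable section

namespace Atlas

variable {𝒜 : Atlas}

theorem Reg.dual_rbd (ℛ : 𝒜.Reg) (j k : ℕ) : ∃ C ≥ 1, ∃ t₀ > 0, ∀ (A μ : 𝒜.Form →ₗ[ℝ] ℝ) (K : ℕ)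
    (CA : ℝ), AOrd A K CA → FinOrd μ j 1 → (∀ β, Closed β → A (𝒜.Am β) + μ β = 0) →
    ∀ t ∈ Ioc (0 : ℝ) t₀, ∀ α ≥ 0, ABd A k t α → ℛ.RBd A t (C / t ^ (j + 2) + C * t * α) := by
  obtain ⟨Cb, hCb, hb⟩ := am_bound (𝒜 := 𝒜)
  obtain ⟨Co, hCo, t1, ht1, ho⟩ := ℛ.rep_ord j
  obtain ⟨Ca, hCa, t2, ht2, ha⟩ := ℛ.rep_ABd k
  obtain ⟨t3, ht3, h3⟩ := ℛ.rep_am
  obtain ⟨t4, ht4, h4⟩ := ℛ.rep
  obtain ⟨t5, ht5, h5⟩ := ℛ.closed_rep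
  obtain ⟨t6, ht6, h6⟩ := ℛ.closed
  refine ⟨6 * Cb * (Co + Ca), by nlinarith, min (min t1 t2) (min (min t3 t4) (min t5 t6)),
    by positivity, fun A μ K CA hA hμ hS t ht α hα hAB => ?_⟩
  obtain ⟨t0, htl⟩ := ht
  simp only [le_min_iff] at htl
  obtain ⟨⟨l1, l2⟩, ⟨l3, l4⟩, l5, l6⟩ := htl
  obtain ⟨η, hη⟩ := h3 t ⟨t0, l3⟩ A K CA hA
  obtain ⟨ξ, hξ⟩ := h4 t ⟨t0, l4⟩ μ j 1 hμ
  have hrep : Rep (η + ξ) ((A ∘ₗ 𝒜.Am + μ) ∘ₗ ℛ.R t) := fun β => by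
    rw [map_add, LinearMap.add_apply, hη β, hξ β]
    rfl
  have hcl : Closed (η + ξ) := h5 t ⟨t0, l5⟩ _ _ (fun β hβ => hS β hβ.closed) hrep
  have hp : 𝒜.pair (η + ξ) (η + ξ) = 0 := (hrep _).trans (hS _ (h6 t ⟨t0, l6⟩ _ hcl))
  have e1 := hb η ξ hp
  have e2 := ho t ⟨t0, l1⟩ μ ξ hμ hξ
  have e3 := (ha t ⟨t0, l2⟩ A η α hα hη hAB).1
  refine (ℛ.rbd_of_rep hη).mono ?_
  have p1 : 0 < 1 / t ^ (j + 2) := by positivity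
  have p2 : 0 ≤ t * α := by positivity
  have e4 : L2 (𝒜.Am η) ≤ Cb * (Co * (1 / t ^ (j + 2)) + Ca * (t * α)) := by
    refine e1.trans (mul_le_mul_of_nonneg_left (add_le_add ?_ ?_) (by linarith))
    · rwa [mul_one_div]
    · rwa [← mul_assoc]
  rw [← mul_one_div (6 * Cb * (Co + Ca)), mul_assoc _ t α]
  generalize 1 / t ^ (j + 2) = x at *
  generalize t * α = y at *
  have q1 : 0 ≤ Cb * (Ca * x) := by positivity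
  have q2 : 0 ≤ Cb * (Co * y) := by positivity
  nlinarith

theorem Reg.dual_El1 (ℛ : 𝒜.Reg) (j K : ℕ) (hK : j ≤ K) : ∃ N ≥ 0, ∃ N', ∃ t₀ > 0, t₀ ≤ 1 ∧
    ∀ (A μ : 𝒜.Form →ₗ[ℝ] ℝ) (CA : ℝ), AOrd A K CA → FinOrd μ j 1 →
    (∀ β, Closed β → A (𝒜.Am β) + μ β = 0) → ∀ t ∈ Ioc (0 : ℝ) t₀,
      ABd A (K + 3) t (N / t ^ (j + 2)) ∧ ℛ.RBd A t (N' / t ^ (j + 2)) := by
  obtain ⟨η₀, hη₀, C, hC, ε₁, hε₁, hε, hb⟩ := ℛ.boot K (j + 2) (by omega)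
  obtain ⟨D, hD, t1, ht1, hd⟩ := ℛ.dual_rbd j (K + 3)
  have D0 : 0 < D := by linarith
  have m1 : min ε₁ (min t1 (η₀ / D)) ≤ ε₁ := min_le_left _ _
  have m2 : min ε₁ (min t1 (η₀ / D)) ≤ t1 := (min_le_right _ _).trans (min_le_left _ _)
  have m3 : min ε₁ (min t1 (η₀ / D)) ≤ η₀ / D := (min_le_right _ _).trans (min_le_right _ _)
  refine ⟨C * D, by positivity, D + D * (C * D), min ε₁ (min t1 (η₀ / D)), by positivity,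
    m1.trans hε, fun A μ CA hA hμ hS t ht => ?_⟩
  have h1 := hb A CA hA D D0.le _ ⟨by positivity, m1⟩ (fun s hs α hα hAB => by
    refine (hd A μ K CA hA hμ hS s ⟨hs.1, hs.2.trans m2⟩ α hα hAB).mono ?_
    have := (le_div_iff₀ D0).1 (hs.2.trans m3)
    nlinarith) t ht
  have t0 := ht.1
  have tl : t ≤ 1 := ht.2.trans (m1.trans hε)
  refine ⟨h1, (hd A μ K CA hA hμ hS t ⟨t0, ht.2.trans m2⟩ _ (by positivity) h1).mono ?_⟩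
  rw [add_div, mul_div_assoc D (C * D)]
  have p : 0 ≤ D * (C * D / t ^ (j + 2)) := by positivity
  nlinarith

theorem Reg.dual_est (ℛ : 𝒜.Reg) (j : ℕ) : ∃ C ≥ 1, ∀ (A μ : 𝒜.Form →ₗ[ℝ] ℝ) (K : ℕ) (CA : ℝ),
    AOrd A K CA → FinOrd μ j 1 → (∀ β, Closed β → A (𝒜.Am β) + μ β = 0) → AOrd A (j + 6) C := by
  obtain ⟨N, hN, N₂, ε, hε, hε1, h2⟩ := ℛ.dual_El1 j (j + 3) (by omega)
  obtain ⟨Cm, hCm, hm⟩ := Maj_of_Cn (𝒜 := 𝒜) (j + 6)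
  refine ⟨max 1 (N / ε ^ (j + 2) * Cm), le_max_left _ _, fun A μ K CA hA hμ hS => ?_⟩
  obtain ⟨_, -, N', t₀, ht₀, -, h1⟩ := ℛ.dual_El1 j (max K j) (le_max_right _ _)
  have hA' : AOrd A (max K j) CA := fun σ M hσ hM => hA σ M hσ (hM.mono (le_max_left _ _) le_rfl)
  obtain ⟨C', hC'⟩ := ℛ.order_red (max K j) (j + 2) ht₀ A hA' fun t ht =>
    (h1 A μ CA hA' hμ hS t ht).2
  intro σ M hσ hM
  have M0 := hM.nonneg
  have := (h2 A μ C' hC' hμ hS ε ⟨hε, le_rfl⟩).1 σ (Cm * M) hσ (by positivity)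
    (hm ε ⟨hε, hε1⟩ σ M hM)
  rw [← mul_assoc] at this
  exact this.trans (mul_le_mul_of_nonneg_right (le_max_right _ _) M0)

end Atlas

end

end Vale.Agent.P204
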