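import Vale.Agent.P204.El1

/-!
P204 El2: one approximation step, by Hahn-Banach.
Plan: fix `Λ > 0`. `N σ = sInf {cn j β + Λ cn K (σ - Am β) | β closed}` is sublinear
(`cn_add_le`, `cn_smul`, `Closed.add`, `Closed.smul`) and `N (-σ) = N σ`. `exists_extension_of_le_sublinear`
from the line through `σ₀` (`LinearPMap.mkSpanSingleton`, treat `σ₀ = 0` apart) gives `A` with
`A σ₀ = N σ₀`, `|A| ≤ N`; so `FinOrd A K Λ` and `|A (Am β)| ≤ cn j β` for closed `β`. Extend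
`β ↦ - A (Am β)` from the submodule of closed forms to `μ ≤ cn j`. `dual_est` gives
`N σ₀ ≤ C M`; take `Λ ≥ (C M + ε) / ε` and a near minimiser.
-/

namespace Vale.Agent.P204

open scoped ContDiff Topology
open Metric MeasureTheory Set Filter

noncomputable section

theorem el2_hb {Z : Type*} [AddCommGroup Z] [Module ℝ Z] (P : Z → ℝ) (P0 : ∀ z, 0 ≤ P z)
    (Ps : ∀ (c : ℝ) z, P (c • z) = |c| * P z) (Pa : ∀ x y, P (x + y) ≤ P x + P y)
    (G : Submodule ℝ Z) (z₀ : Z) : ∃ L : Z →ₗ[ℝ] ℝ, (∀ z, |L z| ≤ P z) ∧ (∀ g ∈ G, L g = 0) ∧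
      ∀ δ > 0, ∃ g ∈ G, P (z₀ - g) ≤ L z₀ + δ := by
  obtain ⟨N, hN⟩ : ∃ N : Z → ℝ, ∀ z, N z = ⨅ g : G, P (z - g) := ⟨_, fun _ => rfl⟩
  have h1 : ∀ z, ∀ g ∈ G, N z ≤ P (z - g) := fun z g hg =>
    hN z ▸ ciInf_le ⟨0, forall_mem_range.2 fun _ => P0 _⟩ (⟨g, hg⟩ : G)
  have h0 : ∀ z, 0 ≤ N z := fun z => hN z ▸ le_ciInf fun _ => P0 _
  have h2 : ∀ (c : ℝ) z, N (c • z) ≤ |c| * N z := fun c z => by
    rw [hN z, Real.mul_iInf_of_nonneg (abs_nonneg c)]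
    exact le_ciInf fun g => (h1 _ _ (G.smul_mem c g.2)).trans_eq (by rw [← smul_sub, Ps])
  have h3 : ∀ c : ℝ, 0 < c → ∀ z, N (c • z) = c * N z := fun c hc z => by
    have a := h2 c z
    have b := h2 c⁻¹ (c • z)
    rw [abs_of_pos hc] at a
    rw [inv_smul_smul₀ hc.ne', abs_of_pos (inv_pos.2 hc), le_inv_mul_iff₀ hc] at b
    exact le_antisymm a b
  have h4 : ∀ x y, N (x + y) ≤ N x + N y := fun x y => by
    rw [hN x, hN y]
    exact le_ciInf_add_ciInf fun g g' => (h1 _ _ (G.add_mem g.2 g'.2)).trans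
      (by rw [add_sub_add_comm]; exact Pa _ _)
  have h5 : ∀ g ∈ G, N g ≤ 0 := fun g hg => (h1 g g hg).trans_eq (by
    simpa using Ps 0 0)
  have H : ∀ c : ℝ, c • z₀ = 0 → (RingHom.id ℝ) c • N z₀ = 0 := fun c hc => by
    rcases smul_eq_zero.1 hc with rfl | rfl
    · simp
    · simp [le_antisymm (h5 0 G.zero_mem) (h0 0)]
  obtain ⟨L, e1, e2⟩ := exists_extension_of_le_sublinear
    (LinearPMap.mkSpanSingleton' z₀ (N z₀) H) N h3 h4 (by
      rintro ⟨x, hx⟩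
      obtain ⟨c, rfl⟩ := Submodule.mem_span_singleton.1 hx
      rw [LinearPMap.mkSpanSingleton'_apply]
      rcases le_or_gt c 0 with hc | hc
      · exact (mul_nonpos_of_nonpos_of_nonneg hc (h0 _)).trans (h0 _)
      · exact (h3 c hc _).ge)
  have e3 : L z₀ = N z₀ := (e1 ⟨z₀, Submodule.mem_span_singleton_self z₀⟩).trans
    (LinearPMap.mkSpanSingleton'_apply_self _ _ _ _)
  have e4 : ∀ z, L z ≤ P z := fun z => (e2 z).trans (by simpa using h1 z 0 G.zero_mem)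
  refine ⟨L, fun z => abs_le.2 ⟨?_, e4 z⟩, fun g hg => le_antisymm ((e2 g).trans (h5 g hg)) ?_,
    fun δ hδ => ?_⟩
  · have a := e4 ((-1 : ℝ) • z)
    rw [Ps, map_smul] at a
    simp only [smul_eq_mul, abs_neg, abs_one] at a
    linarith
  · have a := (e2 (-g)).trans (h5 _ (G.neg_mem hg))
    rwa [map_neg, neg_nonpos] at a
  · obtain ⟨g, hg⟩ := exists_lt_of_ciInf_lt (f := fun g : G => P (z₀ - g))
      (a := N z₀ + δ) (hN z₀ ▸ lt_add_of_pos_right _ hδ)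
    exact ⟨g, g.2, e3 ▸ hg.le⟩

namespace Atlas

variable {𝒜 : Atlas}

theorem Reg.approx_step (ℛ : 𝒜.Reg) (j : ℕ) : ∃ C ≥ 1, ∀ (K : ℕ) (ε : ℝ), 0 < ε →
    ∀ (σ : 𝒜.Form) (M : ℝ), Anti σ → Cn (j + 6) σ M →
      ∃ β, Closed β ∧ Cn j β (C * M + ε) ∧ Cn K (σ - 𝒜.Am β) ε := by
  obtain ⟨C, hC, hd⟩ := ℛ.dual_est j
  refine ⟨C, hC, fun K ε hε σ M hσ hM => ?_⟩
  have hM0 := hM.nonneg
  obtain ⟨Λ, hΛ, eΛ⟩ : ∃ Λ : ℝ, 0 < Λ ∧ Λ * ε = C * M + ε :=
    ⟨(C * M + ε) / ε, by positivity, div_mul_cancel₀ _ hε.ne'⟩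
  let W : Submodule ℝ 𝒜.Form :=
    { carrier := {β | Closed β}
      add_mem' := Closed.add
      zero_mem' := closed_zero
      smul_mem' := fun c _ h => Closed.smul h c }
  obtain ⟨L, h1, h2, h3⟩ := el2_hb (fun z : 𝒜.Form × 𝒜.Form => cn j z.1 + Λ * cn K z.2)
    (fun z => add_nonneg (cn_nonneg _ _) (mul_nonneg hΛ.le (cn_nonneg _ _)))
    (fun c z => by
      simp only [Prod.smul_fst, Prod.smul_snd, cn_smul]
      ring)
    (fun x y => by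
      have a := cn_add_le j x.1 y.1
      have b := mul_le_mul_of_nonneg_left (cn_add_le K x.2 y.2) hΛ.le
      simp only [Prod.fst_add, Prod.snd_add]
      linarith)
    (W.map (LinearMap.id.prod 𝒜.Am)) (0, σ)
  have z0 : ∀ k, cn k (0 : 𝒜.Form) = 0 := fun k => by simpa using cn_smul k 0 (0 : 𝒜.Form)
  have h4 := hd (L ∘ₗ LinearMap.inr ℝ _ _) (L ∘ₗ LinearMap.inl ℝ _ _) K Λ
    (fun β N _ hβ => (h1 (0, β)).trans (by
      simpa only [z0, zero_add] using mul_le_mul_of_nonneg_left (cn_le hβ) hΛ.le))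
    (fun β N hβ => (h1 (β, 0)).trans (by
      simpa only [z0, mul_zero, add_zero, one_mul] using cn_le hβ))
    (fun β hβ => by
      have h5 := h2 (β, 𝒜.Am β) ⟨β, hβ, rfl⟩
      rw [← h5, add_comm]
      exact (L.map_add _ _).symm.trans (congrArg L (Prod.ext (add_zero _) (zero_add _)))) σ M hσ hM
  obtain ⟨_, ⟨β, hβ, rfl⟩, h5⟩ := h3 ε hε
  have h6 : cn j (0 - β) + Λ * cn K (σ - 𝒜.Am β) ≤ C * M + ε :=
    h5.trans (add_le_add_left ((le_abs_self _).trans h4) _)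
  have h7 := cn_nonneg j (0 - β)
  have h8 := mul_nonneg hΛ.le (cn_nonneg K (σ - 𝒜.Am β))
  refine ⟨β, hβ, ?_, (Cn_cn _ _).mono le_rfl (le_of_mul_le_mul_left (by linarith) hΛ)⟩
  have h9 := ((Cn_cn j (0 - β)).mono le_rfl (by linarith : _ ≤ C * M + ε)).neg
  rwa [zero_sub, neg_neg] at h9

end Atlas

end

end Vale.Agent.P204
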