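import Vale.Agent.P204.At5

/-!
P204 El3: convergence of series of forms in `C^∞`.
Plan: for each chart `l` put `s l n = chi l • (β n) l` (`isLoc_cut`); for `n ≥ k` its derivatives of
order `≤ k` are bounded by `C_k e n` everywhere (`SJB.smul`, `jb_supp`, zero outside the unit ball).
`contDiff_tsum_of_eventually` gives that `s l = ∑' n, s l n` is smooth, `IsLoc 1`; put
`β' = ∑ l, ext l (s l)`. The tail: `β' - ∑_{i<N} β i = ∑ l, ext l (∑' n, s l (n+N))`
(`sum_ext_chi`, `ext_sum`, `ext_add`), jets of the tail by `iteratedFDeriv_tsum_apply` or by applying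
the same smoothness theorem, then `cmp` (radii 1, 1; outside `ov` the jets vanish).
`closed_of_lim`: `ClosedAt` is a closed condition on the first derivative (`Cn_jb 1`).
-/

namespace Vale.Agent.P204

open scoped ContDiff Topology
open Metric MeasureTheory Set Filter

noncomputable section

theorem ser_El3 {s : ℕ → E → Bil} {e : ℕ → ℝ} (he : Summable e) (hs : ∀ n, IsLoc 1 (s n))
    (hb : ∀ k : ℕ, ∃ C : ℝ, ∀ n, k ≤ n → ∀ p, JB (s n) k p (C * e n)) :
    (∀ N, IsLoc 1 (fun p => ∑' n, s (n + N) p)) ∧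
    (∀ N p, ∑' n, s (n + 0) p = ∑ i ∈ Finset.range N, s i p + ∑' n, s (n + N) p) ∧
    ∀ (k : ℕ) (ε : ℝ), 0 < ε → ∀ᶠ N in atTop, ∀ p, JB (fun p => ∑' n, s (n + N) p) k p ε := by
  choose C hC using hb
  have hsum : ∀ p, Summable fun n => s n p := fun p =>
    Summable.of_norm_bounded (he.mul_left (C 0)) fun n => by
      simpa only [norm_iteratedFDeriv_zero] using hC 0 n (Nat.zero_le _) p 0 le_rfl
  have hsN : ∀ N p, Summable fun n => s (n + N) p := fun N p =>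
    (summable_nat_add_iff N).2 (hsum p)
  have heN : ∀ N, Summable fun n => e (n + N) := fun N => (summable_nat_add_iff N).2 he
  refine ⟨fun N => ⟨⟨?_, fun p hp => ?_⟩, fun p u v => ?_⟩, fun N p => ?_, fun k ε hε => ?_⟩
  · refine contDiff_tsum_of_eventually (N := ⊤) (v := fun k n => C k * e (n + N))
      (fun n => (hs (n + N)).1.1) (fun k _ => (heN N).mul_left _) fun k _ => ?_
    rw [Nat.cofinite_eq_atTop]
    filter_upwards [eventually_ge_atTop k] with n hn p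
    exact hC k (n + N) (by omega) p k le_rfl
  · simp only [fun n => (hs n).1.2 p hp, tsum_zero]
  · have h1 := (hsN N p).hasSum.mapL
      ((ContinuousLinearMap.apply ℝ ℝ v).comp (ContinuousLinearMap.apply ℝ Cov u))
    have h2 := ((hsN N p).hasSum.mapL
      ((ContinuousLinearMap.apply ℝ ℝ u).comp (ContinuousLinearMap.apply ℝ Cov v))).neg
    simp only [ContinuousLinearMap.comp_apply, ContinuousLinearMap.apply_apply] at h1 h2
    have h3 : (fun n => s (n + N) p u v) = fun n => -s (n + N) p v u :=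
      funext fun n => (hs (n + N)).2 p u v
    rw [h3] at h1
    exact h1.unique h2
  · simp only [Nat.add_zero]
    exact ((hsum p).sum_add_tsum_nat_add N).symm
  · have ht : Tendsto (fun N => C k * ∑' n, e (n + N)) atTop (𝓝 (C k * 0)) :=
      (tendsto_sum_nat_add e).const_mul _
    rw [mul_zero] at ht
    filter_upwards [eventually_ge_atTop k, ht.eventually (gt_mem_nhds hε)] with N hN hN' p i hi
    have hik : ((i : ℕ) : ℕ∞) ≤ (k : ℕ∞) := by exact_mod_cast hi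
    rw [iteratedFDeriv_tsum_apply (N := (k : ℕ∞)) (v := fun _ n => C k * e (n + N))
      (fun n => (hs (n + N)).1.1.of_le (by exact_mod_cast le_top))
      (fun _ _ => (heN N).mul_left _)
      (fun j n x hj => hC k (n + N) (by omega) x j (by exact_mod_cast hj)) hik]
    refine le_trans (tsum_of_norm_bounded ((heN N).hasSum.mul_left (C k)) fun n => ?_) hN'.le
    exact hC k (n + N) (by omega) p i hi

theorem ev0_El3 {F : Type} [NormedAddCommGroup F] [NormedSpace ℝ F] {f : E → F}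
    (hf : Supp 1 f) {p : E} (hp : p ∉ closedBall (0 : E) 1) : f =ᶠ[𝓝 p] fun _ => 0 := by
  filter_upwards [isClosed_closedBall.isOpen_compl.mem_nhds hp] with q hq
  exact hf.2 q hq

namespace Atlas

variable {𝒜 : Atlas}

theorem cut_El3 (l : Fin 𝒜.n) (k : ℕ) : ∃ C : ℝ, ∀ (β : 𝒜.Form) (M : ℝ), Cn k β M →
    ∀ p, JB (fun p => 𝒜.chi l p • β.1 l p) k p (C * M) := by
  obtain ⟨b, hb1, hb⟩ := jb_supp (𝒜.chi_supp l) k
  refine ⟨2 ^ k * b, fun β M h p => ?_⟩
  rw [JB_iff_SJB]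
  by_cases hp : p ∈ closedBall (0 : E) 1
  · exact SJB.smul zero_le_one (𝒜.chi_supp l).1.contDiffAt
      (Form.contDiffAt β l (cb_sub (by norm_num) hp)) ((JB_iff_SJB _ _ _ _).1 (hb p))
      ((JB_iff_SJB _ _ _ _).1 (h l p hp))
  · refine (SJB_of_eventually_zero
      (ev0_El3 (isLoc_cut l (by norm_num) (𝒜.chi_supp l) β).1 hp)).mono le_rfl ?_
    have := h.nonneg
    positivity

theorem ext_El3 (k : ℕ) : ∃ C ≥ 1, ∀ (l : Fin 𝒜.n) (s : E → Bil) (M : ℝ), IsLoc 1 s →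
    (∀ p, JB s k p M) → Cn k (𝒜.ext l s) (C * M) := by
  have h14 : (1 : ℝ) < 4 := by norm_num
  obtain ⟨C, hC1, hC⟩ := cmp (𝒜 := 𝒜) k h14 h14
  refine ⟨C, hC1, fun l s M hs h i p hp => ?_⟩
  have hM : 0 ≤ M := ((JB_iff_SJB _ _ _ _).1 (h 0)).nonneg
  have hCM : 0 ≤ C * M := by positivity
  rw [JB_iff_SJB]
  by_cases hO : p ∈ 𝒜.O i l
  · by_cases hτ : 𝒜.τ i l p ∈ closedBall (0 : E) 1
    · refine hC (𝒜.ext l s) i l p ⟨hp, hO, hτ⟩ 1 M one_pos le_rfl ?_
      rw [ext_self l h14 hs]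
      exact (JB_iff_SJB _ _ _ _).1 (h _)
    · rw [ext_val l h14 hs]
      refine (SJB_of_eventually_zero ?_).mono le_rfl hCM
      have h1 := (τ_contDiffAt i l hO).continuousAt.eventually (ev0_El3 hs.1 hτ)
      filter_upwards [extF_ev_At3 l i s hO, h1] with q hq hq'
      rw [hq, hq', map_zero]
  · rw [ext_val l h14 hs]
    exact (SJB_of_eventually_zero
      (extF_ev0_At3 l i h14 hs.1 (cb_sub h14 hp) hO)).mono le_rfl hCM

theorem sum_El3 {ι : Type} (I : Finset ι) {k : ℕ} {f : ι → 𝒜.Form} {M : ℝ}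
    (h : ∀ a ∈ I, Cn k (f a) M) : Cn k (∑ a ∈ I, f a) (I.card * M) := by
  classical
  induction I using Finset.induction_on with
  | empty => simpa using Cn_zero k
  | insert a I ha ih =>
    rw [Finset.sum_insert ha, Finset.card_insert_of_notMem ha]
    refine ((h a (Finset.mem_insert_self _ _)).add
      (ih fun b hb => h b (Finset.mem_insert_of_mem hb))).mono le_rfl (le_of_eq ?_)
    push_cast
    ring

theorem series (β : ℕ → 𝒜.Form) (e : ℕ → ℝ) (he : Summable e) (h : ∀ n, Cn n (β n) (e n)) :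
    ∃ β' : 𝒜.Form, ∀ (k : ℕ) (ε : ℝ), 0 < ε →
      ∀ᶠ N in atTop, Cn k (β' - ∑ i ∈ Finset.range N, β i) ε := by
  have h14 : (1 : ℝ) < 4 := by norm_num
  let s : Fin 𝒜.n → ℕ → E → Bil := fun l n p => 𝒜.chi l p • (β n).1 l p
  have hs : ∀ l n, IsLoc 1 (s l n) := fun l n => isLoc_cut l h14 (𝒜.chi_supp l) (β n)
  have hb : ∀ l (k : ℕ), ∃ C : ℝ, ∀ n, k ≤ n → ∀ p, JB (s l n) k p (C * e n) := fun l k => by
    obtain ⟨C, hC⟩ := cut_El3 l k
    exact ⟨C, fun n hn p => hC (β n) (e n) ((h n).mono hn le_rfl) p⟩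
  have H := fun l => ser_El3 he (hs l) (hb l)
  refine ⟨∑ l, 𝒜.ext l (fun p => ∑' n, s l (n + 0) p), fun k ε hε => ?_⟩
  obtain ⟨C, hC1, hC⟩ := ext_El3 (𝒜 := 𝒜) k
  have hn : (0 : ℝ) < 𝒜.n := by exact_mod_cast 𝒜.npos
  have hε' : 0 < ε / (𝒜.n * C) := by positivity
  have hev : ∀ᶠ N in atTop, ∀ l, ∀ p, JB (fun p => ∑' n, s l (n + N) p) k p (ε / (𝒜.n * C)) :=
    eventually_all.2 fun l => (H l).2.2 k _ hε'
  filter_upwards [hev] with N hN
  have hid : ∑ l, 𝒜.ext l (fun p => ∑' n, s l (n + 0) p) - ∑ i ∈ Finset.range N, β i =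
      ∑ l, 𝒜.ext l (fun p => ∑' n, s l (n + N) p) := by
    have h1 : ∀ l, 𝒜.ext l (fun p => ∑' n, s l (n + 0) p) =
        ∑ i ∈ Finset.range N, 𝒜.ext l (s l i) + 𝒜.ext l (fun p => ∑' n, s l (n + N) p) := by
      intro l
      rw [← ext_sum l h14 (Finset.range N) fun i _ => hs l i,
        ← ext_add l h14 (locSum_At3 (Finset.range N) fun i _ => hs l i) ((H l).1 N)]
      exact congrArg _ (funext fun p => (H l).2.1 N p)
    rw [Finset.sum_congr rfl fun l _ => h1 l, Finset.sum_add_distrib, Finset.sum_comm]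
    rw [Finset.sum_congr rfl fun i _ => sum_ext_chi (β i)]
    abel
  rw [hid]
  refine (sum_El3 Finset.univ fun l _ => hC l _ _ ((H l).1 N) (hN l)).mono le_rfl (le_of_eq ?_)
  rw [Finset.card_univ, Fintype.card_fin]
  field_simp

theorem closed_of_lim {β' : 𝒜.Form} {γ : ℕ → 𝒜.Form} (hγ : ∀ N, Closed (γ N))
    (h : ∀ ε : ℝ, 0 < ε → ∀ᶠ N in atTop, Cn 1 (β' - γ N) ε) : Closed β' := by
  intro j p hp u v w
  have hr : ‖p‖ < 4 := by simpa using hp
  obtain ⟨C, hC1, hC⟩ := Cn_jb (𝒜 := 𝒜) 1 hr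
  have hpc : p ∈ closedBall (0 : E) ‖p‖ := by simp
  have hK : 0 < 3 * C * (‖u‖ * ‖v‖ * ‖w‖) + 1 := by positivity
  refine abs_nonpos_iff.1 (le_of_forall_pos_le_add fun ε hε => ?_)
  obtain ⟨N, hN⟩ := (h (ε / (3 * C * (‖u‖ * ‖v‖ * ‖w‖) + 1)) (by positivity)).exists
  set δ := ε / (3 * C * (‖u‖ * ‖v‖ * ‖w‖) + 1) with hδ
  have hδ0 : 0 < δ := by positivity
  have h1 : ‖fderiv ℝ ((β' - γ N).1 j) p‖ ≤ C * δ := by
    rw [← norm_iteratedFDeriv_one]
    exact hC _ _ hN j p hpc 1 le_rfl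
  have hd : ∀ α : 𝒜.Form, DifferentiableAt ℝ (α.1 j) p := fun α =>
    (Form.contDiffAt α j hp).differentiableAt (by simp)
  have h2 : fderiv ℝ ((β' - γ N).1 j) p = fderiv ℝ (β'.1 j) p - fderiv ℝ ((γ N).1 j) p :=
    fderiv_sub (hd β') (hd (γ N))
  have h3 : ∀ a b c : E, |fderiv ℝ ((β' - γ N).1 j) p a b c| ≤ C * δ * (‖a‖ * ‖b‖ * ‖c‖) := by
    intro a b c
    have e1 := (fderiv ℝ ((β' - γ N).1 j) p a b).le_opNorm c
    have e2 := (fderiv ℝ ((β' - γ N).1 j) p a).le_opNorm b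
    have e3 := (fderiv ℝ ((β' - γ N).1 j) p).le_opNorm a
    rw [Real.norm_eq_abs] at e1
    calc _ ≤ _ := e1
      _ ≤ C * δ * ‖a‖ * ‖b‖ * ‖c‖ := by
        gcongr
        refine e2.trans ?_
        gcongr
        refine e3.trans ?_
        gcongr
      _ = _ := by ring
  have h4 := hγ N j p hp u v w
  have h5 : fderiv ℝ (β'.1 j) p u v w + fderiv ℝ (β'.1 j) p v w u + fderiv ℝ (β'.1 j) p w u v =
      fderiv ℝ ((β' - γ N).1 j) p u v w + fderiv ℝ ((β' - γ N).1 j) p v w u +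
        fderiv ℝ ((β' - γ N).1 j) p w u v := by
    rw [h2]
    simp only [sub_apply]
    linarith
  have h6 : δ * (3 * C * (‖u‖ * ‖v‖ * ‖w‖) + 1) = ε := by
    rw [hδ]
    field_simp
  rw [h5]
  have a1 := abs_le.1 (h3 u v w)
  have a2 := abs_le.1 (h3 v w u)
  have a3 := abs_le.1 (h3 w u v)
  rw [abs_le]
  constructor <;> nlinarith [a1.1, a1.2, a2.1, a2.2, a3.1, a3.2]

end Atlas

end

end Vale.Agent.P204
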