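import Vale.Agent.P204.El2
import Vale.Agent.P204.El3

/-!
P204 El4: the elliptic correction.
Plan: `C n` the constants of `approx_step n`. Build recursively `σ 0 = σ`, `β n` closed,
`σ (n+1) = σ n - Am (β n)` (anti) with `Cn (n+6) (σ n) (M n)`, `M 0 = M`,
`M (n+1) = ε n = M 2^(-n-1) / C (n+1)` (`K = n + 7`); then `Cn n (β n) (C n * M n + ε n)`, summable
with sum `≤ (C 0 + 3) M`. `series`, `closed_of_lim`; `Am β' - σ = Am (β' - ∑_{i<N} β i) - σ N` is
small in `C⁰` (`Cn_Am`), so it is zero (`eq_zero_of_Cn`).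
-/

namespace Vale.Agent.P204

open scoped ContDiff Topology
open Metric MeasureTheory Set Filter

noncomputable section

namespace Atlas

variable {𝒜 : Atlas}

theorem Reg.correction (ℛ : 𝒜.Reg) : ∃ C ≥ 1, ∀ (σ : 𝒜.Form) (M : ℝ), 0 < M → Anti σ →
    Cn 6 σ M → ∃ β, Closed β ∧ 𝒜.Am β = σ ∧ Cn 0 β (C * M) :=
by
  choose C hC hstep using ℛ.approx_step
  refine ⟨C 0 + 6, by linarith [hC 0], fun σ M hM hσ hσM => ?_⟩
  have C0 : ∀ n, 0 < C n := fun n => one_pos.trans_le (hC n)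
  obtain ⟨m, m0, m1⟩ : ∃ m : ℕ → ℝ, m 0 = M ∧ ∀ n, m (n + 1) = M * (1 / 2) ^ n / C (n + 1) :=
    ⟨fun n => Nat.casesOn n M fun n => M * (1 / 2) ^ n / C (n + 1), rfl, fun _ => rfl⟩
  have mp : ∀ n, 0 < m (n + 1) := fun n => by rw [m1]; have := C0 (n + 1); positivity
  have m2 : ∀ n, m (n + 1) ≤ M * (1 / 2) ^ n := fun n => by
    rw [m1]; exact div_le_self (by positivity) (hC _)
  have m3 : ∀ n, C (n + 1) * m (n + 1) = M * (1 / 2) ^ n := fun n => by
    rw [m1, mul_div_cancel₀ _ (C0 _).ne']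
  choose B B1 B2 B3 using fun n (s : {s : 𝒜.Form // Anti s ∧ Cn (n + 6) s (m n)}) =>
    hstep n (n + 1 + 6) (m (n + 1)) (mp n) s.1 (m n) s.2.1 s.2.2
  obtain ⟨s, s0, s1⟩ : ∃ s : ∀ n, {s : 𝒜.Form // Anti s ∧ Cn (n + 6) s (m n)}, (s 0).1 = σ ∧
      ∀ n, (s (n + 1)).1 = (s n).1 - 𝒜.Am (B n (s n)) :=
    ⟨fun n => Nat.rec ⟨σ, hσ, m0.symm ▸ hσM⟩ (fun n s => ⟨s.1 - 𝒜.Am (B n s), by
      rw [Anti, map_sub, Am_Am, s.2.1], B3 n s⟩) n, rfl, fun _ => rfl⟩
  obtain ⟨β, hβ⟩ : ∃ β : ℕ → 𝒜.Form, ∀ n, β n = B n (s n) := ⟨_, fun _ => rfl⟩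
  have b2 : ∀ n, Cn (n + 1) (β (n + 1)) (2 * M * (1 / 2) ^ n) := fun n => by
    refine hβ _ ▸ (B2 _ _).mono le_rfl ?_
    have k := m2 (n + 1)
    have k2 : 0 < M * (1 / 2 : ℝ) ^ n := by positivity
    rw [pow_succ] at k
    rw [m3]
    linarith
  have b0 : Cn 0 (β 0) (C 0 * M + M) := hβ _ ▸ (B2 _ _).mono le_rfl (by
    have k := m2 0
    rw [m0]
    linarith)
  obtain ⟨β', h'⟩ := series β (fun n => Nat.casesOn n (C 0 * M + M) fun n => 2 * M * (1 / 2) ^ n)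
    ((summable_nat_add_iff 1).1 (summable_geometric_two.mul_left (2 * M)))
    fun n => Nat.casesOn n b0 b2
  have c1 : ∀ N, Closed (∑ i ∈ Finset.range N, β i) := fun N =>
    Finset.sum_induction _ _ (fun _ _ => Closed.add) closed_zero fun i _ => hβ i ▸ B1 _ _
  have c2 : ∀ N, (s N).1 = σ - 𝒜.Am (∑ i ∈ Finset.range N, β i) := fun N => by
    induction N with
    | zero => rw [Finset.sum_range_zero, map_zero, sub_zero, s0]
    | succ N ih => rw [s1, ← hβ, ih, Finset.sum_range_succ, map_add, sub_sub]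
  have c3 : ∀ N, Cn 0 (∑ i ∈ Finset.range (N + 1), β i)
      (C 0 * M + M + 4 * M * (1 - (1 / 2) ^ N)) := fun N => by
    induction N with
    | zero => simpa using b0
    | succ N ih =>
      rw [Finset.sum_range_succ]
      exact (ih.add ((b2 N).mono (Nat.zero_le _) le_rfl)).mono le_rfl (le_of_eq (by ring))
  refine ⟨β', closed_of_lim c1 (h' 1), ?_, ?_⟩
  · obtain ⟨A, hA, hA'⟩ := Cn_Am (𝒜 := 𝒜) 0
    refine sub_eq_zero.1 (eq_zero_of_Cn fun ε hε => ?_)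
    have A0 : 0 < A := one_pos.trans_le hA
    have t1 := ((tendsto_pow_atTop_nhds_zero_of_lt_one (r := (1 / 2 : ℝ)) (by norm_num)
      (by norm_num)).const_mul M).eventually_le_const (show M * 0 < ε / 2 by simpa using hε)
    obtain ⟨N, k1, k2⟩ := (((tendsto_add_atTop_nat 1).eventually
      (h' 0 (ε / 2 / A) (by positivity))).and t1).exists
    have k3 := (hA' _ _ k1).sub ((s (N + 1)).2.2.mono (Nat.zero_le _) ((m2 N).trans k2))
    rw [c2, map_sub, sub_sub_sub_cancel_right, mul_div_cancel₀ _ A0.ne', add_halves] at k3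
    exact k3
  · obtain ⟨N, k1⟩ := ((tendsto_add_atTop_nat 1).eventually (h' 0 M hM)).exists
    have k2 := k1.add (c3 N)
    rw [sub_add_cancel] at k2
    have k3 : 0 < M * (1 / 2 : ℝ) ^ N := by positivity
    exact k2.mono le_rfl (by linarith)

end Atlas

end

end Vale.Agent.P204
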