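import Vale.Agent.P204.Stmt
import Vale.Agent.P204.M.At

/-!
P204 ManMain: reduction of the statement on a manifold to the statement for an abstract atlas.
See notes/P204.md section M.
-/

namespace Vale.Agent.P204

open scoped ContDiff Topology
open Metric MeasureTheory Set Filter

noncomputable section

namespace M

open scoped Manifold

variable {X : Type*} [TopologicalSpace X] [ChartedSpace E X]

/-- the almost complex structure as a field of continuous endomorphisms -/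
def Jc (J : P204S.AlmostComplex X) (x : X) : End :=
  LinearMap.toContinuousLinearMap (show E →ₗ[ℝ] E from J.toFun x)

/-- a two-form as a field of continuous bilinear forms -/
def Tc (Ω : P204S.TwoForm X) (x : X) : Bil :=
  LinearMap.toContinuousBilinearMap (show E →ₗ[ℝ] E →ₗ[ℝ] ℝ from Ω.toFun x)

theorem Tc_alt (Ω : P204S.TwoForm X) (x : X) : IsAlt (Tc Ω x) := fun u v => by
  have h : ∀ w, Tc Ω x w w = 0 := Ω.alt x
  have h1 := h (u + v)
  simp only [map_add, add_apply, h] at h1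
  linarith

theorem fderiv_coef {f : E → Bil} {p : E} (hf : ContDiffAt ℝ ∞ f p) (u v w : E) :
    fderiv ℝ (fun q => f q v w) p u = fderiv ℝ f p u v w := by
  have h1 := (hf.differentiableAt (by simp)).hasFDerivAt
  have h2 := ((ContinuousLinearMap.apply ℝ ℝ w).comp
    (ContinuousLinearMap.apply ℝ Cov v)).hasFDerivAt.comp p h1
  exact congrArg (fun L => L u) h2.fderiv

variable [IsManifold I4 ∞ X]

theorem gJ_Jc (J : P204S.AlmostComplex X) (x : X) : GJ (Jc J) x := by
  refine ⟨chartAt E x, isCh_chartAt x, mem_chart_source E x, ContDiffOn.contDiffAt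
    (contDiffOn_clm_apply.2 fun u => J.smooth x u)
    ((chartAt E x).open_target.mem_nhds (mem_chart_target E x))⟩

theorem gT_Tc {Ω : P204S.TwoForm X} (hc : Ω.IsClosed) (x : X) : GT (Tc Ω) x := by
  have h : ContDiffAt ℝ ∞ (trep (chartAt E x) (Tc Ω)) (chartAt E x x) := ContDiffOn.contDiffAt
    (contDiffOn_clm_apply.2 fun u => contDiffOn_clm_apply.2 fun v => by
      simp only [trep, pullL_apply]
      exact Ω.smooth x u v)
    ((chartAt E x).open_target.mem_nhds (mem_chart_target E x))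
  refine ⟨chartAt E x, isCh_chartAt x, mem_chart_source E x, h, fun u v w => ?_⟩
  rw [← fderiv_coef h, ← fderiv_coef h, ← fderiv_coef h]
  simp only [trep, pullL_apply]
  exact hc x _ (mem_chart_target E x) u v w

theorem exists_twoForm {S : X → Bil} (hS : ∀ x, IsAlt (S x)) (gS : ∀ x, GT S x) :
    ∃ β : P204S.TwoForm X, β.IsClosed ∧ ∀ x (u v : E), β.toFun x u v = S x u v := by
  refine ⟨⟨fun x => (S x).toLinearMap₁₂, fun x v => alg1_self (hS x) v, fun x u v p hp => ?_⟩,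
    fun x p hp u v w => ?_, fun _ _ _ => rfl⟩
  · have h := (((GT.all hS (isCh_chartAt x) hp (gS _)).1.clm_apply
      (contDiffAt_const (c := u))).clm_apply (contDiffAt_const (c := v))).contDiffWithinAt
      (s := (chartAt E x).target)
    simp only [trep, pullL_apply] at h
    exact h
  · obtain ⟨h1, h2⟩ := GT.all hS (isCh_chartAt x) hp (gS _)
    have h3 := h2 u v w
    rw [← fderiv_coef h1, ← fderiv_coef h1, ← fderiv_coef h1] at h3
    simp only [trep, pullL_apply] at h3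
    exact h3

omit [IsManifold I4 ∞ X] in
theorem apply_eq {φ : Ch X} (hφ : IsCh φ) (S : X → Bil) {x : X} (hx : x ∈ φ.source) (u v : E) :
    S x u v = trep φ S (φ x) (dM φ x u) (dM φ x v) := by
  rw [trep, pullL_apply, dS_dM hφ hx, dS_dM hφ hx, φ.left_inv hx]

omit [IsManifold I4 ∞ X] in
theorem dM_J {φ : Ch X} (hφ : IsCh φ) (J : X → End) {x : X} (hx : x ∈ φ.source) (v : E) :
    dM φ x (J x v) = jrep φ J (φ x) (dM φ x v) := by
  simp only [jrep, ContinuousLinearMap.comp_apply, dS_dM hφ hx, φ.left_inv hx]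

end M

open scoped Manifold in
theorem man_main
    (H : ∀ 𝒜 : Atlas, ∃ β : 𝒜.Form, Atlas.Closed β ∧ 𝒜.Am β = 0 ∧
      ∀ j, ∀ p ∈ ball (0 : E) 4, ∀ v, v ≠ 0 → 0 < β.1 j p v (𝒜.J j p v))
    {X : Type*} [TopologicalSpace X] [T2Space X] [CompactSpace X] [Nonempty X]
    [ChartedSpace P204S.E4 X] [IsManifold 𝓘(ℝ, P204S.E4) ∞ X] (J : P204S.AlmostComplex X)
    (Ω : P204S.TwoForm X) (hc : Ω.IsClosed) (ht : Ω.Tames J) :
    ∃ β : P204S.TwoForm X, β.IsClosed ∧ β.Compatible J := by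
  have hJ : ∀ x v, M.Jc J x (M.Jc J x v) = -v := J.sq
  have ht' : ∀ x v, v ≠ 0 → 0 < M.Tc Ω x v (M.Jc J x v) := ht
  obtain ⟨F⟩ := M.exists_fam hJ (M.Tc_alt Ω) ht' (M.gJ_Jc J) (M.gT_Tc hc)
  obtain ⟨β, b1, b2, b3⟩ := H (F.atlas hJ (M.Tc_alt Ω) ht' (M.gJ_Jc J) (M.gT_Tc hc))
  obtain ⟨S, hS⟩ := F.back β.1 fun i j p hp => Atlas.Form.compat β i j hp
  have key : ∀ x, ∃ j : Fin F.n, x ∈ (F.φ j).source ∧ ∀ u v, S x u v =
      β.1 j (F.φ j x) (M.dM (F.φ j) x u) (M.dM (F.φ j) x v) := fun x => by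
    obtain ⟨j, hj, -⟩ := F.cover x
    exact ⟨j, hj, fun u v => by rw [M.apply_eq (F.ch j) S hj, hS j _ (F.map_mem hj)]⟩
  have hA : ∀ x, IsAlt (S x) := fun x u v => by
    obtain ⟨j, -, h⟩ := key x
    rw [h, h]
    exact Atlas.Form.alt β j _ _ _
  have gS : ∀ x, M.GT S x := fun x => by
    obtain ⟨j, hj, -⟩ := F.cover x
    have e : M.trep (F.φ j) S =ᶠ[𝓝 (F.φ j x)] β.1 j :=
      Filter.eventually_of_mem (isOpen_ball.mem_nhds (F.map_mem hj)) (hS j)
    exact ⟨F.φ j, F.ch j, hj,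
      (Atlas.Form.contDiffAt β j (F.map_mem hj)).congr_of_eventuallyEq e,
      (b1 j _ (F.map_mem hj)).congr e⟩
  have k1 : ∀ x (v : E), v ≠ 0 → 0 < S x v (M.Jc J x v) := fun x v hv => by
    obtain ⟨j, hj, h⟩ := key x
    rw [h, M.dM_J (F.ch j) _ hj]
    refine b3 j _ (F.map_mem hj) _ fun h0 => hv ?_
    have h2 := M.dS_dM (F.ch j) hj v
    rw [h0, map_zero] at h2
    exact h2.symm
  have k2 : ∀ x (u v : E), S x (M.Jc J x u) (M.Jc J x v) = S x u v := fun x u v => by
    obtain ⟨j, hj, h⟩ := key x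
    rw [h u v, h, M.dM_J (F.ch j) _ hj, M.dM_J (F.ch j) _ hj]
    have h2 := congrArg
      (fun α => α.1 j (F.φ j x) (M.dM (F.φ j) x u) (M.dM (F.φ j) x v)) b2
    have h3 := (pm_apply _ _ _ _).symm.trans h2
    exact (sub_eq_zero.1 ((mul_eq_zero.1 h3).resolve_left (by norm_num))).symm
  obtain ⟨γ, g1, g2⟩ := M.exists_twoForm hA gS
  exact ⟨γ, g1, fun x v hv => (k1 x v hv).trans_eq (g2 x v _).symm,
    fun x u v => (g2 x _ _).trans ((k2 x u v).trans (g2 x u v).symm)⟩

end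

end Vale.Agent.P204
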