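import Vale.Agent.P204.Main
import Vale.Agent.P204.ManMain

namespace Vale.Agent.P204

open scoped Manifold ContDiff
open P204S

theorem final {X : Type*} [TopologicalSpace X] [T2Space X] [CompactSpace X] [ConnectedSpace X]
    [ChartedSpace E4 X] [IsManifold 𝓘(ℝ, E4) ∞ X] (J : AlmostComplex X)
    (h : ∃ Ω : TwoForm X, Ω.IsSymplectic ∧ Ω.Tames J) :
    ∃ β : TwoForm X, β.IsSymplectic ∧ β.Compatible J := by
  obtain ⟨Ω, hΩ, ht⟩ := h
  obtain ⟨β, hc, hb⟩ := man_main Atlas.atlas_main J Ω hΩ.1 ht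
  refine ⟨β, ⟨hc, fun x v hv => ?_⟩, hb⟩
  by_contra h0
  exact (hb.1 x v h0).ne' (hv _)

end Vale.Agent.P204
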