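import Mathlib

/-!
Definitions used in the statement for problem P204. The model space `E` is arbitrary here; the
theorem takes `E = ℝ⁴`.
-/

namespace Vale.Agent.P204T

open scoped Manifold ContDiff

variable {E : Type} [NormedAddCommGroup E] [NormedSpace ℝ E] {X : Type*} [TopologicalSpace X]
  [ChartedSpace E X]

/-- The coordinate vector field of the chart at `x₀` with constant components `u`, evaluated at
the point with coordinates `p`. -/
noncomputable def coordVec (x₀ : X) (u p : E) : TangentSpace 𝓘(ℝ, E) ((chartAt E x₀).symm p) :=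
  mfderiv 𝓘(ℝ, E) 𝓘(ℝ, E) (chartAt E x₀).symm p u

/-- The components, in the chart at `x₀`, of a tangent vector `v` at `x`. -/
noncomputable def comps (x₀ x : X) (v : TangentSpace 𝓘(ℝ, E) x) : E :=
  mfderiv 𝓘(ℝ, E) 𝓘(ℝ, E) (chartAt E x₀) x v

/-- A smooth almost complex structure: a field of endomorphisms of the tangent spaces with square
`-id` whose components are smooth in every chart. -/
structure AlmostComplex (E : Type) [NormedAddCommGroup E] [NormedSpace ℝ E] (X : Type*)
    [TopologicalSpace X] [ChartedSpace E X] where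
  toFun : ∀ x : X, TangentSpace 𝓘(ℝ, E) x → TangentSpace 𝓘(ℝ, E) x
  linear : ∀ x : X, IsLinearMap ℝ (toFun x)
  sq : ∀ (x : X) (v : TangentSpace 𝓘(ℝ, E) x), toFun x (toFun x v) = -v
  smooth : ∀ (x₀ : X) (u : E), ContDiffOn ℝ ∞
    (fun p => comps x₀ ((chartAt E x₀).symm p) (toFun _ (coordVec x₀ u p))) (chartAt E x₀).target

/-- A smooth real two-form: a field of alternating bilinear forms on the tangent spaces whose
components are smooth in every chart. -/
structure TwoForm (E : Type) [NormedAddCommGroup E] [NormedSpace ℝ E] (X : Type*)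
    [TopologicalSpace X] [ChartedSpace E X] where
  toFun : ∀ x : X, TangentSpace 𝓘(ℝ, E) x → TangentSpace 𝓘(ℝ, E) x → ℝ
  linear_left : ∀ (x : X) (v : TangentSpace 𝓘(ℝ, E) x), IsLinearMap ℝ fun u => toFun x u v
  linear_right : ∀ (x : X) (u : TangentSpace 𝓘(ℝ, E) x), IsLinearMap ℝ fun v => toFun x u v
  alt : ∀ (x : X) (v : TangentSpace 𝓘(ℝ, E) x), toFun x v v = 0
  smooth : ∀ (x₀ : X) (u v : E), ContDiffOn ℝ ∞
    (fun p => toFun _ (coordVec x₀ u p) (coordVec x₀ v p)) (chartAt E x₀).target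

/-- The component `β(u, v)` of a two-form in the chart at `x₀`, as a function of the
coordinates. -/
noncomputable def TwoForm.coef (β : TwoForm E X) (x₀ : X) (u v p : E) : ℝ :=
  β.toFun _ (coordVec x₀ u p) (coordVec x₀ v p)

/-- `dβ = 0`: in every chart, `∂_u β(v,w) + ∂_v β(w,u) + ∂_w β(u,v) = 0` for all coordinate
vector fields `u, v, w`. -/
def TwoForm.IsClosed (β : TwoForm E X) : Prop :=
  ∀ x₀ : X, ∀ p ∈ (chartAt E x₀).target, ∀ u v w : E,
    fderiv ℝ (β.coef x₀ v w) p u + fderiv ℝ (β.coef x₀ w u) p v +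
      fderiv ℝ (β.coef x₀ u v) p w = 0

/-- Symplectic: closed and nondegenerate. -/
def TwoForm.IsSymplectic (β : TwoForm E X) : Prop :=
  β.IsClosed ∧ ∀ (x : X) (v : TangentSpace 𝓘(ℝ, E) x), (∀ w, β.toFun x v w = 0) → v = 0

/-- `β` tames `J`. -/
def TwoForm.Tames (β : TwoForm E X) (J : AlmostComplex E X) : Prop :=
  ∀ (x : X) (v : TangentSpace 𝓘(ℝ, E) x), v ≠ 0 → 0 < β.toFun x v (J.toFun x v)

/-- `β` is compatible with `J`. -/
def TwoForm.Compatible (β : TwoForm E X) (J : AlmostComplex E X) : Prop :=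
  β.Tames J ∧ ∀ (x : X) (u v : TangentSpace 𝓘(ℝ, E) x),
    β.toFun x (J.toFun x u) (J.toFun x v) = β.toFun x u v

end Vale.Agent.P204T
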