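import Vale.Agent.P204.Final
import Vale.Agent.P204.Spec

namespace Vale.Agent.P204

open scoped Manifold ContDiff
open P204T

theorem final2 {X : Type*} [TopologicalSpace X] [T2Space X] [CompactSpace X] [ConnectedSpace X]
    [ChartedSpace (EuclideanSpace ℝ (Fin 4)) X] [IsManifold 𝓘(ℝ, EuclideanSpace ℝ (Fin 4)) ∞ X]
    (J : AlmostComplex (EuclideanSpace ℝ (Fin 4)) X)
    (h : ∃ Ω : TwoForm (EuclideanSpace ℝ (Fin 4)) X, Ω.IsSymplectic ∧ Ω.Tames J) :
    ∃ β : TwoForm (EuclideanSpace ℝ (Fin 4)) X, β.IsSymplectic ∧ β.Compatible J := by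
  obtain ⟨Ω, hΩ, ht⟩ := h
  let J' : P204S.AlmostComplex X := ⟨fun x => (J.linear x).mk' _, J.sq, J.smooth⟩
  let Ω' : P204S.TwoForm X :=
    ⟨fun x => LinearMap.mk₂ ℝ (Ω.toFun x) (fun a b v => (Ω.linear_left x v).map_add a b)
      (fun c a v => (Ω.linear_left x v).map_smul c a)
      (fun u a b => (Ω.linear_right x u).map_add a b)
      (fun c u a => (Ω.linear_right x u).map_smul c a), Ω.alt, Ω.smooth⟩
  obtain ⟨β, hβ, hc⟩ := final J' ⟨Ω', hΩ, ht⟩
  exact ⟨⟨fun x u v => β.toFun x u v, fun x v => ((β.toFun x).flip v).isLinear,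
    fun x u => (β.toFun x u).isLinear, β.alt, β.smooth⟩, hβ, hc⟩

end Vale.Agent.P204
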