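import Vale.Agent.P204.At3

/-!
P204 Hb: Hahn-Banach and Riesz-Markov produce the current.
Plan: `K₀ = Fin n × closedBall 0 1 × sphere 0 1` (compact, nonempty, metrisable),
`V = C(K₀, ℝ) × Form`, `N (f, σ) = (⨆ x, f x) + Λ cn K σ` is sublinear. On the range of
`β ↦ (lin β, Am β)` restricted to closed forms `N ≥ 0` (else `-β` contradicts `h`; the supremum is
attained or use `le_ciSup`). `exists_extension_of_le_sublinear` for the zero functional gives `L`.
`f ↦ L (f, 0)` is positive with `L (1,0) = 1`; `RealRMK.rieszMeasure` (positive linear map on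
`C_c(K₀, ℝ)`, `RealRMK.integral_rieszMeasure`). `m j` = push-forward to `E × E` of the restriction
to the `j`-th component. `A σ = L (0, σ)`.
-/

namespace Vale.Agent.P204

open scoped ContDiff Topology
open Metric MeasureTheory Set Filter

noncomputable section

namespace Atlas

variable {𝒜 : Atlas}

open scoped CompactlySupported in
theorem riesz_Hb {X : Type} [TopologicalSpace X] [CompactSpace X] [T2Space X] [MeasurableSpace X]
    [BorelSpace X] (L : C(X, ℝ) →ₗ[ℝ] ℝ) (hL : ∀ f : C(X, ℝ), (∀ x, 0 ≤ f x) → 0 ≤ L f) :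
    ∃ μ : Measure X, IsFiniteMeasure μ ∧ ∀ f : C(X, ℝ), ∫ x, f x ∂μ = L f := by
  let L' : C_c(X, ℝ) →ₗ[ℝ] ℝ :=
    { toFun := fun g => L g.toContinuousMap
      map_add' := fun g g' => L.map_add _ _
      map_smul' := fun c g => L.map_smul _ _ }
  refine ⟨RealRMK.rieszMeasure (PositiveLinearMap.mk₀ L' fun g hg => hL _ hg), inferInstance,
    fun f => ?_⟩
  exact RealRMK.integral_rieszMeasure _ ⟨f, HasCompactSupport.of_compactSpace _⟩

theorem abs_Hb {X V : Type} [TopologicalSpace X] [CompactSpace X] [T2Space X] [MeasurableSpace X]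
    [BorelSpace X] [Nonempty X] [AddCommGroup V] [Module ℝ V] (N : V → ℝ)
    (h1 : ∀ (c : ℝ) v, N (c • v) = |c| * N v) (h2 : ∀ v v', N (v + v') ≤ N v + N v')
    (S : Submodule ℝ (C(X, ℝ) × V)) (hS : ∀ z ∈ S, ∃ x, 0 ≤ z.1 x + N z.2) :
    ∃ (μ : Measure X) (A : V →ₗ[ℝ] ℝ), IsFiniteMeasure μ ∧ μ.real univ = 1 ∧
      (∀ v, |A v| ≤ N v) ∧ ∀ z ∈ S, ∫ x, z.1 x ∂μ + A z.2 = 0 := by
  have hb : ∀ f : C(X, ℝ), BddAbove (range f) := fun f => (isCompact_range f.continuous).bddAbove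
  have N0 : N 0 = 0 := by simpa using h1 0 0
  obtain ⟨L, k1, k2⟩ := exists_extension_of_le_sublinear (⟨S, 0⟩ : (C(X, ℝ) × V) →ₗ.[ℝ] ℝ)
    (fun z => (⨆ x, z.1 x) + N z.2)
    (fun c hc z => by
      rw [mul_add, Real.mul_iSup_of_nonneg hc.le, Prod.smul_snd, h1, abs_of_pos hc]; rfl)
    (fun z z' => by
      have : (⨆ x, (z + z').1 x) ≤ (⨆ x, z.1 x) + ⨆ x, z'.1 x :=
        ciSup_le fun x => add_le_add (le_ciSup (hb _) x) (le_ciSup (hb _) x)
      have k : N (z + z').2 ≤ N z.2 + N z'.2 := h2 z.2 z'.2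
      linarith)
    (fun z => by
      obtain ⟨x, hx⟩ := hS z.1 z.2
      exact hx.trans (add_le_add_left (le_ciSup (hb _) x) _))
  have k3 : ∀ (f : C(X, ℝ)) (c : ℝ), (∀ x, f x ≤ c) → L (f, 0) ≤ c := fun f c hf =>
    (k2 (f, 0)).trans (by rw [N0, add_zero]; exact ciSup_le hf)
  have k4 : ∀ f : C(X, ℝ), L (-f, 0) = -L (f, 0) := fun f => by
    rw [← map_neg, Prod.neg_mk, neg_zero]
  have k5 : ∀ v, L (0, v) ≤ N v := fun v => (k2 (0, v)).trans (by simp)
  obtain ⟨μ, hμ, k6⟩ := riesz_Hb (L ∘ₗ LinearMap.inl ℝ _ V) fun f hf => by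
    have := k3 (-f) 0 fun x => neg_nonpos.2 (hf x)
    rw [k4] at this
    exact neg_nonpos.1 this
  refine ⟨μ, L ∘ₗ LinearMap.inr ℝ _ V, hμ, ?_, fun v => abs_le.2 ⟨?_, k5 v⟩, fun z hz => ?_⟩
  · have a1 := k6 1
    have a2 := k3 1 1 fun _ => le_rfl
    have a3 := k3 (-1) (-1) fun _ => le_rfl
    rw [k4] at a3
    simp only [ContinuousMap.one_apply, integral_const, smul_eq_mul, mul_one] at a1
    exact a1.trans (le_antisymm a2 (neg_le_neg_iff.1 a3))
  · have a1 := k5 ((-1 : ℝ) • v)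
    rw [h1, abs_neg, abs_one, one_mul] at a1
    have a2 : L (0, (-1 : ℝ) • v) = -L (0, v) := by
      rw [← map_neg, Prod.neg_mk, neg_zero, neg_one_smul]
    exact neg_le.1 (a2 ▸ a1)
  · rw [k6, LinearMap.comp_apply, LinearMap.comp_apply, ← map_add]
    simpa using k1 ⟨z, hz⟩

/-- unit vectors over the closed unit ball -/
abbrev K_Hb : Set (E × E) := closedBall (0 : E) 1 ×ˢ sphere (0 : E) 1

theorem compact_Hb : IsCompact K_Hb := (isCompact_closedBall _ _).prod (isCompact_sphere _ _)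

/-- values of a form on complex lines -/
def res_Hb (𝒜 : Atlas) : 𝒜.Form →ₗ[ℝ] C(Fin 𝒜.n × K_Hb, ℝ) where
  toFun β := ⟨fun x => lin β x.1 x.2.1, continuous_prod_of_discrete_left.2 fun j =>
    ((lin_contOn β j).mono (prod_mono (cb_sub (by norm_num)) (subset_univ _))).domRestrict⟩
  map_add' α β := ContinuousMap.ext fun x => by
    simp only [lin, Submodule.coe_add, Pi.add_apply, add_apply, ContinuousMap.coe_mk,
      ContinuousMap.add_apply]
  map_smul' c β := ContinuousMap.ext fun x => by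
    simp only [lin, Submodule.coe_smul, Pi.smul_apply, smul_apply, ContinuousMap.coe_mk,
      ContinuousMap.smul_apply, RingHom.id_apply]

theorem hb_main (K : ℕ) {Λ : ℝ} (hΛ : 0 ≤ Λ)
    (h : ∀ β : 𝒜.Form, Closed β → ¬ ∀ j, ∀ p ∈ closedBall (0 : E) 1, ∀ w : E, ‖w‖ = 1 →
      Λ * cn K (𝒜.Am β) < lin β j (p, w)) :
    ∃ (T : 𝒜.PM) (A : 𝒜.Form →ₗ[ℝ] ℝ), T.mass = 1 ∧ FinOrd A K Λ ∧
      ∀ β, Closed β → T.cur β + A (𝒜.Am β) = 0 :=
by
  have := isCompact_iff_compactSpace.1 compact_Hb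
  have : Nonempty (Fin 𝒜.n × K_Hb) :=
    ⟨(⟨0, 𝒜.npos⟩, ⟨(0, e 0), mem_closedBall_self zero_le_one, by simpa using norm_e 0⟩)⟩
  obtain ⟨μ, A, hμ, h1, h2, h3⟩ := abs_Hb (X := Fin 𝒜.n × K_Hb) (fun σ : 𝒜.Form => Λ * cn K σ)
    (fun c σ => by rw [cn_smul, mul_left_comm])
    (fun σ σ' => by rw [← mul_add]; exact mul_le_mul_of_nonneg_left (cn_add_le K σ σ') hΛ)
    ((⟨⟨⟨{β | Closed β}, Closed.add⟩, closed_zero⟩, fun c _ hβ => Closed.smul hβ c⟩ :
      Submodule ℝ 𝒜.Form).map ((res_Hb 𝒜).prod 𝒜.Am)) (by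
      rintro _ ⟨β, hβ, rfl⟩
      have k := h _ (Closed.smul hβ (-1))
      push Not at k
      obtain ⟨j, p, hp, w, hw, k⟩ := k
      refine ⟨(j, ⟨(p, w), hp, by simpa using hw⟩), ?_⟩
      rw [map_smul, cn_smul, abs_neg, abs_one, one_mul] at k
      have k2 : lin ((-1 : ℝ) • β) j (p, w) = -lin β j (p, w) := by
        simp only [lin, Submodule.coe_smul, Pi.smul_apply, smul_apply, smul_eq_mul, neg_one_mul]
      show 0 ≤ lin β j (p, w) + Λ * cn K (𝒜.Am β)
      linarith)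
  have hm : Measurable fun x : Fin 𝒜.n × K_Hb => x.2.1 := measurable_subtype_coe.comp measurable_snd
  obtain ⟨T, hT⟩ : ∃ T : 𝒜.PM, ∀ j,
      T.m j = (μ.restrict (Prod.fst ⁻¹' {j})).map fun x : Fin 𝒜.n × K_Hb => x.2.1 :=
    ⟨⟨_, fun j => inferInstance, fun j =>
      ((ae_map_iff hm.aemeasurable compact_Hb.measurableSet).2
        (Eventually.of_forall fun x => x.2.2)).mono fun y hy => ⟨hy.1, by simpa using hy.2⟩⟩,
      fun _ => rfl⟩
  have key : ∀ (g : Fin 𝒜.n → E × E → ℝ) (F : C(Fin 𝒜.n × K_Hb, ℝ)),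
      (∀ j, AEStronglyMeasurable (g j) (T.m j)) → (∀ x, F x = g x.1 x.2.1) →
      ∑ j, ∫ y, g j y ∂(T.m j) = ∫ x, F x ∂μ := fun g F k1 k2 => by
    have hs : ∀ j : Fin 𝒜.n, MeasurableSet (Prod.fst ⁻¹' {j} : Set (Fin 𝒜.n × K_Hb)) := fun j =>
      measurable_fst (measurableSet_singleton j)
    have hi : Integrable F μ :=
      F.continuous.integrable_of_hasCompactSupport (HasCompactSupport.of_compactSpace _)
    have k3 : ∀ j, ∫ y, g j y ∂(T.m j) = ∫ x, (Prod.fst ⁻¹' {j}).indicator F x ∂μ := fun j => by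
      have k4 := k1 j
      rw [hT] at k4
      rw [hT, integral_map hm.aemeasurable k4, integral_indicator (hs j)]
      refine setIntegral_congr_fun (hs j) fun x hx => ?_
      obtain rfl : x.1 = j := hx
      exact (k2 x).symm
    simp only [k3]
    rw [← integral_finsetSum _ fun j _ => hi.indicator (hs j)]
    refine integral_congr_ae (Eventually.of_forall fun x => ?_)
    simp [indicator]
  refine ⟨T, A, ?_, fun β M hM => (h2 β).trans (mul_le_mul_of_nonneg_left (cn_le hM) hΛ),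
    fun β hβ => ?_⟩
  · have k := key (fun _ _ => 1) 1 (fun _ => aestronglyMeasurable_const) fun _ => rfl
    simp only [integral_const, smul_eq_mul, mul_one, ContinuousMap.one_apply] at k
    exact k.trans h1
  · rw [PM.cur_apply, key (lin β) (res_Hb 𝒜 β) (fun j => (lin_int T β j).aestronglyMeasurable)
      fun _ => rfl]
    exact h3 _ ⟨β, hβ, rfl⟩

end Atlas

end

end Vale.Agent.P204
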