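import Vale.Agent.P204.Defs

/-!
P204 Jet1: algebra of (scaled) jet bounds at a point.
Plan: `ContDiffAt` gives an open neighbourhood `U` on which the function is `C^k` for the finite
`k` needed (`ContDiffAt.contDiffOn'` / `contDiffAt.of_le` then `ContDiffAt.contDiffOn`), and
`iteratedFDerivWithin_of_isOpen` converts. Use `iteratedFDeriv_add_apply`-type lemmas,
`norm_iteratedFDerivWithin_clm_apply`, `ContinuousLinearMap.norm_iteratedFDeriv_comp_left`,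
`norm_iteratedFDerivWithin_comp_le` (with `C = M / t ^ i`), `Nat.sum_range_choose`,
`norm_iteratedFDeriv_fderiv`, `Filter.EventuallyEq.iteratedFDeriv`.
-/

namespace Vale.Agent.P204

open scoped ContDiff Topology
open Metric MeasureTheory Set Filter

noncomputable section

variable {D F G : Type} [NormedAddCommGroup D] [NormedSpace ℝ D] [NormedAddCommGroup F]
  [NormedSpace ℝ F] [NormedAddCommGroup G] [NormedSpace ℝ G]

theorem JB_iff_SJB (f : D → F) (k : ℕ) (p : D) (M : ℝ) : JB f k p M ↔ SJB f k 1 p M := by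
  simp only [JB, SJB, one_pow, one_mul]

theorem SJB.nonneg {f : D → F} {k : ℕ} {t M : ℝ} {p : D} (h : SJB f k t p M) : 0 ≤ M := by
  have h1 := h 0 k.zero_le
  rw [pow_zero, one_mul] at h1
  exact (norm_nonneg _).trans h1

theorem SJB.norm_le {f : D → F} {k : ℕ} {t M : ℝ} {p : D} (h : SJB f k t p M) : ‖f p‖ ≤ M := by
  have h1 := h 0 k.zero_le
  rwa [pow_zero, one_mul, norm_iteratedFDeriv_zero] at h1

theorem SJB_zero_iff {f : D → F} {t M : ℝ} {p : D} : SJB f 0 t p M ↔ ‖f p‖ ≤ M := by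
  refine ⟨SJB.norm_le, fun h i hi => ?_⟩
  rwa [Nat.le_zero.1 hi, pow_zero, one_mul, norm_iteratedFDeriv_zero]

theorem SJB.mono {f : D → F} {k k' : ℕ} {t M M' : ℝ} {p : D} (h : SJB f k t p M) (hk : k' ≤ k)
    (hM : M ≤ M') : SJB f k' t p M' := fun i hi => (h i (hi.trans hk)).trans hM

theorem SJB.scale {f : D → F} {k : ℕ} {t s M : ℝ} {p : D} (h : SJB f k t p M) (hs : 0 ≤ s)
    (hst : s ≤ t) : SJB f k s p M := fun i hi =>
  (mul_le_mul_of_nonneg_right (pow_le_pow_left₀ hs hst i) (norm_nonneg _)).trans (h i hi)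

theorem SJB.jb {f : D → F} {k : ℕ} {t M : ℝ} {p : D} (h : SJB f k t p M) (ht : 0 < t)
    (ht1 : t ≤ 1) : JB f k p (M / t ^ k) := fun i hi => by
  rw [le_div_iff₀' (pow_pos ht k)]
  exact (mul_le_mul_of_nonneg_right (pow_le_pow_of_le_one ht.le ht1 hi) (norm_nonneg _)).trans
    (h i hi)

theorem SJB.congr {f f' : D → F} {k : ℕ} {t M : ℝ} {p : D} (h : SJB f k t p M)
    (hf : f' =ᶠ[𝓝 p] f) : SJB f' k t p M := fun i hi => by
  rw [(hf.iteratedFDeriv ℝ i).eq_of_nhds]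
  exact h i hi

theorem SJB_of_eventually_zero {f : D → F} {k : ℕ} {t : ℝ} {p : D} (hf : f =ᶠ[𝓝 p] fun _ => 0) :
    SJB f k t p 0 := fun i _ => by
  rw [(hf.iteratedFDeriv ℝ i).eq_of_nhds, iteratedFDeriv_fun_zero, Pi.zero_apply, norm_zero,
    mul_zero]

theorem SJB_const (c : F) (k : ℕ) {t : ℝ} (ht : 0 ≤ t) (p : D) :
    SJB (fun _ : D => c) k t p ‖c‖ := fun i _ => by
  have _ := ht
  rcases eq_or_ne i 0 with rfl | h
  · rw [pow_zero, one_mul, norm_iteratedFDeriv_zero]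
  · rw [iteratedFDeriv_const_of_ne h, Pi.zero_apply, norm_zero, mul_zero]
    exact norm_nonneg _

theorem le_infty_Jet1 (n : ℕ) : (n : WithTop ℕ∞) ≤ ∞ := by exact_mod_cast le_top

theorem SJB.add {f f' : D → F} {k : ℕ} {t M M' : ℝ} {p : D} (ht : 0 ≤ t)
    (hf : ContDiffAt ℝ ∞ f p) (hf' : ContDiffAt ℝ ∞ f' p) (h : SJB f k t p M)
    (h' : SJB f' k t p M') : SJB (fun q => f q + f' q) k t p (M + M') := fun i hi => by
  rw [fun_iteratedFDeriv_add_apply (hf.of_le (le_infty_Jet1 i)) (hf'.of_le (le_infty_Jet1 i))]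
  refine (mul_le_mul_of_nonneg_left (norm_add_le _ _) (pow_nonneg ht i)).trans ?_
  rw [mul_add]
  exact add_le_add (h i hi) (h' i hi)

theorem SJB.sub {f f' : D → F} {k : ℕ} {t M M' : ℝ} {p : D} (ht : 0 ≤ t)
    (hf : ContDiffAt ℝ ∞ f p) (hf' : ContDiffAt ℝ ∞ f' p) (h : SJB f k t p M)
    (h' : SJB f' k t p M') : SJB (fun q => f q - f' q) k t p (M + M') := fun i hi => by
  rw [fun_iteratedFDeriv_sub_apply (hf.of_le (le_infty_Jet1 i)) (hf'.of_le (le_infty_Jet1 i))]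
  refine (mul_le_mul_of_nonneg_left (norm_sub_le _ _) (pow_nonneg ht i)).trans ?_
  rw [mul_add]
  exact add_le_add (h i hi) (h' i hi)

theorem SJB.sum {ι : Type} (s : Finset ι) {f : ι → D → F} {k : ℕ} {t : ℝ} {M : ι → ℝ} {p : D}
    (ht : 0 ≤ t) (hf : ∀ i ∈ s, ContDiffAt ℝ ∞ (f i) p) (h : ∀ i ∈ s, SJB (f i) k t p (M i)) :
    SJB (fun q => ∑ i ∈ s, f i q) k t p (∑ i ∈ s, M i) := fun i hi => by
  rw [iteratedFDeriv_fun_sum_apply fun j hj => (hf j hj).of_le (le_infty_Jet1 i)]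
  refine (mul_le_mul_of_nonneg_left (norm_sum_le _ _) (pow_nonneg ht i)).trans ?_
  rw [Finset.mul_sum]
  exact Finset.sum_le_sum fun j hj => h j hj i hi

theorem SJB.clm {f : D → F} {k : ℕ} {t M : ℝ} {p : D} (ht : 0 ≤ t) (L : F →L[ℝ] G)
    (hf : ContDiffAt ℝ ∞ f p) (h : SJB f k t p M) : SJB (fun q => L (f q)) k t p (‖L‖ * M) := fun i hi => by
  refine (mul_le_mul_of_nonneg_left (L.norm_iteratedFDeriv_comp_left hf (le_infty_Jet1 i))
    (pow_nonneg ht i)).trans ?_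
  rw [mul_left_comm]
  exact mul_le_mul_of_nonneg_left (h i hi) (norm_nonneg _)

theorem open_Jet1 {f : D → F} {p : D} (hf : ContDiffAt ℝ ∞ f p) (n : ℕ) :
    ∃ U, IsOpen U ∧ p ∈ U ∧ ContDiffOn ℝ n f U := by
  obtain ⟨U, h1, h2⟩ := hf.contDiffOn (le_infty_Jet1 n) (by simp)
  exact ⟨interior U, isOpen_interior, mem_interior_iff_mem_nhds.2 h1, h2.mono interior_subset⟩

theorem bil_Jet1 {H : Type} [NormedAddCommGroup H] [NormedSpace ℝ H] (B : H →L[ℝ] F →L[ℝ] G)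
    (hB : ‖B‖ ≤ 1) {A : D → H} {f : D → F} {k : ℕ} {t a M : ℝ} {p : D} (ht : 0 ≤ t)
    (hA : ContDiffAt ℝ ∞ A p) (hf : ContDiffAt ℝ ∞ f p) (h : SJB A k t p a)
    (h' : SJB f k t p M) : SJB (fun q => B (A q) (f q)) k t p (2 ^ k * a * M) := fun n hn => by
  obtain ⟨U, u1, u2, u3⟩ := open_Jet1 hA n
  obtain ⟨V, v1, v2, v3⟩ := open_Jet1 hf n
  have ho := u1.inter v1
  have hp : p ∈ U ∩ V := ⟨u2, v2⟩
  have h1 := B.norm_iteratedFDerivWithin_le_of_bilinear_of_le_one (u3.mono inter_subset_left)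
    (v3.mono inter_subset_right) ho.uniqueDiffOn hp le_rfl hB
  simp only [iteratedFDerivWithin_of_isOpen _ ho hp] at h1
  refine (mul_le_mul_of_nonneg_left h1 (pow_nonneg ht n)).trans ?_
  have h2 : ∑ i ∈ Finset.range (n + 1), (n.choose i : ℝ) * (a * M) ≤ 2 ^ k * a * M := by
    rw [← Finset.sum_mul, ← Nat.cast_sum, Nat.sum_range_choose, mul_assoc]
    refine mul_le_mul_of_nonneg_right ?_ (mul_nonneg h.nonneg h'.nonneg)
    exact_mod_cast Nat.pow_le_pow_right two_pos hn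
  rw [Finset.mul_sum]
  refine (Finset.sum_le_sum fun i hi => ?_).trans h2
  have h3 := Nat.lt_succ_iff.1 (Finset.mem_range.1 hi)
  have h4 := mul_le_mul (h i (h3.trans hn)) (h' (n - i) ((Nat.sub_le n i).trans hn))
    (mul_nonneg (pow_nonneg ht _) (norm_nonneg _)) h.nonneg
  refine le_trans (le_of_eq ?_) (mul_le_mul_of_nonneg_left h4 (Nat.cast_nonneg _))
  rw [← pow_mul_pow_sub t h3]
  ring

theorem SJB.clm_apply {A : D → F →L[ℝ] G} {f : D → F} {k : ℕ} {t a M : ℝ} {p : D} (ht : 0 ≤ t)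
    (hA : ContDiffAt ℝ ∞ A p) (hf : ContDiffAt ℝ ∞ f p) (h : SJB A k t p a)
    (h' : SJB f k t p M) : SJB (fun q => A q (f q)) k t p (2 ^ k * a * M) :=
  bil_Jet1 (ContinuousLinearMap.id ℝ (F →L[ℝ] G)) ContinuousLinearMap.norm_id_le ht hA hf h h'

theorem SJB.smul {a : D → ℝ} {f : D → F} {k : ℕ} {t b M : ℝ} {p : D} (ht : 0 ≤ t)
    (ha : ContDiffAt ℝ ∞ a p) (hf : ContDiffAt ℝ ∞ f p) (h : SJB a k t p b)
    (h' : SJB f k t p M) : SJB (fun q => a q • f q) k t p (2 ^ k * b * M) :=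
  bil_Jet1 (ContinuousLinearMap.lsmul ℝ ℝ) ContinuousLinearMap.opNorm_lsmul_le ht ha hf h h'

theorem SJB.comp {g : F → G} {φ : D → F} {k : ℕ} {t L M : ℝ} {p : D} (ht : 0 < t) (ht1 : t ≤ 1)
    (hg : ContDiffAt ℝ ∞ g (φ p)) (hφ : ContDiffAt ℝ ∞ φ p) (h : SJB g k t (φ p) M) (hL : 1 ≤ L)
    (h' : ∀ i, 1 ≤ i → i ≤ k → ‖iteratedFDeriv ℝ i φ p‖ ≤ L) :
    SJB (fun q => g (φ q)) k t p (k.factorial * L ^ k * M) := fun n hn => by
  obtain ⟨V, v1, v2, v3⟩ := open_Jet1 hg n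
  obtain ⟨U, u1, u2, u3⟩ := open_Jet1 hφ n
  have ho := u3.continuousOn.isOpen_inter_preimage u1 v1
  have hp : p ∈ U ∩ φ ⁻¹' V := ⟨u2, v2⟩
  have h1 := norm_iteratedFDerivWithin_comp_le v3 (u3.mono inter_subset_left) le_rfl
    v1.uniqueDiffOn ho.uniqueDiffOn (fun _ hq => hq.2) hp (C := M / t ^ n) (D := L)
    (fun i hi => by
      rw [iteratedFDerivWithin_of_isOpen _ v1 v2]
      exact (h.mono hn le_rfl).jb ht ht1 i hi)
    (fun i h1 hi => by
      rw [iteratedFDerivWithin_of_isOpen _ ho hp]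
      exact (h' i h1 (hi.trans hn)).trans (le_self_pow₀ hL (by omega)))
  rw [iteratedFDerivWithin_of_isOpen _ ho hp] at h1
  refine (mul_le_mul_of_nonneg_left h1 (pow_pos ht n).le).trans ?_
  have e : t ^ n * (n.factorial * (M / t ^ n) * L ^ n) = n.factorial * L ^ n * M := by
    field_simp
  rw [e]
  exact mul_le_mul_of_nonneg_right (mul_le_mul (Nat.cast_le.2 (Nat.factorial_le hn))
    (pow_le_pow_right₀ hL hn) (pow_nonneg (zero_le_one.trans hL) n) (Nat.cast_nonneg _)) h.nonneg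

theorem JB.fderiv {f : D → F} {k : ℕ} {M : ℝ} {p : D} (h : JB f (k + 1) p M) :
    JB (fderiv ℝ f) k p M := fun i hi => by
  rw [norm_iteratedFDeriv_fderiv]
  exact h (i + 1) (Nat.succ_le_succ hi)


end

end Vale.Agent.P204
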