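import Vale.Agent.P204.Jet2

/-!
P204 Jet3: parametric integrals against a finite measure carried by a compact set.
Plan: prove by induction on `n` (generalising the target space `F`): for `Φ` smooth on `U`,
`q ↦ ∫ Φ (v, q)` is `C^n` on `W` and `iteratedFDeriv`s pass under the integral. Step: by the tube
lemma a closed ball around `p` times `K` lies in `U`; `hasFDerivAt_integral_of_dominated_of_fderiv_le`
with the partial derivative `Φ' (v, q) = (fderiv Φ (v, q)).comp inr`, bounded on the compact set;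
measurability: restrict `P` to `K` (`Measure.restrict_eq_self_of_ae_mem`) and use `ContinuousOn`.
Use `contDiffOn_succ_iff_fderiv_of_isOpen`; all spaces are in `Type` so the induction can change
`F` to `D →L[ℝ] F`. For the norm bound use `norm_iteratedFDeriv_fderiv` in the induction, it
avoids the formula for the iterated derivative.
-/

namespace Vale.Agent.P204

open scoped ContDiff Topology
open Metric MeasureTheory Set Filter

noncomputable section

variable {D F G : Type} [NormedAddCommGroup D] [NormedSpace ℝ D] [NormedAddCommGroup F]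
  [NormedSpace ℝ F] [NormedAddCommGroup G] [NormedSpace ℝ G]

/-- the partial derivative in the second variable -/
def jet3_d (Φ : G × D → F) (y : G × D) : D →L[ℝ] F :=
  (fderiv ℝ Φ y).comp (ContinuousLinearMap.inr ℝ G D)

theorem jet3_smooth {Φ : G × D → F} {U : Set (G × D)} (hU : IsOpen U) (hΦ : ContDiffOn ℝ ∞ Φ U) :
    ContDiffOn ℝ ∞ (jet3_d Φ) U :=
  ((contDiffOn_infty_iff_fderiv_of_isOpen hU).1 hΦ).2.clm_comp contDiffOn_const

theorem jet3_has {Φ : G × D → F} {U : Set (G × D)} (hU : IsOpen U) (hΦ : ContDiffOn ℝ ∞ Φ U)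
    {v : G} {q : D} (h : (v, q) ∈ U) : HasFDerivAt (fun q => Φ (v, q)) (jet3_d Φ (v, q)) q :=
  ((hΦ.contDiffAt (hU.mem_nhds h)).differentiableAt (by simp)).hasFDerivAt.comp q
    (hasFDerivAt_prodMk_right v q)

variable [MeasurableSpace G] [BorelSpace G] [FiniteDimensional ℝ G] [FiniteDimensional ℝ D]
  [CompleteSpace F]

theorem integrable_pint {Φ : G × D → F} {U : Set (G × D)} {K : Set G} {p : D}
    (P : Measure G) [IsFiniteMeasure P] (hK : IsCompact K) (hP : ∀ᵐ v ∂P, v ∈ K)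
    (hΦ : ContinuousOn Φ U) (hKW : ∀ v ∈ K, (v, p) ∈ U) :
    Integrable (fun v => Φ (v, p)) P := by
  rw [← Measure.restrict_eq_self_of_ae_mem hP]
  exact (hΦ.comp (by fun_prop) hKW).integrableOn_compact hK

theorem jet3_key {Φ : G × D → F} {U : Set (G × D)} {K : Set G} {W : Set D}
    (P : Measure G) [IsFiniteMeasure P] (hK : IsCompact K) (hP : ∀ᵐ v ∂P, v ∈ K) (hU : IsOpen U)
    (hΦ : ContDiffOn ℝ ∞ Φ U) (hW : IsOpen W) (hKW : K ×ˢ W ⊆ U) {p : D} (hp : p ∈ W) :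
    HasFDerivAt (fun q => ∫ v, Φ (v, q) ∂P) (∫ v, jet3_d Φ (v, p) ∂P) p := by
  have := FiniteDimensional.proper_real D
  obtain ⟨ε, hε, hb⟩ := nhds_basis_closedBall.mem_iff.1 (hW.mem_nhds hp)
  have hc := (jet3_smooth hU hΦ).continuousOn
  obtain ⟨C, hC⟩ := (hK.prod (isCompact_closedBall p ε)).exists_bound_of_continuousOn
    (hc.mono ((prod_mono_right hb).trans hKW))
  have h1 : ∀ q ∈ W, Integrable (fun v => Φ (v, q)) P := fun q hq =>
    integrable_pint P hK hP hΦ.continuousOn fun v hv => hKW ⟨hv, hq⟩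
  exact hasFDerivAt_integral_of_dominated_of_fderiv_le (F := fun q v => Φ (v, q))
    (F' := fun q v => jet3_d Φ (v, q)) (bound := fun _ => C) (closedBall_mem_nhds p hε)
    (mem_of_superset (hW.mem_nhds hp) fun q hq => (h1 q hq).aestronglyMeasurable) (h1 p hp)
    (integrable_pint P hK hP hc fun v hv => hKW ⟨hv, hp⟩).aestronglyMeasurable
    (hP.mono fun v hv q hq => hC (v, q) ⟨hv, hq⟩) (integrable_const C)
    (hP.mono fun v hv q hq => jet3_has hU hΦ (hKW ⟨hv, hb hq⟩))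

theorem jet3_nat {U : Set (G × D)} {K : Set G} {W : Set D}
    (P : Measure G) [IsFiniteMeasure P] (hK : IsCompact K) (hP : ∀ᵐ v ∂P, v ∈ K) (hU : IsOpen U)
    (hW : IsOpen W) (hKW : K ×ˢ W ⊆ U) (n : ℕ) : ∀ (F : Type) [NormedAddCommGroup F]
      [NormedSpace ℝ F] [CompleteSpace F] (Φ : G × D → F), ContDiffOn ℝ ∞ Φ U →
      ContDiffOn ℝ n (fun q => ∫ v, Φ (v, q) ∂P) W := by
  induction n with
  | zero =>
    intro F _ _ _ Φ hΦ
    exact contDiffOn_zero.2 fun p hp =>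
      (jet3_key P hK hP hU hΦ hW hKW hp).continuousAt.continuousWithinAt
  | succ n ih =>
    intro F _ _ _ Φ hΦ
    rw [Nat.cast_succ, contDiffOn_succ_iff_fderiv_of_isOpen hW]
    exact ⟨fun p hp => (jet3_key P hK hP hU hΦ hW hKW hp).differentiableAt.differentiableWithinAt,
      by simp, (ih _ _ (jet3_smooth hU hΦ)).congr fun p hp =>
        (jet3_key P hK hP hU hΦ hW hKW hp).fderiv⟩

theorem jet3_norm {U : Set (G × D)} {K : Set G} {W : Set D}
    (P : Measure G) [IsFiniteMeasure P] (hK : IsCompact K) (hP : ∀ᵐ v ∂P, v ∈ K) (hU : IsOpen U)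
    (hW : IsOpen W) (hKW : K ×ˢ W ⊆ U) {p : D} (hp : p ∈ W) {c : ℝ} (hc : 0 ≤ c) {b : G → ℝ}
    (hb : Integrable b P) (n : ℕ) : ∀ (F : Type) [NormedAddCommGroup F]
      [NormedSpace ℝ F] [CompleteSpace F] (Φ : G × D → F), ContDiffOn ℝ ∞ Φ U →
      (∀ᵐ v ∂P, c * ‖iteratedFDeriv ℝ n (fun q => Φ (v, q)) p‖ ≤ b v) →
      c * ‖iteratedFDeriv ℝ n (fun q => ∫ v, Φ (v, q) ∂P) p‖ ≤ ∫ v, b v ∂P := by
  induction n with
  | zero =>
    intro F _ _ _ Φ _ h
    simp only [norm_iteratedFDeriv_zero, ← norm_smul_of_nonneg hc] at h ⊢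
    rw [← integral_smul]
    exact norm_integral_le_of_norm_le hb h
  | succ n ih =>
    intro F _ _ _ Φ hΦ h
    have h1 : fderiv ℝ (fun q => ∫ v, Φ (v, q) ∂P) =ᶠ[𝓝 p] fun q => ∫ v, jet3_d Φ (v, q) ∂P :=
      mem_of_superset (hW.mem_nhds hp) fun q hq => (jet3_key P hK hP hU hΦ hW hKW hq).fderiv
    rw [← norm_iteratedFDeriv_fderiv, (h1.iteratedFDeriv ℝ n).eq_of_nhds]
    refine ih _ _ (jet3_smooth hU hΦ) ((h.and hP).mono fun v hv => ?_)
    have h2 : fderiv ℝ (fun q => Φ (v, q)) =ᶠ[𝓝 p] fun q => jet3_d Φ (v, q) :=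
      mem_of_superset (hW.mem_nhds hp) fun q hq => (jet3_has hU hΦ (hKW ⟨hv.2, hq⟩)).fderiv
    rw [← (h2.iteratedFDeriv ℝ n).eq_of_nhds, norm_iteratedFDeriv_fderiv]
    exact hv.1

theorem contDiffOn_pint {Φ : G × D → F} {U : Set (G × D)} {K : Set G} {W : Set D}
    (P : Measure G) [IsFiniteMeasure P] (hK : IsCompact K) (hP : ∀ᵐ v ∂P, v ∈ K) (hU : IsOpen U)
    (hΦ : ContDiffOn ℝ ∞ Φ U) (hW : IsOpen W) (hKW : K ×ˢ W ⊆ U) :
    ContDiffOn ℝ ∞ (fun q => ∫ v, Φ (v, q) ∂P) W :=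
  contDiffOn_infty.2 fun n => jet3_nat P hK hP hU hW hKW n F Φ hΦ

theorem fderiv_pint {Φ : G × D → F} {U : Set (G × D)} {K : Set G} {W : Set D}
    (P : Measure G) [IsFiniteMeasure P] (hK : IsCompact K) (hP : ∀ᵐ v ∂P, v ∈ K) (hU : IsOpen U)
    (hΦ : ContDiffOn ℝ ∞ Φ U) (hW : IsOpen W) (hKW : K ×ˢ W ⊆ U) {p : D} (hp : p ∈ W) :
    Integrable (fun v => fderiv ℝ (fun q => Φ (v, q)) p) P ∧
    fderiv ℝ (fun q => ∫ v, Φ (v, q) ∂P) p = ∫ v, fderiv ℝ (fun q => Φ (v, q)) p ∂P := by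
  have h1 : (fun v => jet3_d Φ (v, p)) =ᵐ[P] fun v => fderiv ℝ (fun q => Φ (v, q)) p :=
    hP.mono fun v hv => (jet3_has hU hΦ (hKW ⟨hv, hp⟩)).fderiv.symm
  exact ⟨(integrable_pint P hK hP (jet3_smooth hU hΦ).continuousOn
    fun v hv => hKW ⟨hv, hp⟩).congr h1,
    (jet3_key P hK hP hU hΦ hW hKW hp).fderiv.trans (integral_congr_ae h1)⟩

theorem sjb_pint {Φ : G × D → F} {U : Set (G × D)} {K : Set G} {W : Set D}
    (P : Measure G) [IsFiniteMeasure P] (hK : IsCompact K) (hP : ∀ᵐ v ∂P, v ∈ K) (hU : IsOpen U)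
    (hΦ : ContDiffOn ℝ ∞ Φ U) (hW : IsOpen W) (hKW : K ×ˢ W ⊆ U) {p : D} (hp : p ∈ W)
    {k : ℕ} {t : ℝ} (ht : 0 ≤ t) {b : G → ℝ} (hb : Integrable b P)
    (h : ∀ᵐ v ∂P, SJB (fun q => Φ (v, q)) k t p (b v)) :
    SJB (fun q => ∫ v, Φ (v, q) ∂P) k t p (∫ v, b v ∂P) := fun i hi =>
  jet3_norm P hK hP hU hW hKW hp (pow_nonneg ht i) hb i F Φ hΦ (h.mono fun _ hv => hv i hi)


end

end Vale.Agent.P204
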