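import Vale.Agent.P204.Defs2
import Vale.Agent.P204.Alg3
import Vale.Agent.P204.Jet3
import Vale.Agent.P204.Ms1
import Vale.Agent.P204.Ms2
import Vale.Agent.P204.Cal
import Vale.Agent.P204.L.Fin

/-!
P204 LocMain: local analysis of a closed current `T + A`. See notes/P204.md section L.
-/

namespace Vale.Agent.P204

open scoped ContDiff Topology
open Metric MeasureTheory Set Filter

noncomputable section

theorem Loc.growth (D : Loc) (k : ℕ) (C₀ : ℝ) : ∃ C ≥ 1, ∃ t₀ > 0, ∀ (A : (E → Bil) → ℝ)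
    (α t : ℝ), 0 ≤ α → 0 < t → t ≤ t₀ →
    (∀ γ : E → Cov, Supp (5 / 2) γ →
      ∫ y, D.lin (d1 γ) y ∂D.μ + A (fun p => pm (D.J p) (d1 γ p)) = 0) →
    (∀ s c, IsLoc (5 / 2) s → (∀ p, pm (D.J p) (s p) = s p) → 0 ≤ c → LMaj s k t C₀ c →
      |A s| ≤ α * c) →
    ∀ x ∈ closedBall (0 : E) 2, ∀ s, t ≤ s → bm D.μ x s ≤ C * (1 + α) * s ^ 2 :=
  D.growth' k C₀

theorem measurableSet_Zs (μ : Measure (E × E)) [IsFiniteMeasure μ] : MeasurableSet (Zs μ) :=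
  Zs_meas μ

theorem not_mem_Zs_iff (μ : Measure (E × E)) [IsFiniteMeasure μ] (p : E) :
    p ∉ Zs μ ↔ Tendsto (fun s : ℝ => bm μ p s / s ^ 2) (𝓝[>] 0) (𝓝 0) := Zs_iff μ p

theorem Loc.closedD (D : Loc) (a : E → Bil →L[ℝ] ℝ) (ha : MemLp a 2 volume)
    (hanti : ∀ y ∈ closedBall (0 : E) 3, ∀ b, a y (pm (D.J y) b) = a y b)
    (hcl : ∀ γ : E → Cov, Supp (5 / 2) γ →
      ∫ y, D.lin (d1 γ) y ∂D.μ + ∫ y, a y (d1 γ y) = 0)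
    {Θ : ℝ} (hg : ∀ x ∈ closedBall (0 : E) 2, ∀ s > 0, bm D.μ x s ≤ Θ * s ^ 2)
    {C r₀ : ℝ} (hr₀ : 0 < r₀)
    (hI : ∀ r ∈ Ioc (0 : ℝ) r₀, ∫ x in Prod.fst ⁻¹' closedBall (0 : E) 2,
      (∫ y in Prod.fst ⁻¹' closedBall x.1 r, Del (D.g x.1) (D.J x.1) x.2 y.2 ∂D.μ) ∂D.μ ≤
        C * r ^ 4)
    (γ : E → Cov) (hγ : Supp 1 γ) :
    ∫ y in Prod.fst ⁻¹' Zs D.μ, D.lin (d1 γ) y ∂D.μ = 0 :=
  Loc.Hyp.closed ⟨ha, hanti, hcl, ⟨|Θ|, abs_nonneg Θ, fun x hx s hs => (hg x hx s hs).trans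
    (mul_le_mul_of_nonneg_right (le_abs_self Θ) (sq_nonneg s))⟩, C, r₀, hr₀, hI⟩ hγ


end

end Vale.Agent.P204
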