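import Vale.Agent.P204.R.Unif
import Vale.Agent.P204.R2.Main

/-!
P204 RegMain: existence of the regularisation package. See notes/P204.md section R.
-/

namespace Vale.Agent.P204

open scoped ContDiff Topology
open Metric MeasureTheory Set Filter

noncomputable section

/-- the mollifier measure at scale `t` -/
def Pt (t : ℝ) : Measure E := P1.map fun v => t • v

theorem integral_Pt {t : ℝ} (ht : 0 < t) (f : E → Bil) : ∫ v, f v ∂Pt t = ∫ v, f (t • v) ∂P1 :=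
  (measurableEmbedding_const_smul₀ ht.ne').integral_map f

theorem cut_aB : Cut aB := ⟨aB_supp, aB_nonneg, aB_le, fun _ h => aB_one h⟩

theorem car_Pt {t : ℝ} (ht : t ∈ Ioc (0 : ℝ) (1 / 4)) : Car (Pt t) t := by
  refine ⟨Measure.isProbabilityMeasure_map (measurable_const_smul t).aemeasurable,
    (measurableEmbedding_const_smul₀ ht.1.ne').ae_map_iff.2 (P1_supp.mono fun v hv => ?_), ht.2⟩
  rw [mem_closedBall_zero_iff, norm_smul, Real.norm_of_nonneg ht.1.le]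
  exact mul_le_of_le_one_right ht.1.le (mem_closedBall_zero_iff.1 hv)

theorem dens_Pt {t : ℝ} (ht : 0 < t) : Dens (Pt t) (rho t) t :=
  ⟨rho_supp ht, fun f _ => by
    simpa only [zero_add, sub_zero, integral_Pt ht] using integral_P1_conv ht f 0⟩

namespace Atlas

variable {𝒜 : Atlas}

theorem isReg1_reg1 {t : ℝ} (ht : t ∈ Ioc (0 : ℝ) (1 / 4)) (l : Fin 𝒜.n) :
    IsReg1 aB (Pt t) l (𝒜.reg1 l t) := fun b => by
  rw [reg1_apply ht]
  simp only [gflat, integral_Pt ht.1]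
  rfl

theorem regL_prod (ls : List (Fin 𝒜.n)) (t : ℝ) :
    𝒜.regL ls t = (ls.map fun l => (𝒜.reg1 l t : Module.End ℝ 𝒜.Form)).prod := by
  induction ls with
  | nil => rfl
  | cons l ls ih => rw [List.map_cons, List.prod_cons, ← ih]; rfl

end Atlas

open Atlas in
theorem exists_reg (𝒜 : Atlas) : Nonempty 𝒜.Reg := by
  refine ⟨⟨𝒜.RR, ⟨1 / 4, by norm_num, fun t ht β h => ?_⟩, ⟨1 / 4, by norm_num, fun t ht β h => ?_⟩,
    ?_, RR_jet, RR_small, fun k => ?_, fun k => ?_, RR_pos0, RR_pos1'⟩⟩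
  · rw [RR, regL_prod]
    exact prod_closed cut_aB (car_Pt ht) (isReg1_reg1 ht) _ h
  · rw [RR, regL_prod]
    exact prod_exact cut_aB (car_Pt ht) (isReg1_reg1 ht) _ h
  · obtain ⟨t₀, h0, h⟩ := prod_rep (𝒜 := 𝒜) cut_aB _ List.mem_finRange
    refine ⟨min t₀ (1 / 4), by positivity, fun t ht S k C hS => ?_⟩
    have h1 : t ∈ Ioc (0 : ℝ) (1 / 4) := ⟨ht.1, ht.2.trans (min_le_right _ _)⟩
    rw [RR, regL_prod]
    exact h _ _ t (car_Pt h1) (dens_Pt ht.1) (ht.2.trans (min_le_left _ _)) _ (isReg1_reg1 h1) S k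
      C hS
  · obtain ⟨C, h1, t₀, h2, h3, h4⟩ := RR_smooth' (𝒜 := 𝒜) k
    exact ⟨C, h1, t₀, h2, h3, fun t ht β j p hp => (h4 t ht j β p hp).1⟩
  · obtain ⟨C, h1, t₀, h2, h3, h4⟩ := RR_smooth' (𝒜 := 𝒜) k
    exact ⟨C, h1, t₀, h2, h3, fun t ht β j p hp => (h4 t ht j β p hp).2⟩

end

end Vale.Agent.P204
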