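import Vale.Agent.P204.Mn3
import Vale.Agent.P204.El4
import Vale.Agent.P204.Hb
import Vale.Agent.P204.RegMain

/-!
P204 Main: the theorem for an abstract atlas.
Plan: `no_sit` from `A_zero`, `kill ΩF`, `cur_Ω_pos`, `Am_Am`. `atlas_main`: let `C` be the constant of
`correction`, `C_J ≥ ‖J‖` on the unit balls (`herm`), `Λ = C C_J + 1`. By `hb_main 6` and `no_sit`
there is a closed `β` with `Λ cn 6 (Am β) < lin β` on the compact set of unit vectors, so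
`Λ cn 6 (Am β) + m ≤ lin β` for some `m > 0` (`lin_contOn`, `IsCompact.exists_isMinOn`). Apply
`correction` with `M = cn 6 (Am β) + m / (2 C C_J)`; `β - β'` works: positivity on the unit balls by
homogeneity, on `ball 0 4` by `cover`, `lin_compat` and injectivity of `fderiv τ` (`dτ_bounds`).
-/

namespace Vale.Agent.P204

open scoped ContDiff Topology
open Metric MeasureTheory Set Filter

noncomputable section

namespace Atlas

variable {𝒜 : Atlas}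

theorem pos_of_mul_pos_of_pos_Main {a b : ℝ} (h : 0 < a * (a * b)) (ha : 0 < a) : 0 < b :=
  (mul_pos_iff_of_pos_left ha).1 ((mul_pos_iff_of_pos_left ha).1 h)

theorem no_sit (S : Sit 𝒜) : False := by
  have h1 := S.kill _ closed_ΩF
  rw [S.A_zero _ (Am_Am _), add_zero] at h1
  exact (S.T.cur_Ω_pos S.mass).ne' h1

theorem gap_Main (β : 𝒜.Form) {a : ℝ}
    (h : ∀ j, ∀ p ∈ closedBall (0 : E) 1, ∀ w : E, ‖w‖ = 1 → a < lin β j (p, w)) :
    ∃ m > 0, ∀ j, ∀ p ∈ closedBall (0 : E) 1, ∀ w : E, ‖w‖ = 1 → a + m ≤ lin β j (p, w) := by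
  have hK : IsCompact (closedBall (0 : E) 1 ×ˢ sphere (0 : E) 1) :=
    (isCompact_closedBall _ _).prod (isCompact_sphere _ _)
  have h1 : ∀ j, ∃ m > 0, ∀ p ∈ closedBall (0 : E) 1, ∀ w : E, ‖w‖ = 1 →
      a + m ≤ lin β j (p, w) := fun j => by
    obtain ⟨a', ha, h'⟩ := hK.exists_forall_le' (a := a) ((lin_contOn β j).mono
      (prod_mono (cb_sub (by norm_num)) (subset_univ _)))
      fun y hy => h j y.1 hy.1 y.2 (mem_sphere_zero_iff_norm.1 hy.2)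
    refine ⟨a' - a, sub_pos.2 ha, fun p hp w hw => ?_⟩
    have := h' (p, w) ⟨hp, mem_sphere_zero_iff_norm.2 hw⟩
    linarith
  choose m hm h2 using h1
  have : Nonempty (Fin 𝒜.n) := ⟨⟨0, 𝒜.npos⟩⟩
  obtain ⟨j0, hj⟩ := Finite.exists_min m
  exact ⟨m j0, hm j0, fun j p hp w hw => by linarith [h2 j p hp w hw, hj j]⟩

theorem pos_Main (β : 𝒜.Form)
    (h : ∀ j, ∀ p ∈ closedBall (0 : E) 1, ∀ w : E, ‖w‖ = 1 → 0 < lin β j (p, w)) :
    ∀ j, ∀ p ∈ ball (0 : E) 4, ∀ v, v ≠ 0 → 0 < β.1 j p v (𝒜.J j p v) := by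
  have h1 : ∀ j, ∀ p ∈ closedBall (0 : E) 1, ∀ v : E, v ≠ 0 → 0 < lin β j (p, v) := by
    intro j p hp v hv
    have hn : 0 < ‖v‖ := norm_pos_iff.2 hv
    have h2 := h j p hp (‖v‖⁻¹ • v) (by
      rw [norm_smul, norm_inv, norm_norm, inv_mul_cancel₀ hn.ne'])
    simp only [lin, map_smul, smul_apply, smul_eq_mul] at h2 ⊢
    exact pos_of_mul_pos_of_pos_Main h2 (inv_pos.2 hn)
  intro i p hp v hv
  obtain ⟨j, hj, hq⟩ := 𝒜.cover i p hp
  have hr : ‖p‖ < 4 := mem_ball_zero_iff.1 hp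
  obtain ⟨L, -, hL⟩ := dτ_bounds (𝒜 := 𝒜) hr (by norm_num : (1 : ℝ) < 4)
  have h2 := (hL i j p ⟨mem_closedBall_zero_iff.2 le_rfl, hj, hq⟩).1 v
  have h3 : fderiv ℝ (𝒜.τ i j) p v ≠ 0 := by
    intro h0
    rw [h0, norm_zero, mul_zero] at h2
    exact hv (norm_le_zero_iff.1 h2)
  have h4 := h1 j _ hq _ h3
  rwa [lin_compat β i j (y := (p, v)) hj] at h4

theorem atlas_main (𝒜 : Atlas) : ∃ β : 𝒜.Form, Closed β ∧ 𝒜.Am β = 0 ∧
    ∀ j, ∀ p ∈ ball (0 : E) 4, ∀ v, v ≠ 0 → 0 < β.1 j p v (𝒜.J j p v) := by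
  obtain ⟨ℛ⟩ := exists_reg 𝒜
  obtain ⟨C, hC, hcor⟩ := ℛ.correction
  obtain ⟨c, CJ, hCJ, hH⟩ := herm (𝒜 := 𝒜) (by norm_num : (1 : ℝ) < 4)
  have hP : 0 < C * CJ := by positivity
  have h1 : ∃ β : 𝒜.Form, Closed β ∧ ∀ j, ∀ p ∈ closedBall (0 : E) 1, ∀ w : E, ‖w‖ = 1 →
      C * CJ * cn 6 (𝒜.Am β) < lin β j (p, w) := by
    by_contra hn
    obtain ⟨T, A, h1, h2, h3⟩ := hb_main (𝒜 := 𝒜) 6 hP.le fun β hβ h => hn ⟨β, hβ, h⟩
    exact no_sit ⟨ℛ, T, A, _, h1, h2, h3⟩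
  obtain ⟨β, hβ, h2⟩ := h1
  obtain ⟨m, hm, h3⟩ := gap_Main β h2
  have h0 := cn_nonneg 6 (𝒜.Am β)
  have hq : 0 < m / (2 * (C * CJ)) := by positivity
  obtain ⟨β', hβ', h4, h5⟩ := hcor (𝒜.Am β) (cn 6 (𝒜.Am β) + m / (2 * (C * CJ))) (by linarith)
    (Am_Am β) ((Cn_cn 6 _).mono le_rfl (by linarith))
  refine ⟨β - β', hβ.sub hβ', by rw [map_sub, h4, sub_self], pos_Main _ fun j p hp w hw => ?_⟩
  have h6 := h5 j p hp 0 le_rfl
  rw [norm_iteratedFDeriv_zero] at h6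
  have h7 : ‖𝒜.J j p w‖ ≤ CJ := by
    have := ((𝒜.J j p).le_opNorm w).trans (mul_le_mul_of_nonneg_right (hH j p hp).Jle
      (norm_nonneg _))
    rwa [hw, mul_one] at this
  have h8 : lin β' j (p, w) ≤ C * (cn 6 (𝒜.Am β) + m / (2 * (C * CJ))) * CJ := by
    refine (le_abs_self _).trans (((β'.1 j p).le_opNorm₂ w _).trans ?_)
    rw [hw, mul_one]
    exact mul_le_mul h6 h7 (norm_nonneg _) (by positivity)
  have h9 : C * (cn 6 (𝒜.Am β) + m / (2 * (C * CJ))) * CJ = C * CJ * cn 6 (𝒜.Am β) + m / 2 := by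
    field_simp
  have h10 : lin (β - β') j (p, w) = lin β j (p, w) - lin β' j (p, w) := by
    simp only [lin, Submodule.coe_sub, Pi.sub_apply, sub_apply]
  have h11 := h3 j p hp w hw
  rw [h10]
  linarith

end Atlas

end

end Vale.Agent.P204
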