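import Vale.Agent.P204.Tr1
import Vale.Agent.P204.LocMain

/-!
P204 Tr2: restriction of the current to the set of positive density.
Plan: `bm_tr_le`: for small `s`, every base point of `fst ⁻¹' ov l i 1 3` mapped into
`closedBall p s` lies in `ov l j 1 3` and is mapped by `τ l j = τ i j ∘ τ l i` into
`closedBall (τ i j p) (L s)` (`lip`, `cocycle`; `Measure.map_apply_of_aemeasurable`). `Zs_compat` from
`bm_tr_le` in both directions (`τ_inv`) and `not_mem_Zs_iff`. `cur_restr_Zs`: `integral_tr` for the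
indicator of `fst ⁻¹' Zs` times the integrand, compare term by term with `cur_apply`
(`lin_compat`, `ext_self`, `ext_ne_zero`).
-/

namespace Vale.Agent.P204

open scoped ContDiff Topology
open Metric MeasureTheory Set Filter

noncomputable section

namespace Atlas

variable {𝒜 : Atlas}

/-- the sets of positive density -/
def PM.Z (T : 𝒜.PM) : Fin 𝒜.n → Set E := fun j => Zs (T.tr j)

theorem tr2_ms (i j : Fin 𝒜.n) : MeasurableSet (Prod.fst ⁻¹' 𝒜.ov i j 1 3 : Set (E × E)) :=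
  measurable_fst (ov_compact i j (by norm_num) (by norm_num)).measurableSet

theorem tr2_apply (T : 𝒜.PM) (j : Fin 𝒜.n) {A : Set E} (hA : MeasurableSet A) :
    T.tr j (Prod.fst ⁻¹' A) = ∑ i, T.m i {y | 𝒜.τ i j y.1 ∈ A ∧ y.1 ∈ 𝒜.ov i j 1 3} := by
  rw [PM.tr, Measure.finsetSum_apply]
  refine Finset.sum_congr rfl fun i _ => ?_
  have h1 : ContinuousOn (fun y : E × E => (𝒜.τ i j y.1, fderiv ℝ (𝒜.τ i j) y.1 y.2))
      (Prod.fst ⁻¹' 𝒜.ov i j 1 3) := fun y hy =>
    (((τ_contDiffAt i j hy.2.1).continuousAt.comp continuousAt_fst).prodMk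
      (((dτ_At3 i j hy.2.1).continuousAt.comp continuousAt_fst).clm_apply
        continuousAt_snd)).continuousWithinAt
  rw [Measure.map_apply_of_aemeasurable (h1.aemeasurable (tr2_ms i j)) (measurable_fst hA),
    Measure.restrict_apply' (tr2_ms i j)]
  rfl

theorem tr2_meas (μ : Measure (E × E)) [IsFiniteMeasure μ] (s : ℝ) :
    Measurable fun p => bm μ p s := by
  have h : MeasurableSet {z : E × E × E | dist z.2.1 z.1 ≤ s} :=
    measurableSet_le (by fun_prop) measurable_const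
  exact (measurable_measure_prodMk_left (ν := μ) h).ennreal_toReal

theorem tr2_scale {f : ℝ → ℝ} (h : Tendsto (fun s : ℝ => f s / s ^ 2) (𝓝[>] 0) (𝓝 0)) {L : ℝ}
    (hL : 0 < L) : Tendsto (fun s : ℝ => f (L * s) / s ^ 2) (𝓝[>] 0) (𝓝 0) := by
  have h1 : Tendsto (fun s : ℝ => L * s) (𝓝[>] 0) (𝓝[>] 0) := by
    refine tendsto_nhdsWithin_iff.2 ⟨?_, ?_⟩
    · have h2 : Tendsto (fun s : ℝ => L * s) (𝓝 0) (𝓝 (L * 0)) :=
        (continuous_const.mul continuous_id).tendsto 0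
      rw [mul_zero] at h2
      exact h2.mono_left nhdsWithin_le_nhds
    · filter_upwards [self_mem_nhdsWithin] with s hs
      exact mul_pos hL hs
  have h2 := (h.comp h1).const_mul (L ^ 2)
  rw [mul_zero] at h2
  refine h2.congr' ?_
  filter_upwards [self_mem_nhdsWithin] with s hs
  have h3 : s ≠ 0 := ne_of_gt hs
  simp only [Function.comp_apply]
  field_simp

theorem PM.cur_split (T : 𝒜.PM) {Z : Fin 𝒜.n → Set E} (hZ : ∀ j, MeasurableSet (Z j))
    (β : 𝒜.Form) : T.cur β = (T.restr Z).cur β + (T.restr fun j => (Z j)ᶜ).cur β := by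
  rw [PM.cur_apply, PM.cur_apply, PM.cur_apply, ← Finset.sum_add_distrib]
  exact Finset.sum_congr rfl fun j _ =>
    (integral_add_compl (measurable_fst (hZ j)) (lin_int T β j)).symm

theorem PM.restr_mass (T : 𝒜.PM) (Z : Fin 𝒜.n → Set E) : (T.restr Z).mass ≤ T.mass := by
  refine Finset.sum_le_sum fun j _ => ?_
  exact ENNReal.toReal_mono (measure_ne_top _ _) (Measure.restrict_apply_le _ _)

theorem PM.Growth.restr {T : 𝒜.PM} {t Θ : ℝ} (h : T.Growth t Θ) (Z : Fin 𝒜.n → Set E) :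
    (T.restr Z).Growth t Θ := by
  intro j x hx s hs hs0
  refine le_trans (ENNReal.toReal_mono (measure_ne_top _ _) ?_) (h j x hx s hs hs0)
  rw [tr2_apply _ j measurableSet_closedBall, tr2_apply _ j measurableSet_closedBall]
  exact Finset.sum_le_sum fun i _ => Measure.restrict_apply_le _ _

theorem PM.Growth.mono {T : 𝒜.PM} {t t' Θ : ℝ} (h : T.Growth t Θ) (ht : t ≤ t') :
    T.Growth t' Θ := fun j x hx s hs hs0 => h j x hx s (ht.trans hs) hs0

theorem PM.bm_tr_le (T : 𝒜.PM) (i j : Fin 𝒜.n) {p : E} (hp : p ∈ 𝒜.ov i j (5 / 2) (5 / 2)) :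
    ∃ L ≥ 1, ∃ s₀ > 0, ∀ s ∈ Ioc (0 : ℝ) s₀, bm (T.tr i) p s ≤ bm (T.tr j) (𝒜.τ i j p) (L * s) := by
  obtain ⟨δ, hδ, L, hL, h⟩ := lip (𝒜 := 𝒜) (r := 5 / 2) (r' := 5 / 2) (by norm_num) (by norm_num)
  have hL0 : 0 < L := by linarith
  refine ⟨L, hL, min δ (1 / (2 * L)), lt_min hδ (by positivity), fun s hs => ?_⟩
  refine ENNReal.toReal_mono (measure_ne_top _ _) ?_
  rw [tr2_apply _ i measurableSet_closedBall, tr2_apply _ j measurableSet_closedBall]
  refine Finset.sum_le_sum fun l _ => measure_mono fun y hy => ?_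
  have h1 : dist (𝒜.τ l i y.1) p ≤ s := hy.1
  obtain ⟨h2, h3⟩ := h i j p hp _ (h1.trans (hs.2.trans (min_le_left _ _)))
  obtain ⟨h4, h5⟩ := 𝒜.cocycle l i j _ hy.2.2.1 h2
  rw [h5] at h3
  have h6 : dist (𝒜.τ l j y.1) (𝒜.τ i j p) ≤ L * s := h3.trans (by gcongr)
  have h7 : s * (2 * L) ≤ 1 := (le_div_iff₀ (by positivity)).1 (hs.2.trans (min_le_right _ _))
  refine ⟨h6, hy.2.1, h4, ?_⟩
  have h8 : dist (𝒜.τ i j p) 0 ≤ 5 / 2 := hp.2.2
  have h9 := dist_triangle (𝒜.τ l j y.1) (𝒜.τ i j p) 0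
  exact mem_closedBall.2 (by linarith)

theorem PM.Zs_compat (T : 𝒜.PM) (i j : Fin 𝒜.n) {p : E} (hp : p ∈ 𝒜.ov i j (5 / 2) (5 / 2)) :
    p ∈ T.Z i ↔ 𝒜.τ i j p ∈ T.Z j := by
  have key : ∀ i j, ∀ p ∈ 𝒜.ov i j (5 / 2) (5 / 2), 𝒜.τ i j p ∉ T.Z j → p ∉ T.Z i := by
    intro i j p hp h
    obtain ⟨L, hL, s₀, hs₀, h1⟩ := T.bm_tr_le i j hp
    have h2 := tr2_scale ((not_mem_Zs_iff _ _).1 h) (L := L) (by linarith)
    refine (not_mem_Zs_iff _ _).2 (squeeze_zero' (Eventually.of_forall fun s =>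
      div_nonneg measureReal_nonneg (sq_nonneg s)) ?_ h2)
    filter_upwards [Ioc_mem_nhdsGT hs₀] with s hs
    exact div_le_div_of_nonneg_right (h1 s hs) (sq_nonneg s)
  refine ⟨fun h => by_contra fun g => key i j p hp g h, fun h => by_contra fun g => ?_⟩
  exact key j i _ (ov_swap_At1 hp) (by rwa [τ_inv i j hp.2.1]) h

theorem PM.cur_restr_Zs (T : 𝒜.PM) (j : Fin 𝒜.n) {s : E → Bil} (hs : IsLoc 2 s) :
    (T.restr T.Z).cur (𝒜.ext j s) =
      ∫ y in Prod.fst ⁻¹' T.Z j, s y.1 y.2 (𝒜.J j y.1 y.2) ∂(T.tr j) := by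
  have hZ : ∀ i, MeasurableSet (Prod.fst ⁻¹' T.Z i : Set (E × E)) := fun i =>
    measurable_fst (measurableSet_Zs _)
  have e : (fun y : E × E => s y.1 y.2 (𝒜.J j y.1 y.2)) = lin (𝒜.ext j s) j := by
    funext y
    rw [lin, ext_self j (by norm_num) hs]
  rw [e, ← integral_indicator (hZ j),
    (T.integral_tr j ((T.lin_int_tr (𝒜.ext j s) j).indicator (hZ j))).2, PM.cur_apply]
  refine Finset.sum_congr rfl fun i _ => ?_
  refine (integral_indicator (hZ i)).symm.trans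
    (Eq.trans (integral_congr_ae ?_) (integral_indicator (tr2_ms i j)))
  filter_upwards [T.supp i] with y hy
  by_cases h0 : (𝒜.ext j s).1 i y.1 = 0
  · have h1 : lin (𝒜.ext j s) i y = 0 := by rw [lin, h0]; rfl
    rw [indicator_apply_eq_zero.2 fun _ => h1]
    refine (indicator_apply_eq_zero.2 fun h => indicator_apply_eq_zero.2 fun _ => ?_).symm
    rw [lin_compat _ i j h.2.1, h1]
  · obtain ⟨h1, h2⟩ := ext_ne_zero j i (by norm_num) hs h0
    have h3 : 𝒜.τ i j y.1 ∈ closedBall (0 : E) 2 := by_contra fun g => h2 (hs.1.2 _ g)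
    have h4 : y ∈ (Prod.fst ⁻¹' 𝒜.ov i j 1 3 : Set (E × E)) :=
      ⟨hy.1, h1, closedBall_subset_closedBall (by norm_num) h3⟩
    have h5 : y.1 ∈ T.Z i ↔ 𝒜.τ i j y.1 ∈ T.Z j := T.Zs_compat i j ⟨closedBall_subset_closedBall (by norm_num) hy.1, h1,
      closedBall_subset_closedBall (by norm_num) h3⟩
    rw [indicator_of_mem h4]
    by_cases h6 : y.1 ∈ T.Z i
    · have h7 : y ∈ (Prod.fst ⁻¹' T.Z i : Set (E × E)) := h6
      have h8 : (𝒜.τ i j y.1, fderiv ℝ (𝒜.τ i j) y.1 y.2) ∈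
        (Prod.fst ⁻¹' T.Z j : Set (E × E)) := h5.1 h6
      rw [indicator_of_mem h7, indicator_of_mem h8, lin_compat _ i j h1]
    · have h7 : y ∉ (Prod.fst ⁻¹' T.Z i : Set (E × E)) := h6
      have h8 : (𝒜.τ i j y.1, fderiv ℝ (𝒜.τ i j) y.1 y.2) ∉
        (Prod.fst ⁻¹' T.Z j : Set (E × E)) := fun g => h6 (h5.2 g)
      rw [indicator_of_notMem h7, indicator_of_notMem h8]

/-- the negative part of the final pairing tends to zero -/
theorem PM.neg_tendsto (T : 𝒜.PM) {Θ : ℝ} (h : T.Growth 0 Θ) {C : ℝ} (hC : 1 ≤ C) :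
    Tendsto (fun t : ℝ => ∑ j, ∫ y, bm (T.tr j) y.1 (C * t) / t ^ 2
      ∂((T.restr fun i => (T.Z i)ᶜ).m j)) (𝓝[>] 0) (𝓝 0) := by
  have hC0 : 0 < C := by linarith
  have key : ∀ j, Tendsto (fun t : ℝ => ∫ y, bm (T.tr j) y.1 (C * t) / t ^ 2
      ∂((T.restr fun i => (T.Z i)ᶜ).m j)) (𝓝[>] 0) (𝓝 0) := fun j => by
    have h1 := tendsto_integral_filter_of_dominated_convergence (l := 𝓝[>] (0 : ℝ))
      (μ := (T.restr fun i => (T.Z i)ᶜ).m j)
      (F := fun t y => bm (T.tr j) y.1 (C * t) / t ^ 2) (f := fun _ => 0) (fun _ => Θ * C ^ 2)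
      (Eventually.of_forall fun t =>
        (((tr2_meas _ _).comp measurable_fst).div_const _).aestronglyMeasurable) ?_
      (integrable_const _) ?_
    · rwa [integral_zero] at h1
    · filter_upwards [self_mem_nhdsWithin] with t ht
      filter_upwards [(T.restr fun i => (T.Z i)ᶜ).supp j] with y hy
      have ht0 : 0 < t := ht
      have h2 := h j y.1 (closedBall_subset_closedBall (by norm_num) hy.1) (C * t) (by positivity)
        (by positivity)
      have h3 : 0 ≤ bm (T.tr j) y.1 (C * t) := measureReal_nonneg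
      rw [Real.norm_of_nonneg (div_nonneg h3 (sq_nonneg t)),
        div_le_iff₀ (by positivity)]
      linarith
    · have h2 : MeasurableSet (Prod.fst ⁻¹' (T.Z j)ᶜ : Set (E × E)) :=
        measurable_fst (measurableSet_Zs _).compl
      filter_upwards [ae_restrict_mem (μ := T.m j) h2] with y hy
      exact tr2_scale ((not_mem_Zs_iff _ _).1 hy) hC0
  have h1 := tendsto_finsetSum Finset.univ fun j _ => key j
  rwa [Finset.sum_const_zero] at h1

theorem measurable_bm (μ : Measure (E × E)) [IsFiniteMeasure μ] (s : ℝ) :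
    Measurable fun p => bm μ p s := tr2_meas μ s

end Atlas

end

end Vale.Agent.P204
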