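import Vale.Agent.P204.Te2
import Vale.Agent.P204.Tr2

/-!
P204 Te3: lower bounds for the pairing of two regularised positive currents.
Plan: `rep_T_lin`: field `pos0` (norm bound `C₁ * max 1 ‖J‖`, its constant is `C₂` for
`rep_T_point`, `δ = c`), `Del_nonneg`; shrink `c` (monotonicity of the integral of the
nonnegative `Del` in the radius). `pair_TT_ge`: `pair η η' = T.cur (R η')`, `cur_apply`,
`integral_mono_ae`, `measurable_bm`. `pair_TT_pos`: `cur_ge_local` with `N = C³ Θ`, `tr_supp`,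
`tr_mass`; the inner integral is a bounded measurable function of `x`
(`StronglyMeasurable.integral_prod_right` after replacing `g`, `J` by the globally smooth versions
of `exists_loc`).
-/

namespace Vale.Agent.P204

open scoped ContDiff Topology
open Metric MeasureTheory Set Filter

noncomputable section

namespace Atlas

variable {𝒜 : Atlas}

theorem te3_int (T : 𝒜.PM) (j : Fin 𝒜.n) {g : Bil} {J : End} {c C : ℝ} (h : Herm g J c C)
    (w : E) : Integrable (fun y : E × E => Del g J w y.2) (T.tr j) := by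
  obtain ⟨c', -, C', -, -, hs⟩ := PM.tr_supp (𝒜 := 𝒜)
  have hc : Continuous fun y : E × E => Del g J w y.2 := by
    unfold Del
    fun_prop
  refine Integrable.of_bound hc.aestronglyMeasurable (C ^ 2 * ‖w‖ ^ 2 * C' ^ 2) ?_
  filter_upwards [hs T j] with y hy
  rw [Real.norm_of_nonneg (h.Del_nonneg _ _)]
  refine (h.Del_le _ _).trans ?_
  gcongr
  exact hy.2.2

theorem te3_bm (μ : Measure (E × E)) (x : E) (s : ℝ) : 0 ≤ bm μ x s := measureReal_nonneg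

theorem te3_nn (T : 𝒜.PM) (j : Fin 𝒜.n) {p : E} (hp : p ∈ closedBall (0 : E) 2) (w : E)
    (S : Set (E × E)) : 0 ≤ ∫ y in S, Del (𝒜.g j p) (𝒜.J j p) w y.2 ∂(T.tr j) := by
  obtain ⟨c, C, -, h⟩ := herm (𝒜 := 𝒜) (r := 2) (by norm_num)
  exact integral_nonneg fun y => (h j p hp).Del_nonneg _ _

theorem Reg.rep_T_lin (ℛ : 𝒜.Reg) (c₁ C₁ : ℝ) (hc₁ : 0 < c₁) :
    ∃ c > 0, ∃ C ≥ 1, ∃ t₀ > 0, c ≤ 1 ∧ ∀ t ∈ Ioc (0 : ℝ) t₀, ∀ (T : 𝒜.PM) (η : 𝒜.Form),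
    Rep η (T.cur ∘ₗ ℛ.R t) → ∀ j, ∀ p ∈ closedBall (0 : E) 2, ∀ w : E, c₁ ≤ ‖w‖ → ‖w‖ ≤ C₁ →
      c / t ^ 4 * ∫ y in Prod.fst ⁻¹' closedBall p (c * t),
          Del (𝒜.g j p) (𝒜.J j p) w y.2 ∂(T.tr j) - C / t ^ 2 * bm (T.tr j) p (C * t) ≤
        lin (ℛ.R t η) j (p, w) := by
  obtain ⟨ch, Ch, hh1, hh⟩ := herm (𝒜 := 𝒜) (r := 2) (by norm_num)
  obtain ⟨C₂, h21, h2⟩ := ℛ.pos0 (Ch * C₁)
  obtain ⟨c₃, hc3, C₃, h31, t₃, ht3, hc31, h3⟩ := ℛ.rep_T_point C₂ c₁ C₁ h21 hc₁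
  obtain ⟨c₂, hc2, t₂, ht2, -, h4⟩ := h2 c₃ hc3
  refine ⟨min c₃ (c₂ * c₃), lt_min hc3 (by positivity), C₃, h31, min t₂ t₃, lt_min ht2 ht3,
    (min_le_left _ _).trans hc31, fun t ht T η hη j p hp w hw1 hw2 => ?_⟩
  have ht0 := ht.1
  have hC1 : 0 ≤ C₁ := (norm_nonneg _).trans hw2
  have h5 := h3 t ⟨ht0, ht.2.trans (min_le_right _ _)⟩ T η hη j p hp w hw1 hw2
  have h6 := h4 t ⟨ht0, ht.2.trans (min_le_left _ _)⟩ η j p
    (closedBall_subset_closedBall (by norm_num) hp) w (𝒜.J j p w)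
    (hw2.trans (le_mul_of_one_le_left hC1 hh1))
    (((𝒜.J j p).le_opNorm w).trans
      (mul_le_mul (hh j p hp).Jle hw2 (norm_nonneg _) (by linarith)))
    (C₃ / t ^ 2 * bm (T.tr j) p (C₃ * t))
    (c₃ / t ^ 4 * ∫ y in Prod.fst ⁻¹' closedBall p (c₃ * t),
      Del (𝒜.g j p) (𝒜.J j p) w y.2 ∂(T.tr j))
    (mul_nonneg (by positivity) (te3_bm _ _ _)) (mul_nonneg (by positivity) (te3_nn T j hp w _))
    (fun q hq u₁ u₂ hu => (h5 q hq u₁ u₂ hu).1) fun q hq u₁ u₂ hu =>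
      (h5 q (closedBall_subset_closedBall (by nlinarith) hq) u₁ u₂ hu).2 hq
  refine le_trans (sub_le_sub_right ?_ _) h6
  have h7 : ∫ y in Prod.fst ⁻¹' closedBall p (min c₃ (c₂ * c₃) * t),
      Del (𝒜.g j p) (𝒜.J j p) w y.2 ∂(T.tr j) ≤ ∫ y in Prod.fst ⁻¹' closedBall p (c₃ * t),
      Del (𝒜.g j p) (𝒜.J j p) w y.2 ∂(T.tr j) :=
    setIntegral_mono_set (te3_int T j (hh j p hp) w).integrableOn
      (Eventually.of_forall fun y => (hh j p hp).Del_nonneg _ _)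
      (preimage_mono (closedBall_subset_closedBall
        (mul_le_mul_of_nonneg_right (min_le_left _ _) ht0.le))).eventuallyLE
  rw [← mul_assoc, ← mul_div_assoc]
  exact mul_le_mul (div_le_div_of_nonneg_right (min_le_right _ _) (by positivity)) h7
    (te3_nn T j hp w _) (by positivity)

theorem Reg.pair_TT_ge (ℛ : 𝒜.Reg) : ∃ C ≥ 1, ∃ t₀ > 0, ∀ t ∈ Ioc (0 : ℝ) t₀, ∀ (T T' : 𝒜.PM)
    (η η' : 𝒜.Form), Rep η (T.cur ∘ₗ ℛ.R t) → Rep η' (T'.cur ∘ₗ ℛ.R t) →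
      -(C * ∑ j, ∫ y, bm (T'.tr j) y.1 (C * t) / t ^ 2 ∂(T.m j)) ≤ 𝒜.pair η η' := by
  obtain ⟨c, hc, C, hC, t₀, ht₀, -, h⟩ := ℛ.rep_T_lin 1 1 one_pos
  refine ⟨C, hC, t₀, ht₀, fun t ht T T' η η' hη hη' => ?_⟩
  have ht0 := ht.1
  rw [hη η', LinearMap.comp_apply, PM.cur_apply, Finset.mul_sum, ← Finset.sum_neg_distrib]
  refine Finset.sum_le_sum fun j _ => ?_
  have h1 : Integrable (fun y : E × E => bm (T'.tr j) y.1 (C * t) / t ^ 2) (T.m j) := by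
    refine Integrable.div_const (Integrable.of_bound
      ((measurable_bm _ _).comp measurable_fst).aestronglyMeasurable ((T'.tr j).real univ)
      (Eventually.of_forall fun y => ?_)) _
    exact (Real.norm_of_nonneg (te3_bm _ _ _)).trans_le (measureReal_mono (subset_univ _))
  rw [← integral_const_mul, ← integral_neg]
  refine integral_mono_ae (h1.const_mul C).neg (lin_int T _ j) ?_
  filter_upwards [T.supp j] with y hy
  have hp : y.1 ∈ closedBall (0 : E) 2 := closedBall_subset_closedBall (by norm_num) hy.1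
  have h2 := h t ht T' η' hη' j y.1 hp y.2 hy.2.ge hy.2.le
  have h3 := mul_nonneg (div_pos hc (pow_pos ht0 4)).le
    (te3_nn T' j hp y.2 (Prod.fst ⁻¹' closedBall y.1 (c * t)))
  have h4 : C / t ^ 2 * bm (T'.tr j) y.1 (C * t) = C * (bm (T'.tr j) y.1 (C * t) / t ^ 2) := by
    ring
  linarith

theorem Reg.pair_TT_pos (ℛ : 𝒜.Reg) : ∃ c > 0, ∃ C ≥ 1, ∃ t₀ > 0, ∀ t ∈ Ioc (0 : ℝ) t₀,
    ∀ (T : 𝒜.PM) (η : 𝒜.Form) (Θ : ℝ), 0 ≤ Θ → T.mass ≤ 1 → T.Growth t Θ →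
    Rep η (T.cur ∘ₗ ℛ.R t) → -(C * Θ) ≤ 𝒜.pair η η ∧ ∀ j,
      c / t ^ 4 * ∫ x in Prod.fst ⁻¹' closedBall (0 : E) 2,
        (∫ y in Prod.fst ⁻¹' closedBall x.1 (c * t),
          Del (𝒜.g j x.1) (𝒜.J j x.1) x.2 y.2 ∂(T.tr j)) ∂(T.tr j) - C * Θ ≤ 𝒜.pair η η := by
  obtain ⟨c₁, hc₁, C₁, hC₁, hc₁1, hs⟩ := PM.tr_supp (𝒜 := 𝒜)
  obtain ⟨c, hc, C, hC, t₀, ht₀, -, h⟩ := ℛ.rep_T_lin c₁ C₁ hc₁
  have hC3 : 1 ≤ C ^ 3 := one_le_pow₀ hC
  refine ⟨c, hc, 2 * C ^ 3, by linarith, t₀, ht₀, fun t ht T η Θ hΘ hm hG hη => ?_⟩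
  have ht0 := ht.1
  have hN : 0 ≤ C ^ 3 * Θ := by positivity
  have h1 : ∀ j, ∀ y : E × E, y.1 ∈ closedBall (0 : E) 2 → c₁ ≤ ‖y.2‖ → ‖y.2‖ ≤ C₁ →
      c / t ^ 4 * ∫ z in Prod.fst ⁻¹' closedBall y.1 (c * t),
        Del (𝒜.g j y.1) (𝒜.J j y.1) y.2 z.2 ∂(T.tr j) - C ^ 3 * Θ ≤ lin (ℛ.R t η) j y := by
    intro j y hp k1 k2
    refine le_trans (sub_le_sub_left ?_ _) (h t ht T η hη j y.1 hp y.2 k1 k2)
    refine (mul_le_mul_of_nonneg_left (hG j y.1 hp (C * t) (by nlinarith) (by positivity))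
      (by positivity)).trans_eq ?_
    field_simp
  have h2 : ∀ i, ∀ᵐ y ∂(T.m i), -(C ^ 3 * Θ) ≤ lin (ℛ.R t η) i y := fun i => by
    filter_upwards [T.supp i] with y hy
    have hp : y.1 ∈ closedBall (0 : E) 2 := closedBall_subset_closedBall (by norm_num) hy.1
    have h3 := h1 i y hp (hc₁1.trans hy.2.ge) (hy.2.le.trans hC₁)
    have h4 := mul_nonneg (div_pos hc (pow_pos ht0 4)).le
      (te3_nn T i hp y.2 (Prod.fst ⁻¹' closedBall y.1 (c * t)))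
    linarith
  have h3 : C ^ 3 * Θ * T.mass ≤ C ^ 3 * Θ := mul_le_of_le_one_right hN hm
  have h4 : -(C ^ 3 * Θ * T.mass) ≤ T.cur (ℛ.R t η) := by
    rw [PM.cur_apply, PM.mass, Finset.mul_sum, ← Finset.sum_neg_distrib]
    refine Finset.sum_le_sum fun j _ => ?_
    refine le_trans (le_of_eq ?_) (integral_mono_ae (integrable_const _) (lin_int T _ j) (h2 j))
    rw [integral_const, smul_eq_mul]
    ring
  rw [hη η, LinearMap.comp_apply]
  refine ⟨by linarith, fun j => ?_⟩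
  by_cases hI : Integrable (fun x : E × E => ∫ y in Prod.fst ⁻¹' closedBall x.1 (c * t),
      Del (𝒜.g j x.1) (𝒜.J j x.1) x.2 y.2 ∂(T.tr j))
      ((T.tr j).restrict (Prod.fst ⁻¹' closedBall (0 : E) 2))
  · have h5 := T.cur_ge_local j (ℛ.R t η) hN h2
    have h6 := integral_mono_ae ((hI.const_mul (c / t ^ 4)).sub (integrable_const (C ^ 3 * Θ)))
      (T.lin_int_tr (ℛ.R t η) j).integrableOn (by
        filter_upwards [ae_restrict_of_ae (hs T j),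
          ae_restrict_mem (measurable_fst measurableSet_closedBall)] with y hy hy'
        exact h1 j y hy' hy.2.1 hy.2.2)
    simp only [Pi.sub_apply] at h6
    rw [integral_sub (hI.const_mul _) (integrable_const _), integral_const_mul, integral_const,
      smul_eq_mul] at h6
    have h7 : ((T.tr j).restrict (Prod.fst ⁻¹' closedBall (0 : E) 2)).real univ ≤ 1 := by
      rw [measureReal_restrict_apply_univ]
      exact (measureReal_mono (subset_univ _)).trans ((T.tr_mass j).trans hm)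
    have h8 := mul_le_of_le_one_left hN h7
    linarith
  · rw [integral_undef hI]
    linarith

end Atlas

end

end Vale.Agent.P204
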