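import Vale.Agent.P204.Te1
import Vale.Agent.P204.Te3
import Vale.Agent.P204.Bt2

/-!
P204 Mn1: the situation produced by Hahn-Banach; growth and the bootstrap hypothesis.
Plan: `growth_of_ABd`: for each chart `exists_loc`, `Loc.growth` with `A' s = A (ext j s)`, constants
of `maj_ext`; closedness from `kill (ext j (d1 γ))` (`exact_ext`, `Exact.closed`, `cur_ext`, `Am_ext`;
`D.J = J j` on the support, use `tr_supp` and `integral_congr_ae`); finite maximum over `j`.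
`pair_zero`: `ηT + ηA` represents `S ∘ R t`; `closed_rep`, field `closed`.
`rbd_main`: with `x = L2 (Am ηA)`, `Θ = C (1+α)`: expand `pair_zero`; `pair ηT ηT ≥ -CΘ`
(`pair_TT_pos`), `pair ηT ηA` split by `pair_split`, bounded with `rep_T`, `rep_ABd`, `L2_Am_le`:
`≥ -C √Θ α - C √Θ x`; `pair ηA ηA ≥ κ x² - C t² α²`. Hence `x ≤ C (√Θ + Θ^(1/4) √α + t α)`, which is
`≤ b + η₀ α / 6` for small `t` (AM-GM: `√Θ α ≤ ε α² + Θ / (4 ε)`, `Θ ≤ C + ε α² + C²/(4ε)`).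
-/

namespace Vale.Agent.P204

open scoped ContDiff Topology
open Metric MeasureTheory Set Filter

noncomputable section

theorem amgm_Mn1 {ε : ℝ} (hε : 0 < ε) (u v : ℝ) : u * v ≤ ε * v ^ 2 + u ^ 2 / (4 * ε) := by
  have h : ε * v ^ 2 + u ^ 2 / (4 * ε) - u * v = (2 * ε * v - u) ^ 2 / (4 * ε) := by
    field_simp; ring
  have h2 : 0 ≤ (2 * ε * v - u) ^ 2 / (4 * ε) := by positivity
  linarith

theorem real_Mn1 {κ K C η : ℝ} (hκ : 0 < κ) (hK : 0 < K) (hC : 0 ≤ C) (hη : 0 < η) :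
    ∃ b ≥ 0, ∃ t₁ > 0, ∀ t ∈ Ioc (0 : ℝ) t₁, ∀ α x r : ℝ, 0 ≤ α → 0 ≤ x →
      r ^ 2 = C * (1 + α) → κ * x ^ 2 ≤ K * r ^ 2 + K * r * α + K * r * x + K * t ^ 2 * α ^ 2 →
      6 * x ≤ b + η * α := by
  obtain ⟨ε, hε, hεe⟩ : ∃ ε > 0, 3 * ε = κ / 2 * (η / 6) ^ 2 :=
    ⟨κ / 6 * (η / 6) ^ 2, by positivity, by ring⟩
  obtain ⟨L, hL, hLe⟩ : ∃ L ≥ 0, L = (K + K ^ 2 / (4 * (κ / 2)) + K ^ 2 / (4 * ε)) * C :=
    ⟨_, by positivity, rfl⟩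
  obtain ⟨B, hB, hBe⟩ : ∃ B ≥ 0, κ / 2 * B ^ 2 = L + L ^ 2 / (4 * ε) := by
    refine ⟨√(2 / κ * (L + L ^ 2 / (4 * ε))), Real.sqrt_nonneg _, ?_⟩
    rw [Real.sq_sqrt (by positivity)]
    field_simp
  refine ⟨6 * B, by positivity, √(ε / K), Real.sqrt_pos.2 (by positivity), ?_⟩
  intro t ht α x r hα hx hr h
  have ht2 : K * t ^ 2 ≤ ε := by
    have h1 : t ^ 2 ≤ √(ε / K) ^ 2 := pow_le_pow_left₀ ht.1.le ht.2 2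
    rw [Real.sq_sqrt (by positivity), le_div_iff₀ hK] at h1
    linarith
  have a1 := amgm_Mn1 (half_pos hκ) (K * r) x
  have a2 := amgm_Mn1 hε (K * r) α
  have a3 := amgm_Mn1 hε L α
  have a4 : K * t ^ 2 * α ^ 2 ≤ ε * α ^ 2 := mul_le_mul_of_nonneg_right ht2 (sq_nonneg α)
  have a5 : K * r ^ 2 + (K * r) ^ 2 / (4 * (κ / 2)) + (K * r) ^ 2 / (4 * ε) = L + L * α := by
    rw [mul_pow, hr, hLe]; ring
  have a6 : κ / 2 * x ^ 2 ≤ κ / 2 * (B ^ 2 + (η / 6 * α) ^ 2) := by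
    have : κ / 2 * (η / 6 * α) ^ 2 = 3 * ε * α ^ 2 := by rw [hεe]; ring
    rw [mul_add, this, hBe]
    linarith
  have a7 : x ^ 2 ≤ (B + η / 6 * α) ^ 2 := by
    have h1 := le_of_mul_le_mul_left a6 (half_pos hκ)
    have h2 : 0 ≤ B * (η / 6 * α) := by positivity
    nlinarith
  have a8 : x ≤ B + η / 6 * α := Atlas.le_of_sq5 (by positivity) a7
  linarith

namespace Atlas

variable {𝒜 : Atlas}

/-- the situation produced by Hahn-Banach -/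
structure Sit (𝒜 : Atlas) where
  ℛ : 𝒜.Reg
  T : 𝒜.PM
  A : 𝒜.Form →ₗ[ℝ] ℝ
  Λ : ℝ
  mass : T.mass = 1
  ord : FinOrd A 6 Λ
  kill : ∀ β, Closed β → T.cur β + A (𝒜.Am β) = 0

theorem Sit.growth_Mn1 (S : Sit 𝒜) (k : ℕ) (j : Fin 𝒜.n) : ∃ C ≥ 1, ∃ t₀ > 0,
    ∀ t ∈ Ioc (0 : ℝ) t₀, ∀ α ≥ 0, ABd S.A k t α → ∀ x ∈ closedBall (0 : E) 2, ∀ s, t ≤ s →
      bm (S.T.tr j) x s ≤ C * (1 + α) * s ^ 2 := by
  obtain ⟨D, hμ, hD⟩ := S.T.exists_loc j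
  obtain ⟨C₀, -, C, hC, t₀, ht₀, hm⟩ := maj_ext (𝒜 := 𝒜) k
  obtain ⟨C', hC', t₁, ht₁, hg⟩ := D.growth k C₀
  have hz : ∀ s : E → Bil, IsLoc (5 / 2) s → ∀ p, s p = 0 ∨ D.J p = 𝒜.J j p := by
    intro s hs p
    by_cases hp : p ∈ closedBall (0 : E) (5 / 2)
    · exact Or.inr (hD p (closedBall_subset_closedBall (by norm_num) hp)).1
    · exact Or.inl (hs.1.2 p hp)
  have hpm : ∀ s : E → Bil, IsLoc (5 / 2) s →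
      𝒜.Am (𝒜.ext j s) = 𝒜.ext j (fun p => pm (D.J p) (s p)) := by
    intro s hs
    rw [Am_ext j (by norm_num) hs]
    congr 1
    funext p
    rcases hz s hs p with h | h
    · rw [h, map_zero, map_zero]
    · rw [h]
  refine ⟨C' * C, one_le_mul_of_one_le_of_one_le hC' hC, min t₀ t₁, lt_min ht₀ ht₁, ?_⟩
  intro t ht α hα hA x hx s hs
  have h0 : 0 ≤ α * C := by positivity
  have key := hg (fun s => S.A (𝒜.ext j s)) (α * C) t h0 ht.1 (ht.2.trans (min_le_right _ _))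
    (fun γ hγ => by
      have hl : IsLoc (5 / 2) (d1 γ) := locD_At3 hγ
      have hk := S.kill _ (exact_ext j (by norm_num) hγ).closed
      rw [S.T.cur_ext j (locD_At3 (hγ.mono (by norm_num))), hpm _ hl] at hk
      rw [← hk, hμ]
      congr 2
      funext y
      rcases hz _ hl y.1 with h | h
      · simp only [Loc.lin, h, ContinuousLinearMap.zero_apply]
      · simp only [Loc.lin, h])
    (fun s c hs hs' hc hM => by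
      have h1 : Anti (𝒜.ext j s) := by
        rw [Anti, hpm s hs]
        congr 1
        funext p
        exact hs' p
      have h2 := hA _ (C * c) h1 (by positivity)
        (hm t ⟨ht.1, ht.2.trans (min_le_left _ _)⟩ j s c hs hM)
      rw [mul_assoc]
      exact h2) x hx s hs
  rw [hμ] at key
  refine key.trans (mul_le_mul_of_nonneg_right ?_ (sq_nonneg s))
  rw [mul_assoc]
  refine mul_le_mul_of_nonneg_left ?_ (by linarith)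
  nlinarith

theorem Sit.growth_of_ABd (S : Sit 𝒜) (k : ℕ) : ∃ C ≥ 1, ∃ t₀ > 0, ∀ t ∈ Ioc (0 : ℝ) t₀,
    ∀ α ≥ 0, ABd S.A k t α → S.T.Growth t (C * (1 + α)) := by
  choose C hC t₀ ht₀ h using S.growth_Mn1 k
  haveI : Nonempty (Fin 𝒜.n) := ⟨⟨0, 𝒜.npos⟩⟩
  obtain ⟨a, ha⟩ := Finite.exists_max C
  obtain ⟨b, hb⟩ := Finite.exists_min t₀
  refine ⟨C a, hC a, t₀ b, ht₀ b, fun t ht α hα hA j x hx s hs _ => ?_⟩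
  refine (h j t ⟨ht.1, ht.2.trans (hb j)⟩ α hα hA x hx s hs).trans ?_
  exact mul_le_mul_of_nonneg_right (mul_le_mul_of_nonneg_right (ha j) (by linarith)) (sq_nonneg s)

theorem Sit.reps (S : Sit 𝒜) : ∃ t₀ > 0, ∀ t ∈ Ioc (0 : ℝ) t₀,
    (∀ T : 𝒜.PM, ∃ η, Rep η (T.cur ∘ₗ S.ℛ.R t)) ∧ ∃ η, Rep η (S.A ∘ₗ 𝒜.Am ∘ₗ S.ℛ.R t) := by
  obtain ⟨t₀, ht₀, h₀⟩ := S.ℛ.rep
  obtain ⟨t₁, ht₁, h₁⟩ := S.ℛ.rep_am
  obtain ⟨C, -, hC⟩ := PM.cur_ord (𝒜 := 𝒜)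
  exact ⟨min t₀ t₁, lt_min ht₀ ht₁, fun t ht =>
    ⟨fun T => h₀ t ⟨ht.1, ht.2.trans (min_le_left _ _)⟩ _ _ _ (hC T),
      h₁ t ⟨ht.1, ht.2.trans (min_le_right _ _)⟩ _ _ _ S.ord.aOrd⟩⟩

theorem Sit.pair_zero (S : Sit 𝒜) : ∃ t₀ > 0, ∀ t ∈ Ioc (0 : ℝ) t₀, ∀ (T' : 𝒜.PM)
    (ηT ηT' ηA : 𝒜.Form), (∀ β, Exact β → T'.cur β = S.T.cur β) → Rep ηT (S.T.cur ∘ₗ S.ℛ.R t) →
    Rep ηT' (T'.cur ∘ₗ S.ℛ.R t) → Rep ηA (S.A ∘ₗ 𝒜.Am ∘ₗ S.ℛ.R t) →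
      𝒜.pair (ηT + ηA) (ηT' + ηA) = 0 := by
  obtain ⟨t₀, ht₀, h₀⟩ := S.ℛ.closed
  obtain ⟨t₁, ht₁, h₁⟩ := S.ℛ.closed_rep
  refine ⟨min t₀ t₁, lt_min ht₀ ht₁, fun t ht T' ηT ηT' ηA he hT hT' hA => ?_⟩
  have hc : Closed (ηT' + ηA) := by
    refine h₁ t ⟨ht.1, ht.2.trans (min_le_right _ _)⟩ (T'.cur + S.A ∘ₗ 𝒜.Am) _ (fun β hβ => ?_)
      fun β => ?_
    · rw [LinearMap.add_apply, he β hβ]
      exact S.kill β hβ.closed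
    · rw [map_add, LinearMap.add_apply, hT' β, hA β]
      rfl
  rw [map_add 𝒜.pair ηT ηA, LinearMap.add_apply, hT, hA]
  exact S.kill _ (h₀ t ⟨ht.1, ht.2.trans (min_le_left _ _)⟩ _ hc)

theorem Sit.rbd_main (S : Sit 𝒜) (k : ℕ) {η₀ : ℝ} (hη : 0 < η₀) : ∃ b ≥ 0, ∃ t₀ > 0,
    ∀ t ∈ Ioc (0 : ℝ) t₀, ∀ α ≥ 0, ABd S.A k t α → S.ℛ.RBd S.A t (b + η₀ * α) := by
  obtain ⟨C₅, hC₅, t₁, ht₁, h₁⟩ := S.growth_of_ABd k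
  obtain ⟨t₂, ht₂, h₂⟩ := S.reps
  obtain ⟨t₃, ht₃, h₃⟩ := S.pair_zero
  obtain ⟨c, -, C₁, hC₁, t₄, ht₄, h₄⟩ := S.ℛ.pair_TT_pos
  obtain ⟨C₃, hC₃, t₅, ht₅, h₅⟩ := S.ℛ.rep_T
  obtain ⟨C₄, hC₄, t₆, ht₆, h₆⟩ := S.ℛ.rep_ABd k
  obtain ⟨C₂, hC₂, h₇⟩ := L2_Am_le (𝒜 := 𝒜)
  obtain ⟨κ, hκ, h₈⟩ := anti_pos (𝒜 := 𝒜)
  obtain ⟨K, hK, k1, k2, k3, k4⟩ : ∃ K > 0, C₁ ≤ K ∧ 12 * (C₂ * C₃ * C₄) ≤ K ∧ 12 * C₃ ≤ K ∧
      6 * C₄ ^ 2 ≤ K := by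
    have p1 : 0 ≤ 12 * (C₂ * C₃ * C₄) := by positivity
    have p2 : 0 ≤ 6 * C₄ ^ 2 := by positivity
    exact ⟨C₁ + 12 * (C₂ * C₃ * C₄) + 12 * C₃ + 6 * C₄ ^ 2, by positivity, by linarith,
      by linarith, by linarith, by linarith⟩
  obtain ⟨b, hb, t₇, ht₇, h₉⟩ := real_Mn1 hκ hK (C := C₅) (by linarith) hη
  refine ⟨b, hb, min (min (min t₁ t₂) (min t₃ t₄)) (min (min t₅ t₆) t₇), by positivity,
    fun t ht α hα hA => ?_⟩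
  obtain ⟨ht0, htm⟩ := ht
  simp only [le_min_iff] at htm
  obtain ⟨⟨⟨m1, m2⟩, m3, m4⟩, ⟨m5, m6⟩, m7⟩ := htm
  obtain ⟨hT, ηA, hηA⟩ := h₂ t ⟨ht0, m2⟩
  obtain ⟨ηT, hηT⟩ := hT S.T
  have hΘ : 0 ≤ C₅ * (1 + α) := by positivity
  have hG := h₁ t ⟨ht0, m1⟩ α hα hA
  have z := h₃ t ⟨ht0, m3⟩ S.T ηT ηT ηA (fun _ _ => rfl) hηT hηT hηA
  have e1 := (h₄ t ⟨ht0, m4⟩ S.T ηT _ hΘ S.mass.le hG hηT).1
  obtain ⟨e2, e3⟩ := h₅ t ⟨ht0, m5⟩ S.T ηT _ hΘ S.mass.le hG hηT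
  obtain ⟨e4, -⟩ := h₆ t ⟨ht0, m6⟩ S.A ηA α hα hηA hA
  have hr : √(C₅ * (1 + α)) ^ 2 = C₅ * (1 + α) := Real.sq_sqrt hΘ
  have hr0 := Real.sqrt_nonneg (C₅ * (1 + α))
  refine (S.ℛ.rbd_of_rep hηA).mono (h₉ t ⟨ht0, m7⟩ α _ _ hα (L2_nonneg _) hr ?_)
  rw [← hr] at e1
  generalize √(C₅ * (1 + α)) = r at *
  have e5 := h₈ (𝒜.Am ηA) (Am_Am ηA)
  have e6 : L2 (𝒜.Ap ηT) ≤ C₂ * (C₃ * r / t) :=
    (h₇ ηT).2.1.trans (mul_le_mul_of_nonneg_left e2 (by linarith))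
  have f1 : |𝒜.pair (𝒜.Ap ηT) (𝒜.Ap ηA)| ≤ 6 * (C₂ * C₃ * C₄) * r * α := by
    refine (abs_pair_le _ _).trans ?_
    have : 6 * (C₂ * C₃ * C₄) * r * α = 6 * (C₂ * (C₃ * r / t)) * (C₄ * t * α) := by
      field_simp
    rw [this]
    exact mul_le_mul (mul_le_mul_of_nonneg_left e6 (by norm_num)) e4 (L2_nonneg _)
      (by positivity)
  have f2 : |𝒜.pair (𝒜.Am ηT) (𝒜.Am ηA)| ≤ 6 * (C₃ * r) * L2 (𝒜.Am ηA) :=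
    (abs_pair_le _ _).trans (mul_le_mul_of_nonneg_right
      (mul_le_mul_of_nonneg_left e3 (by norm_num)) (L2_nonneg _))
  have f3 : |𝒜.pair (𝒜.Ap ηA) (𝒜.Ap ηA)| ≤ 6 * (C₄ * t * α) * (C₄ * t * α) :=
    (abs_pair_le _ _).trans (mul_le_mul (mul_le_mul_of_nonneg_left e4 (by norm_num)) e4
      (L2_nonneg _) (by positivity))
  simp only [map_add, LinearMap.add_apply] at z
  rw [pair_symm ηA ηT, pair_split ηT ηA, pair_split ηA ηA] at z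
  have hx := L2_nonneg (𝒜.Am ηA)
  generalize L2 (𝒜.Am ηA) = x at *
  have g1 := neg_abs_le (𝒜.pair (𝒜.Ap ηT) (𝒜.Ap ηA))
  have g2 := neg_abs_le (𝒜.pair (𝒜.Am ηT) (𝒜.Am ηA))
  have g3 := neg_abs_le (𝒜.pair (𝒜.Ap ηA) (𝒜.Ap ηA))
  have l1 : C₁ * r ^ 2 ≤ K * r ^ 2 := mul_le_mul_of_nonneg_right k1 (sq_nonneg r)
  have l2 : 12 * (C₂ * C₃ * C₄) * (r * α) ≤ K * (r * α) :=
    mul_le_mul_of_nonneg_right k2 (by positivity)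
  have l3 : 12 * C₃ * (r * x) ≤ K * (r * x) := mul_le_mul_of_nonneg_right k3 (by positivity)
  have l4 : 6 * C₄ ^ 2 * (t ^ 2 * α ^ 2) ≤ K * (t ^ 2 * α ^ 2) :=
    mul_le_mul_of_nonneg_right k4 (by positivity)
  linarith

end Atlas

end

end Vale.Agent.P204
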