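import Vale.Agent.P204.Mn1

/-!
P204 Mn2: `A` is bounded in `L²`, growth at all scales, the angle estimate, local representation.
Plan: `lbd_main`: `boot 6 0` with `rbd_main 9` gives `ABd A 9 ε α₀` for all small `ε`; `Maj_lim` gives
`LBd`; `growth_of_ABd` at `t = min s t₀` gives `Growth 0`. `angle_main`: `t = r / c`; `pair_TT_pos`
and, from `pair_zero` with `T' = T`, `pair ηT ηT = -2 pair ηT ηA - pair ηA ηA ≤ C`
(`pair_split`, `rep_T`, `rep_ABd` with `LBd.abd`, `anti_pos`, `abs_pair_le`).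
`local_L2`: `riesz_L2 (5/2)` for `u f = A (Am (ext j (f • ef a c)))` (`L2_ext`, `L2_Am_le`, `ext_add`,
`ext_smul`); `a₀ y = ∑ a c, (a_ac y / 2) • ev a c` represents `s ↦ A (Am (ext j s))` (`alt_expand`,
`ext_sum`); put `a y = indicator (closedBall 0 3) ((a₀ y).comp (pm (J j y)))` and apply the
representation to `pm J s` (`Am_ext`, `Am_Am`, `isLoc_pm`, `pm_pm`).
-/

namespace Vale.Agent.P204

open scoped ContDiff Topology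
open Metric MeasureTheory Set Filter

noncomputable section

namespace Atlas

variable {𝒜 : Atlas}

theorem loc_ef_Mn2 {r : ℝ} {f : E → ℝ} (hf : Supp r f) (a c : Fin 4) :
    IsLoc r (fun p => f p • ef a c) := by
  refine ⟨⟨hf.1.smul contDiff_const, fun p hp => ?_⟩, fun p => (bv_alt _ _).smul _⟩
  beta_reduce
  rw [hf.2 p hp, zero_smul]

theorem supp_ev_Mn2 {r : ℝ} {s : E → Bil} (hs : IsLoc r s) (a c : Fin 4) :
    Supp r (fun p => 1 / 2 * s p (e a) (e c)) := by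
  refine ⟨contDiff_const.mul ((hs.1.1.clm_apply contDiff_const).clm_apply contDiff_const),
    fun p hp => ?_⟩
  beta_reduce
  rw [hs.1.2 p hp]
  simp

theorem comp_L2_Mn2 {A : 𝒜.Form →ₗ[ℝ] ℝ} {α₀ : ℝ} (hA : LBd A α₀) (j : Fin 𝒜.n) (a c : Fin 4) :
    ∃ g : E → ℝ, MemLp g 2 volume ∧ ∀ f, Supp (5 / 2) f →
      A (𝒜.Am (𝒜.ext j fun p => f p • ef a c)) = ∫ y, g y * f y := by
  have hr : (5 / 2 : ℝ) < 4 := by norm_num
  obtain ⟨C₃, hC₃, h₃⟩ := L2_Am_le (𝒜 := 𝒜)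
  obtain ⟨C₄, hC₄, h₄⟩ := L2_ext (𝒜 := 𝒜) hr
  refine riesz_L2 (5 / 2) (fun f => A (𝒜.Am (𝒜.ext j fun p => f p • ef a c))) ?_ ?_
    (C := |α₀| * C₃ * C₄ * ‖ef a c‖) ?_
  · intro f f' hf hf'
    simp only [Pi.add_apply, add_smul]
    rw [ext_add j hr (loc_ef_Mn2 hf a c) (loc_ef_Mn2 hf' a c), map_add, map_add]
  · intro t f hf
    simp only [Pi.smul_apply, smul_eq_mul, mul_smul]
    rw [ext_smul j hr (loc_ef_Mn2 hf a c), map_smul, map_smul, smul_eq_mul]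
  · intro f hf
    have h1 := hA _ (Am_Am (𝒜.ext j fun p => f p • ef a c))
    have h2 := (h₃ (𝒜.ext j fun p => f p • ef a c)).1
    have h3 := h₄ j _ (loc_ef_Mn2 hf a c)
    have h4 : ∫ q, ‖f q • ef a c‖ ^ 2 = ‖ef a c‖ ^ 2 * ∫ q, f q ^ 2 := by
      rw [← integral_const_mul]
      refine integral_congr_ae (Eventually.of_forall fun q => ?_)
      simp only [norm_smul, Real.norm_eq_abs, mul_pow, sq_abs]
      ring
    rw [h4, Real.sqrt_mul (sq_nonneg _), Real.sqrt_sq (norm_nonneg _)] at h3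
    have h5 := L2_nonneg (𝒜.Am (𝒜.ext j fun p => f p • ef a c))
    calc _ ≤ |α₀| * L2 (𝒜.Am (𝒜.ext j fun p => f p • ef a c)) :=
          h1.trans (mul_le_mul_of_nonneg_right (le_abs_self _) h5)
      _ ≤ |α₀| * (C₃ * (C₄ * (‖ef a c‖ * √(∫ q, f q ^ 2)))) :=
          mul_le_mul_of_nonneg_left
            (h2.trans (mul_le_mul_of_nonneg_left h3 (by linarith))) (abs_nonneg _)
      _ = _ := by ring

theorem rep0_Mn2 {A : 𝒜.Form →ₗ[ℝ] ℝ} {α₀ : ℝ} (hA : LBd A α₀) (j : Fin 𝒜.n) :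
    ∃ a : E → Bil →L[ℝ] ℝ, MemLp a 2 volume ∧
      ∀ s, IsLoc (5 / 2) s → A (𝒜.Am (𝒜.ext j s)) = ∫ y, a y (s y) := by
  have hr : (5 / 2 : ℝ) < 4 := by norm_num
  choose g hg hrep using comp_L2_Mn2 hA j
  refine ⟨fun y => ∑ ac : Fin 4 × Fin 4, g ac.1 ac.2 y • ((1 / 2 : ℝ) • ev ac.1 ac.2), ?_, ?_⟩
  · refine memLp_finsetSum _ fun ac _ => ?_
    exact (ContinuousLinearMap.toSpanSingleton ℝ ((1 / 2 : ℝ) • ev ac.1 ac.2)).comp_memLp'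
      (hg ac.1 ac.2)
  · intro s hs
    have h1 : s = fun p => ∑ ac : Fin 4 × Fin 4,
        (1 / 2 * s p (e ac.1) (e ac.2)) • ef ac.1 ac.2 := by
      funext p
      rw [Fintype.sum_prod_type]
      exact alt_expand (hs.2 p)
    have h2 : 𝒜.ext j s = ∑ ac : Fin 4 × Fin 4,
        𝒜.ext j fun p => (1 / 2 * s p (e ac.1) (e ac.2)) • ef ac.1 ac.2 := by
      rw [← ext_sum j hr _ fun ac _ => loc_ef_Mn2 (supp_ev_Mn2 hs ac.1 ac.2) ac.1 ac.2, ← h1]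
    rw [h2, map_sum, map_sum,
      Finset.sum_congr rfl fun ac _ => hrep ac.1 ac.2 _ (supp_ev_Mn2 hs ac.1 ac.2),
      ← integral_finsetSum _ fun ac _ =>
        (hg ac.1 ac.2).integrable_mul (ms2_mem (supp_ev_Mn2 hs ac.1 ac.2))]
    refine integral_congr_ae (Eventually.of_forall fun y => ?_)
    simp only [ContinuousLinearMap.sum_apply, smul_apply, smul_eq_mul, ev_apply, Pi.mul_apply]


theorem Sit.lbd_main (S : Sit 𝒜) : ∃ α₀ ≥ 0, ∃ Θ ≥ 0, LBd S.A α₀ ∧ S.T.Growth 0 Θ := by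
  obtain ⟨η₀, hη₀, C, hC, ε₁, hε₁, -, hboot⟩ := S.ℛ.boot 6 0 (by norm_num)
  obtain ⟨b, hb, t₀, ht₀, hr⟩ := S.rbd_main 9 hη₀
  obtain ⟨C₁, hC₁, hM⟩ := Maj_lim (𝒜 := 𝒜) 9
  obtain ⟨C₂, hC₂, t₂, ht₂, hG⟩ := S.growth_of_ABd 9
  have hCb : 0 ≤ C * b := mul_nonneg (by linarith) hb
  have ht₁ : 0 < min t₀ ε₁ := lt_min ht₀ hε₁
  have habd : ∀ ε ∈ Ioc (0 : ℝ) (min t₀ ε₁), ABd S.A 9 ε (C * b) := by
    intro ε hε
    have h := hboot S.A S.Λ S.ord.aOrd b hb (min t₀ ε₁) ⟨ht₁, min_le_right _ _⟩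
      (fun t ht α hα hA => by
        rw [pow_zero, div_one]
        exact hr t ⟨ht.1, ht.2.trans (min_le_left _ _)⟩ α hα hA) ε hε
    rwa [pow_zero, div_one] at h
  refine ⟨C * b * C₁, mul_nonneg hCb (by linarith), C₂ * (1 + C * b),
    mul_nonneg (by linarith) (by linarith), fun σ hσ => ?_, fun j x hx s _ hs => ?_⟩
  · refine le_of_forall_pos_le_add fun δ hδ => ?_
    have hε : 0 < δ / (C * b + 1) := div_pos hδ (by linarith)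
    obtain ⟨t₃, ht₃, h3⟩ := hM σ _ hε
    have ht : 0 < min (min t₀ ε₁) t₃ := lt_min ht₁ ht₃
    have h0 : 0 ≤ C₁ * L2 σ := mul_nonneg (by linarith) (L2_nonneg σ)
    have h4 := habd _ ⟨ht, min_le_left _ _⟩ σ _ hσ (by linarith) (h3 _ ⟨ht, min_le_right _ _⟩)
    have h5 : (C * b + 1) * (δ / (C * b + 1)) = δ := mul_div_cancel₀ _ (by linarith)
    nlinarith
  · have ht : 0 < min s (min (min t₀ ε₁) t₂) := lt_min hs (lt_min ht₁ ht₂)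
    exact hG _ ⟨ht, (min_le_right _ _).trans (min_le_right _ _)⟩ _ hCb
      (habd _ ⟨ht, (min_le_right _ _).trans (min_le_left _ _)⟩) j x hx s (min_le_left _ _) hs

theorem Sit.angle_main (S : Sit 𝒜) {α₀ Θ : ℝ} (hα : 0 ≤ α₀) (hΘ : 0 ≤ Θ) (hA : LBd S.A α₀)
    (hG : S.T.Growth 0 Θ) (j : Fin 𝒜.n) : ∃ C : ℝ, ∃ r₀ > 0, ∀ r ∈ Ioc (0 : ℝ) r₀,
    ∫ x in Prod.fst ⁻¹' closedBall (0 : E) 2, (∫ y in Prod.fst ⁻¹' closedBall x.1 r,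
      Del (𝒜.g j x.1) (𝒜.J j x.1) x.2 y.2 ∂(S.T.tr j)) ∂(S.T.tr j) ≤ C * r ^ 4 := by
  obtain ⟨c, hc, C, hC, t₀, ht₀, hTT⟩ := S.ℛ.pair_TT_pos
  obtain ⟨C₁, hC₁, t₁, ht₁, hT⟩ := S.ℛ.rep_T
  obtain ⟨C₂, hC₂, t₂, ht₂, hAb⟩ := S.ℛ.rep_ABd 0
  obtain ⟨t₃, ht₃, hrep⟩ := S.reps
  obtain ⟨t₄, ht₄, hz⟩ := S.pair_zero
  obtain ⟨C₃, hC₃, h₃⟩ := L2_Am_le (𝒜 := 𝒜)
  obtain ⟨t₅, ht₅, h51, h50, h5a, h5b, h5c, h5d⟩ : ∃ t₅ > 0, t₅ ≤ 1 ∧ t₅ ≤ t₀ ∧ t₅ ≤ t₁ ∧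
      t₅ ≤ t₂ ∧ t₅ ≤ t₃ ∧ t₅ ≤ t₄ := by
    refine ⟨min (min (min 1 t₀) (min t₁ t₂)) (min t₃ t₄), by positivity, ?_, ?_, ?_, ?_, ?_, ?_⟩ <;>
      simp
  have hs := Real.sqrt_nonneg Θ
  refine ⟨(12 * (C₃ * (C₁ * √Θ) * (C₂ * α₀) + C₁ * √Θ * (C₂ * α₀)) + 12 * (C₂ * α₀) ^ 2 + C * Θ) /
    c ^ 5, c * t₅, mul_pos hc ht₅, fun r hr => ?_⟩
  obtain ⟨t, rfl⟩ : ∃ t, r = c * t := ⟨r / c, by field_simp⟩
  have ht : 0 < t := (mul_pos_iff_of_pos_left hc).1 hr.1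
  have ht' : t ≤ t₅ := le_of_mul_le_mul_left hr.2 hc
  obtain ⟨hrT, ηA, hηA⟩ := hrep t ⟨ht, ht'.trans h5c⟩
  obtain ⟨ηT, hηT⟩ := hrT S.T
  have hGt : S.T.Growth t Θ := hG.mono ht.le
  have e0 := hz t ⟨ht, ht'.trans h5d⟩ S.T ηT ηT ηA (fun _ _ => rfl) hηT hηT hηA
  have e1 := (hTT t ⟨ht, ht'.trans h50⟩ S.T ηT Θ hΘ S.mass.le hGt hηT).2 j
  obtain ⟨e2, e3⟩ := hT t ⟨ht, ht'.trans h5a⟩ S.T ηT Θ hΘ S.mass.le hGt hηT
  obtain ⟨e4, e5⟩ := hAb t ⟨ht, ht'.trans h5b⟩ S.A ηA α₀ hα hηA (hA.abd hα ht.le 0)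
  have hx : 0 ≤ C₂ * α₀ := mul_nonneg (by linarith) hα
  have hy : 0 ≤ C₁ * √Θ := mul_nonneg (by linarith) hs
  have e6 : L2 (𝒜.Ap ηT) ≤ C₃ * (C₁ * √Θ / t) :=
    (h₃ ηT).2.1.trans (mul_le_mul_of_nonneg_left e2 (by linarith))
  have e7 : L2 (𝒜.Ap ηA) ≤ C₂ * α₀ := by
    have : C₂ * α₀ * t ≤ C₂ * α₀ * 1 := mul_le_mul_of_nonneg_left (ht'.trans h51) hx
    linarith
  have b1 : L2 (𝒜.Ap ηT) * L2 (𝒜.Ap ηA) ≤ C₃ * (C₁ * √Θ) * (C₂ * α₀) := by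
    calc _ ≤ C₃ * (C₁ * √Θ / t) * (C₂ * t * α₀) :=
          mul_le_mul e6 e4 (L2_nonneg _) ((L2_nonneg _).trans e6)
      _ = _ := by field_simp
  have b2 : L2 (𝒜.Am ηT) * L2 (𝒜.Am ηA) ≤ C₁ * √Θ * (C₂ * α₀) :=
    mul_le_mul e3 e5 (L2_nonneg _) hy
  have b3 : L2 (𝒜.Ap ηA) * L2 (𝒜.Ap ηA) ≤ C₂ * α₀ * (C₂ * α₀) :=
    mul_le_mul e7 e7 (L2_nonneg _) hx
  have b4 : L2 (𝒜.Am ηA) * L2 (𝒜.Am ηA) ≤ C₂ * α₀ * (C₂ * α₀) :=
    mul_le_mul e5 e5 (L2_nonneg _) hx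
  have a1 := (abs_le.1 (abs_pair_le (𝒜.Ap ηT) (𝒜.Ap ηA))).1
  have a2 := (abs_le.1 (abs_pair_le (𝒜.Am ηT) (𝒜.Am ηA))).1
  have a3 := (abs_le.1 (abs_pair_le (𝒜.Ap ηA) (𝒜.Ap ηA))).1
  have a4 := (abs_le.1 (abs_pair_le (𝒜.Am ηA) (𝒜.Am ηA))).1
  have s1 := pair_split ηT ηA
  have s2 := pair_split ηA ηA
  have s3 := pair_symm ηA ηT
  simp only [map_add, LinearMap.add_apply] at e0
  have key : 𝒜.pair ηT ηT ≤
      12 * (C₃ * (C₁ * √Θ) * (C₂ * α₀) + C₁ * √Θ * (C₂ * α₀)) + 12 * (C₂ * α₀) ^ 2 := by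
    linarith
  generalize (∫ x in Prod.fst ⁻¹' closedBall (0 : E) 2,
    (∫ y in Prod.fst ⁻¹' closedBall x.1 (c * t),
      Del (𝒜.g j x.1) (𝒜.J j x.1) x.2 y.2 ∂(S.T.tr j)) ∂(S.T.tr j)) = I at e1 ⊢
  generalize 12 * (C₃ * (C₁ * √Θ) * (C₂ * α₀) + C₁ * √Θ * (C₂ * α₀)) + 12 * (C₂ * α₀) ^ 2 = K
    at key ⊢
  have e8 : c / t ^ 4 * I ≤ K + C * Θ := by linarith
  have e9 : I = t ^ 4 / c * (c / t ^ 4 * I) := by field_simp
  calc I = t ^ 4 / c * (c / t ^ 4 * I) := e9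
    _ ≤ t ^ 4 / c * (K + C * Θ) := mul_le_mul_of_nonneg_left e8 (by positivity)
    _ = (K + C * Θ) / c ^ 5 * (c * t) ^ 4 := by field_simp

theorem local_L2 {A : 𝒜.Form →ₗ[ℝ] ℝ} {α₀ : ℝ} (hA : LBd A α₀) (j : Fin 𝒜.n) :
    ∃ a : E → Bil →L[ℝ] ℝ, MemLp a 2 volume ∧
      (∀ y ∈ closedBall (0 : E) 3, ∀ b, a y (pm (𝒜.J j y) b) = a y b) ∧
      ∀ s, IsLoc (5 / 2) s → A (𝒜.Am (𝒜.ext j s)) = ∫ y, a y (s y) := by
  have hr : (5 / 2 : ℝ) < 4 := by norm_num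
  have h3 : closedBall (0 : E) 3 ⊆ ball 0 4 := cb_sub (by norm_num)
  obtain ⟨a₀, ha₀, hrep⟩ := rep0_Mn2 hA j
  have hc : ContinuousOn (fun y => pm (𝒜.J j y)) (closedBall (0 : E) 3) :=
    contDiff_pm.continuous.comp_continuousOn ((𝒜.J_smooth j).continuousOn.mono h3)
  obtain ⟨M, hM⟩ := (isCompact_closedBall (0 : E) 3).exists_bound_of_continuousOn hc
  refine ⟨(closedBall (0 : E) 3).indicator fun y => (a₀ y).comp (pm (𝒜.J j y)), ?_, ?_, ?_⟩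
  · rw [memLp_indicator_iff_restrict measurableSet_closedBall]
    have h1 : MemLp a₀ 2 (volume.restrict (closedBall (0 : E) 3)) := ha₀.restrict _
    refine h1.of_le_mul (c := M) ?_ ?_
    · exact (ContinuousLinearMap.compL ℝ Bil Bil ℝ).aestronglyMeasurable_comp₂
        h1.aestronglyMeasurable (hc.aestronglyMeasurable measurableSet_closedBall)
    · filter_upwards [ae_restrict_mem measurableSet_closedBall] with y hy
      refine (ContinuousLinearMap.opNorm_comp_le _ _).trans ?_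
      rw [mul_comm]
      exact mul_le_mul_of_nonneg_right (hM y hy) (norm_nonneg _)
  · intro y hy b
    rw [indicator_of_mem hy, ContinuousLinearMap.comp_apply, ContinuousLinearMap.comp_apply,
      pm_pm (𝒜.J_sq j y (h3 hy))]
  · intro s hs
    rw [← Am_Am, Am_ext j hr hs, hrep _ (isLoc_pm j hr hs)]
    refine integral_congr_ae (Eventually.of_forall fun y => ?_)
    beta_reduce
    by_cases hy : y ∈ closedBall (0 : E) 3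
    · rw [indicator_of_mem hy, ContinuousLinearMap.comp_apply]
    · rw [hs.1.2 y fun h => hy (closedBall_subset_closedBall (by norm_num) h), map_zero, map_zero,
        map_zero]

end Atlas

end

end Vale.Agent.P204
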