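import Vale.Agent.P204.Mn2

/-!
P204 Mn3: the part of positive density is closed, and `A` vanishes.
Plan: `D_exact`: `exact_decomp`, `cur_restr_Zs`, `Loc.closedD` with `exists_loc`, `local_L2`,
`angle_main` (rewrite `D.J`, `D.g` on the supports with `integral_congr_ae` / `setIntegral_congr`).
`am_small`: `T' = T.restr Zᶜ`, `T'.cur β = T.cur β` for exact `β` (`cur_split`, `D_exact`);
`approx_riesz` on the submodule of anti forms (`anti_pos`, `pair_symm`) gives `α` with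
`LBd (A - pair α) ε'` (`abs_pair_le`); `pair ηA β = pair ηα β + pair ηA' β`. In `pair_zero`:
`pair ηT ηT' ≥ -o(1)` (`pair_symm`, `pair_TT_ge T' T`, `neg_tendsto`), cross terms `≤ C t + C √Θ ε'`
(`cross_smooth`, `rep_T`, `rep_ABd`, `Growth.restr`, `restr_mass`), `pair ηA ηA ≥ κ x² - C t²`.
`A_zero`: `|A σ - A (Am (R σ))| ≤ α₀ L2 (Am (σ - R σ)) ≤ C t` (`cn_R`, `L2_le_Cn`), and
`|A (Am (R σ))| ≤ 6 ε L2 σ` (`rbd_of_rep`).
-/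

namespace Vale.Agent.P204

open scoped ContDiff Topology
open Metric MeasureTheory Set Filter

noncomputable section

namespace Atlas

variable {𝒜 : Atlas}

private theorem ev_Mn3 {P : ℝ → Prop} :
    (∃ t₀ > 0, ∀ t ∈ Ioc (0 : ℝ) t₀, P t) ↔ ∀ᶠ t in 𝓝[>] (0 : ℝ), P t :=
  (mem_nhdsGT_iff_exists_Ioc_subset (s := {t | P t})).symm

private theorem supp_Mn3 {r r' : ℝ} (h : r ≤ r') {γ : E → Cov} (hγ : Supp r γ) : Supp r' γ :=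
  ⟨hγ.1, fun p hp => hγ.2 p fun h' => hp (closedBall_subset_closedBall h h')⟩

theorem Sit.D_exact (S : Sit 𝒜) {α₀ Θ : ℝ} (hα : 0 ≤ α₀) (hΘ : 0 ≤ Θ) (hA : LBd S.A α₀)
    (hG : S.T.Growth 0 Θ) (β : 𝒜.Form) (hβ : Exact β) : (S.T.restr S.T.Z).cur β = 0 := by
  obtain ⟨γ, hγ, rfl⟩ := exact_decomp hβ
  rw [map_sum]
  refine Finset.sum_eq_zero fun j _ => ?_
  obtain ⟨D, hμ, hD⟩ := S.T.exists_loc j
  obtain ⟨a, ha, hanti, hrep⟩ := local_L2 hA j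
  obtain ⟨C, r₀, hr₀, hI⟩ := S.angle_main hα hΘ hA hG j
  obtain ⟨c, -, C', -, -, hs⟩ := PM.tr_supp (𝒜 := 𝒜)
  have h3 : ∀ y ∈ closedBall (0 : E) 3, D.J y = 𝒜.J j y ∧ D.g y = 𝒜.g j y := fun y hy =>
    hD y (closedBall_subset_closedBall (by norm_num) hy)
  have hl : ∀ s : E → Bil, ∀ᵐ y ∂(S.T.tr j), D.lin s y = s y.1 y.2 (𝒜.J j y.1 y.2) := fun s =>
    (hs S.T j).mono fun y hy => by rw [Loc.lin, (h3 _ hy.1).1]
  have key := D.closedD a ha (fun y hy b => by rw [(h3 y hy).1, hanti y hy])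
    (fun γ' hγ' => by
      rw [hμ, integral_congr_ae (hl _),
        ← S.T.cur_ext j (locD_At3 (supp_Mn3 (by norm_num) hγ')), ← hrep _ (locD_At3 hγ')]
      exact S.kill _ (exact_ext j (by norm_num) hγ').closed)
    (Θ := Θ) (fun x hx s hs => by rw [hμ]; exact hG j x hx s hs.le hs) (C := C) hr₀
    (fun r hr => by
      rw [hμ]
      refine le_of_eq_of_le (setIntegral_congr_fun (measurable_fst measurableSet_closedBall)
        fun x hx => ?_) (hI r hr)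
      have := h3 x.1 (closedBall_subset_closedBall (by norm_num) hx)
      simp only [this.1, this.2])
    (γ j) (hγ j)
  rw [hμ, integral_congr_ae (ae_restrict_of_ae (hl _))] at key
  rw [S.T.cur_restr_Zs j (locD_At3 (supp_Mn3 (by norm_num) (hγ j)))]
  exact key

private theorem split_Mn3 {u v : 𝒜.Form} {a b c d : ℝ} (ha : L2 (𝒜.Ap u) ≤ a)
    (hb : L2 (𝒜.Ap v) ≤ b) (hc : L2 (𝒜.Am u) ≤ c) (hd : L2 (𝒜.Am v) ≤ d) :
    |𝒜.pair u v| ≤ 6 * a * b + 6 * c * d := by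
  have h0 := (L2_nonneg _).trans ha
  have h1 := (L2_nonneg _).trans hc
  rw [pair_split]
  exact (abs_add_le _ _).trans (add_le_add
    ((abs_pair_le _ _).trans (mul_le_mul (by linarith) hb (L2_nonneg _) (by linarith)))
    ((abs_pair_le _ _).trans (mul_le_mul (by linarith) hd (L2_nonneg _) (by linarith))))

private theorem riesz_Mn3 {A : 𝒜.Form →ₗ[ℝ] ℝ} {α₀ : ℝ} (hα : 0 ≤ α₀) (hA : LBd A α₀) {ε : ℝ}
    (hε : 0 < ε) : ∃ α : 𝒜.Form, LBd (A - 𝒜.pair α) ε := by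
  obtain ⟨κ, hκ, hpos⟩ := anti_pos (𝒜 := 𝒜)
  obtain ⟨α, -, h⟩ := approx_riesz (LinearMap.eqLocus 𝒜.Am LinearMap.id) 𝒜.pair pair_symm
    (fun x hx => le_trans (by positivity) (hpos x hx)) A (C := α₀ / √κ) (fun x hx => by
      have h1 : √κ * L2 x ≤ √(𝒜.pair x x) := Real.le_sqrt_of_sq_le (by
        rw [mul_pow, Real.sq_sqrt hκ.le]
        exact hpos x hx)
      have h2 := Real.sqrt_pos.2 hκ
      calc |A x| ≤ α₀ * L2 x := hA x hx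
        _ = α₀ / √κ * (√κ * L2 x) := by field_simp
        _ ≤ _ := mul_le_mul_of_nonneg_left h1 (by positivity))
    (η := ε / 3) (by positivity)
  refine ⟨α, fun x hx => (h x hx).trans ?_⟩
  have h0 := L2_nonneg x
  have h1 : √(𝒜.pair x x) ≤ 3 * L2 x := Real.sqrt_le_iff.2 ⟨by positivity, by
    nlinarith [(le_abs_self _).trans (abs_pair_le x x)]⟩
  nlinarith

theorem Sit.am_small (S : Sit 𝒜) {α₀ Θ : ℝ} (hα : 0 ≤ α₀) (hΘ : 0 ≤ Θ) (hA : LBd S.A α₀)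
    (hG : S.T.Growth 0 Θ) {ε : ℝ} (hε : 0 < ε) : ∃ t₀ > 0, ∀ t ∈ Ioc (0 : ℝ) t₀, ∀ ηA,
      Rep ηA (S.A ∘ₗ 𝒜.Am ∘ₗ S.ℛ.R t) → L2 (𝒜.Am ηA) ≤ ε := by
  have hZ : ∀ j, MeasurableSet (S.T.Z j) := fun j => measurableSet_Zs _
  have hT' : ∀ β, Exact β → (S.T.restr fun j => (S.T.Z j)ᶜ).cur β = S.T.cur β := fun β hβ => by
    rw [S.T.cur_split hZ β, S.D_exact hα hΘ hA hG β hβ, zero_add]
  obtain ⟨κ, hκ, hpos⟩ := anti_pos (𝒜 := 𝒜)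
  obtain ⟨CL, hCL, hL⟩ := L2_Am_le (𝒜 := 𝒜)
  obtain ⟨CT, hCT, hT⟩ := S.ℛ.rep_T
  obtain ⟨CA, hCA, hB⟩ := S.ℛ.rep_ABd 0
  obtain ⟨CP, hCP, hP⟩ := S.ℛ.pair_TT_ge
  obtain ⟨K, hK, hK0⟩ : ∃ K, K = 6 * CT * √Θ * CA * (CL + 1) ∧ 0 ≤ K := ⟨_, rfl, by positivity⟩
  obtain ⟨e, he, he1⟩ : ∃ e, 0 < e ∧ 2 * (K * e) ≤ κ * ε ^ 2 / 2 := by
    refine ⟨κ * ε ^ 2 / (4 * K + 1), by positivity, ?_⟩
    rw [← mul_div_assoc, ← mul_div_assoc, div_le_div_iff₀ (by positivity) (by norm_num)]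
    nlinarith [mul_pos hκ (pow_pos hε 2)]
  obtain ⟨α, hA'⟩ := riesz_Mn3 hα hA he
  obtain ⟨Cα, -, hC⟩ := S.ℛ.cross_smooth α
  obtain ⟨Co, ho⟩ := pair_ord α
  have hid : Tendsto (fun t : ℝ => t) (𝓝[>] 0) (𝓝 0) := nhdsWithin_le_nhds
  have hlim := (((S.T.neg_tendsto hG hCP).const_mul CP).add ((hid.const_mul Cα).const_mul 2)).add
    ((((hid.const_mul CA).mul_const α₀).pow 2).const_mul 6)
  have hev := hlim.eventually_le_const (show _ < κ * ε ^ 2 / 2 by simp; positivity)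
  refine ev_Mn3.2 ?_
  filter_upwards [ev_Mn3.1 hT, ev_Mn3.1 hB, ev_Mn3.1 hP, ev_Mn3.1 hC, ev_Mn3.1 S.reps,
    ev_Mn3.1 S.pair_zero, ev_Mn3.1 S.ℛ.rep_am, hev, self_mem_nhdsWithin] with t h1 h2 h3 h4 h5 h6
    h7 h8 ht ηA hηA
  have ht : 0 < t := ht
  obtain ⟨ηT, hηT⟩ := h5.1 S.T
  obtain ⟨ηT', hηT'⟩ := h5.1 (S.T.restr fun j => (S.T.Z j)ᶜ)
  obtain ⟨ηα, hηα⟩ := h7 _ _ _ ho.aOrd
  have hη' : Rep (ηA - ηα) ((S.A - 𝒜.pair α) ∘ₗ 𝒜.Am ∘ₗ S.ℛ.R t) := fun β => by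
    rw [map_sub, LinearMap.sub_apply, hηA β, hηα β]
    rfl
  have b1 := h2 _ _ e he.le hη' (hA'.abd he.le ht.le 0)
  have b2 := h2 _ _ α₀ hα hηA (hA.abd hα ht.le 0)
  have cross : ∀ (U : 𝒜.PM) (ηU : 𝒜.Form), U.mass ≤ 1 → U.Growth 0 Θ →
      Rep ηU (U.cur ∘ₗ S.ℛ.R t) → -(Cα * t + K * e) ≤ 𝒜.pair ηU ηA := fun U ηU m g r => by
    have c1 := h1 U ηU Θ hΘ m (g.mono ht.le) r
    have c2 := split_Mn3 (((hL ηU).2.1).trans (mul_le_mul_of_nonneg_left c1.1 (by linarith))) b1.1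
      c1.2 b1.2
    have c3 : 6 * (CL * (CT * √Θ / t)) * (CA * t * e) + 6 * (CT * √Θ) * (CA * e) = K * e := by
      rw [hK]
      field_simp
    rw [c3, map_sub] at c2
    linarith [(abs_le.1 c2).1, (abs_le.1 (h4 U ηU ηα m r hηα)).1]
  have d1 := cross S.T ηT S.mass.le hG hηT
  have d2 := cross _ ηT' ((S.T.restr_mass _).trans S.mass.le) (hG.restr _) hηT'
  have d3 := h3 _ _ _ _ hηT' hηT
  have d4 := h6 _ _ _ _ hT' hηT hηT' hηA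
  have d5 := hpos _ (Am_Am ηA)
  have d6 : -(6 * (CA * t * α₀) ^ 2) ≤ 𝒜.pair (𝒜.Ap ηA) (𝒜.Ap ηA) := by
    have := pow_le_pow_left₀ (L2_nonneg _) b2.1 2
    linarith [(abs_le.1 (abs_pair_le (𝒜.Ap ηA) (𝒜.Ap ηA))).1]
  simp only [map_add, LinearMap.add_apply] at d4
  rw [pair_symm ηT ηT', pair_symm ηA ηT', pair_split ηA ηA] at d4
  have d7 : κ * L2 (𝒜.Am ηA) ^ 2 ≤ κ * ε ^ 2 := by linarith
  exact (pow_le_pow_iff_left₀ (L2_nonneg _) hε.le two_ne_zero).1 (le_of_mul_le_mul_left d7 hκ)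

theorem Sit.A_zero (S : Sit 𝒜) (σ : 𝒜.Form) (hσ : Anti σ) : S.A σ = 0 := by
  obtain ⟨α₀, hα, Θ, hΘ, hA, hG⟩ := S.lbd_main
  obtain ⟨CL, hCL, hL⟩ := L2_Am_le (𝒜 := 𝒜)
  obtain ⟨C2, hC2, h2⟩ := L2_le_Cn (𝒜 := 𝒜)
  obtain ⟨C, hC, hR⟩ := S.ℛ.cn_R 0
  obtain ⟨M, hM⟩ := exists_Cn (0 + 1) σ
  have hM0 := hM.nonneg
  have h0 := L2_nonneg σ
  obtain ⟨K, hK, hK0⟩ : ∃ K, K = 6 * L2 σ + α₀ * (CL * (C2 * (C * M))) ∧ 0 ≤ K :=
    ⟨_, rfl, by positivity⟩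
  have key : ∀ ε > 0, |S.A σ| ≤ ε * K := fun ε hε => by
    obtain ⟨t, a1, a2, a3, a4⟩ := ((ev_Mn3.1 (S.am_small hα hΘ hA hG hε)).and
      ((ev_Mn3.1 hR).and ((ev_Mn3.1 S.reps).and (Ioc_mem_nhdsGT hε)))).exists
    obtain ⟨ηA, hηA⟩ := a3.2
    have b1 := (S.ℛ.rbd_of_rep hηA σ hσ).trans
      (mul_le_mul_of_nonneg_right (mul_le_mul_of_nonneg_left (a1 ηA hηA) (by norm_num)) h0)
    have b2 := (hA _ (Am_Am (S.ℛ.R t σ - σ))).trans (mul_le_mul_of_nonneg_left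
      ((hL _).1.trans (mul_le_mul_of_nonneg_left (h2 _ _ ((a2 σ M).2 hM)) (by linarith))) hα)
    have b3 : α₀ * (CL * (C2 * (C * t * M))) ≤ ε * (α₀ * (CL * (C2 * (C * M)))) :=
      calc _ = t * (α₀ * (CL * (C2 * (C * M)))) := by ring
        _ ≤ _ := mul_le_mul_of_nonneg_right a4.2 (by positivity)
    rw [map_sub, map_sub, hσ] at b2
    rw [hK, abs_le]
    constructor <;> linarith [(abs_le.1 b1).1, (abs_le.1 b1).2, (abs_le.1 b2).1, (abs_le.1 b2).2]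
  refine abs_nonpos_iff.1 (le_of_forall_pos_le_add fun δ hδ => (key (δ / (K + 1))
    (by positivity)).trans ?_)
  rw [zero_add, div_mul_eq_mul_div, div_le_iff₀ (by positivity)]
  nlinarith

end Atlas

end

end Vale.Agent.P204
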