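import Vale.Agent.P204.At6

/-!
P204 Ru1: global consequences of the regularisation package.
Plan: `cn_R`: fields `jet`, `small` at `p ∈ closedBall 0 1`, hypothesis from `Cn_jb` (radius 2).
`L2_R`: fields `smooth 0`, `comm 0` (`SJB_zero_iff`), `chi ≤ 1`, `avg_sq`, `L2_ge`, `L1_ge`.
`maj_R`: majorant `indicator (closedBall 0 2) (C / t^4 * ∫ q in closedBall p ((C+1) t), ‖β j q‖)`
(measurable by the continuity part of `avg_sq`), `sjb_Am`; if `Am β = 0` then `Am (R β)` is the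
commutator. `cn_smooth`: `SJB.jb` and the last part of `avg_sq`. `closed_rep`: `closed_of_weak`,
`exact_ext`, field `exact`.
-/

namespace Vale.Agent.P204

open scoped ContDiff Topology
open Metric MeasureTheory Set Filter

noncomputable section

namespace Atlas

variable {𝒜 : Atlas}

/-- local mass of a form -/
def ru1Av (β : 𝒜.Form) (j : Fin 𝒜.n) (s : ℝ) (p : E) : ℝ := ∫ q in closedBall p s, ‖β.1 j q‖

theorem ru1_nonneg (β : 𝒜.Form) (j : Fin 𝒜.n) (s : ℝ) (p : E) : 0 ≤ ru1Av β j s p :=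
  integral_nonneg fun _ => norm_nonneg _

theorem ru1_cont (β : 𝒜.Form) (j : Fin 𝒜.n) {S : Set E} (hS : S ⊆ closedBall (0 : E) 3) :
    ContinuousOn (fun q => ‖β.1 j q‖) S :=
  ((Form.smooth β j).continuousOn.mono (hS.trans (cb_sub (by norm_num)))).norm

theorem ru1_mem {p q : E} {r s R : ℝ} (hp : p ∈ closedBall (0 : E) r) (hq : q ∈ closedBall p s)
    (h : r + s ≤ R) : q ∈ closedBall (0 : E) R := by
  rw [mem_closedBall] at *
  linarith [dist_triangle q p 0]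

theorem ru1_mono (β : 𝒜.Form) (j : Fin 𝒜.n) {p q : E} {s t : ℝ} (hp : p ∈ closedBall (0 : E) 2)
    (hq : q ∈ closedBall p t) (h : s + t ≤ 1) : ru1Av β j s q ≤ ru1Av β j (s + t) p := by
  refine setIntegral_mono_set (ContinuousOn.integrableOn_compact (isCompact_closedBall _ _)
    (ru1_cont β j fun x hx => ru1_mem hp hx (by linarith)))
    (Eventually.of_forall fun _ => norm_nonneg _) (LE.le.eventuallyLE fun x hx => ?_)
  rw [mem_closedBall] at *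
  linarith [dist_triangle x q p]

theorem ru1_av : ∃ D ≥ 1, ∀ (β : 𝒜.Form) j (R s : ℝ), 0 < s → R + s ≤ 3 →
    ContinuousOn (ru1Av β j s) (closedBall 0 R) ∧
    ∫ p in closedBall (0 : E) R, ru1Av β j s p ^ 2 ≤ D * s ^ 8 * L2 β ^ 2 ∧
    ∫ p in closedBall (0 : E) R, ru1Av β j s p ≤ D * s ^ 4 * L1 β ∧
    ∀ p ∈ closedBall (0 : E) R, ru1Av β j s p ^ 2 ≤ D * s ^ 4 * L2 β ^ 2 := by
  obtain ⟨C, hC, h⟩ := avg_sq
  obtain ⟨A, hA, h2⟩ := L2_ge (𝒜 := 𝒜) (r := 3) (by norm_num)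
  obtain ⟨B, hB, h1⟩ := L1_ge (𝒜 := 𝒜) (r := 3) (by norm_num)
  refine ⟨1 + C * A + C * B, by
    have : 0 ≤ C * A := by positivity
    have : 0 ≤ C * B := by positivity
    linarith, fun β j R s hs hR => ?_⟩
  have hsub : closedBall (0 : E) (R + s) ⊆ closedBall 0 3 := closedBall_subset_closedBall hR
  obtain ⟨a1, a2, a3, a4⟩ := h (fun q => ‖β.1 j q‖) R s hs (ru1_cont β j hsub)
    fun _ => norm_nonneg _
  have b2 : ∫ q in closedBall (0 : E) (R + s), ‖β.1 j q‖ ^ 2 ≤ A * L2 β ^ 2 :=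
    (setIntegral_mono_set (ContinuousOn.integrableOn_compact (isCompact_closedBall _ _)
      ((ru1_cont β j Subset.rfl).pow 2)) (Eventually.of_forall fun _ => sq_nonneg _)
      hsub.eventuallyLE).trans (h2 β j)
  have b1 : ∫ q in closedBall (0 : E) (R + s), ‖β.1 j q‖ ≤ B * L1 β :=
    (setIntegral_mono_set (ContinuousOn.integrableOn_compact (isCompact_closedBall _ _)
      (ru1_cont β j Subset.rfl)) (Eventually.of_forall fun _ => norm_nonneg _)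
      hsub.eventuallyLE).trans (h1 β j)
  have l1 := L1_nonneg β
  have hA0 : 0 ≤ A := by linarith
  have hB0 : 0 ≤ B := by linarith
  have k : ∀ (x y u : ℝ), 0 ≤ x → 0 ≤ y → 0 ≤ u → ∀ I : ℝ, I ≤ x * u → ∀ m : ℕ,
      C * s ^ m * I ≤ (1 + C * x + C * y) * s ^ m * u := fun x y u hx hy hu I hI m => by
    have e1 := mul_le_mul_of_nonneg_left hI (show 0 ≤ C * s ^ m by positivity)
    have e2 : 0 ≤ (1 + C * y) * s ^ m * u := by positivity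
    nlinarith
  refine ⟨a1, a2.trans (k A B _ hA0 hB0 (sq_nonneg _) _ b2 8), a3.trans ?_,
    fun p hp => (a4 p hp).trans (k A B _ hA0 hB0 (sq_nonneg _) _ b2 4)⟩
  have := k B A _ hB0 hA0 l1 _ b1 4
  linarith

theorem ru1_n : (1 : ℝ) ≤ 𝒜.n := by exact_mod_cast 𝒜.npos

theorem ru1_sum {D a s u : ℝ} (hD : 1 ≤ D) :
    ∑ _j : Fin 𝒜.n, a ^ 2 * (D * s ^ 8 * u ^ 2) ≤ (𝒜.n * D * a * s ^ 4 * u) ^ 2 := by
  rw [Finset.sum_const, Finset.card_univ, Fintype.card_fin, nsmul_eq_mul]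
  have h1 : (1 : ℝ) ≤ 𝒜.n * D := one_le_mul_of_one_le_of_one_le ru1_n hD
  have h2 : 𝒜.n * D ≤ (𝒜.n * D) ^ 2 := by nlinarith
  have h3 := mul_le_mul_of_nonneg_right h2 (sq_nonneg (a * s ^ 4 * u))
  calc _ = 𝒜.n * D * (a * s ^ 4 * u) ^ 2 := by ring
    _ ≤ _ := h3
    _ = _ := by ring

theorem ru1_L : ∃ D ≥ 1, ∀ (γ β : 𝒜.Form) (a s : ℝ), 0 ≤ a → 0 < s → s ≤ 1 →
    (∀ j, ∀ p ∈ closedBall (0 : E) 1, ‖γ.1 j p‖ ≤ a * ru1Av β j s p) →
    L2 γ ≤ D * a * s ^ 4 * L2 β ∧ L1 γ ≤ D * a * s ^ 4 * L1 β := by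
  obtain ⟨D, hD, h⟩ := ru1_av (𝒜 := 𝒜)
  refine ⟨𝒜.n * D, one_le_mul_of_one_le_of_one_le ru1_n hD, fun γ β a s ha hs hs1 hγ => ?_⟩
  have hK := isCompact_closedBall (0 : E) 1
  have hsub : closedBall (0 : E) 1 ⊆ closedBall 0 3 := closedBall_subset_closedBall (by norm_num)
  have l2 := L2_nonneg β
  have hD0 : 0 ≤ D := by linarith
  constructor
  · refine (sq_le_sq₀ (L2_nonneg γ) (by positivity)).1 ?_
    rw [L2_sq]
    refine (Finset.sum_le_sum fun j _ => ?_).trans (ru1_sum hD)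
    obtain ⟨a1, a2, -, -⟩ := h β j 1 s hs (by linarith)
    refine le_trans ?_ (mul_le_mul_of_nonneg_left a2 (sq_nonneg a))
    rw [← integral_const_mul]
    refine setIntegral_mono_on (ContinuousOn.integrableOn_compact hK
      ((𝒜.chi_supp j).1.continuous.continuousOn.mul ((ru1_cont γ j hsub).pow 2)))
      (ContinuousOn.integrableOn_compact hK (continuousOn_const.mul (a1.pow 2)))
      measurableSet_closedBall fun p hp => ?_
    have e1 := pow_le_pow_left₀ (norm_nonneg _) (hγ j p hp) 2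
    have e2 := mul_le_mul_of_nonneg_right (𝒜.chi_le j p) (sq_nonneg ‖γ.1 j p‖)
    rw [mul_pow] at e1
    linarith
  · have e : 𝒜.n * D * a * s ^ 4 * L1 β = ∑ _j : Fin 𝒜.n, a * (D * s ^ 4 * L1 β) := by
      rw [Finset.sum_const, Finset.card_univ, Fintype.card_fin, nsmul_eq_mul]
      ring
    rw [e]
    refine Finset.sum_le_sum fun j _ => ?_
    obtain ⟨a1, -, a3, -⟩ := h β j 1 s hs (by linarith)
    refine le_trans ?_ (mul_le_mul_of_nonneg_left a3 ha)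
    rw [← integral_const_mul]
    refine setIntegral_mono_on (ContinuousOn.integrableOn_compact hK
      ((𝒜.chi_supp j).1.continuous.continuousOn.mul (ru1_cont γ j hsub)))
      (ContinuousOn.integrableOn_compact hK (continuousOn_const.mul a1))
      measurableSet_closedBall fun p hp => ?_
    have e2 := mul_le_mul_of_nonneg_right (𝒜.chi_le j p) (norm_nonneg (γ.1 j p))
    have e1 := hγ j p hp
    linarith

theorem ru1_M : ∃ D ≥ 1, ∀ (γ β : 𝒜.Form) (k : ℕ) (a s t c : ℝ), 0 ≤ a → 0 < s → s ≤ 1 →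
    D * a * s ^ 4 * L2 β ≤ c →
    (∀ j, ∀ p ∈ closedBall (0 : E) 2, ∀ q ∈ closedBall p t,
      SJB (γ.1 j) k t q (a * ru1Av β j s p)) → Maj γ k t c := by
  classical
  obtain ⟨D, hD, h⟩ := ru1_av (𝒜 := 𝒜)
  refine ⟨𝒜.n * D, one_le_mul_of_one_le_of_one_le ru1_n hD,
    fun γ β k a s t c ha hs hs1 hc hγ => ?_⟩
  have hK := isCompact_closedBall (0 : E) 2
  have l2 := L2_nonneg β
  have hD0 : 0 ≤ D := by linarith
  have hcont : ∀ j, ContinuousOn (fun p => a * ru1Av β j s p) (closedBall (0 : E) 2) := fun j =>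
    continuousOn_const.mul (h β j 2 s hs (by linarith)).1
  have heq : ∀ j, EqOn (fun p => (closedBall (0 : E) 2).indicator
      (fun p => a * ru1Av β j s p) p ^ 2) (fun p => a ^ 2 * ru1Av β j s p ^ 2)
      (closedBall (0 : E) 2) := fun j p hp => by
    simp only [indicator_of_mem hp, mul_pow]
  refine ⟨fun j => (closedBall (0 : E) 2).indicator fun p => a * ru1Av β j s p, fun j => ?_,
    fun j p => indicator_nonneg (fun p _ => mul_nonneg ha (ru1_nonneg β j s p)) p, fun j => ?_,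
    ?_, fun j p hp q hq => ?_⟩
  · simp only [← piecewise_eq_indicator]
    exact (hcont j).measurable_piecewise continuousOn_const measurableSet_closedBall
  · refine (integrableOn_congr_fun (heq j) measurableSet_closedBall).2 ?_
    exact ContinuousOn.integrableOn_compact hK
      (continuousOn_const.mul ((h β j 2 s hs (by linarith)).1.pow 2))
  · refine le_trans (Finset.sum_le_sum fun j _ => ?_) ((ru1_sum (a := a) (s := s) (u := L2 β)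
      hD).trans (pow_le_pow_left₀ (by positivity) hc 2))
    rw [setIntegral_congr_fun measurableSet_closedBall (heq j), integral_const_mul]
    exact mul_le_mul_of_nonneg_left (h β j 2 s hs (by linarith)).2.1 (sq_nonneg a)
  · simp only [indicator_of_mem hp]
    exact hγ j p hp q hq

theorem ru1_t {C t t₀ : ℝ} (hC : 1 ≤ C) (h : C * t₀ ≤ 1 / 4) (ht : 0 < t) (ht' : t ≤ t₀) :
    0 < C * t ∧ C * t ≤ 1 / 4 ∧ t ≤ 1 / 4 := by
  have h1 : C * t ≤ C * t₀ := mul_le_mul_of_nonneg_left ht' (by linarith)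
  have h2 : 1 * t ≤ C * t := mul_le_mul_of_nonneg_right hC ht.le
  exact ⟨by linarith, by linarith, by linarith⟩

theorem ru1_le {x y u : ℝ} (hx : 0 ≤ x) (hy : 1 ≤ y) (hu : 0 ≤ u) : x * u ≤ x * y * u := by
  have := mul_nonneg (mul_nonneg hx (sub_nonneg.2 hy)) hu
  nlinarith

theorem Reg.cn_R (ℛ : 𝒜.Reg) (k : ℕ) : ∃ C ≥ 1, ∃ t₀ > 0, ∀ t ∈ Ioc (0 : ℝ) t₀, ∀ (β : 𝒜.Form) M,
    (Cn k β M → Cn k (ℛ.R t β) (C * M)) ∧
    (Cn (k + 1) β M → Cn k (ℛ.R t β - β) (C * t * M)) := by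
  obtain ⟨C₁, hC₁, t₁, ht₁, hc₁, h₁⟩ := ℛ.jet k
  obtain ⟨C₂, hC₂, t₂, ht₂, hc₂, h₂⟩ := ℛ.small k
  obtain ⟨B₁, hB₁, g₁⟩ := Cn_jb (𝒜 := 𝒜) k (r := 2) (by norm_num)
  obtain ⟨B₂, hB₂, g₂⟩ := Cn_jb (𝒜 := 𝒜) (k + 1) (r := 2) (by norm_num)
  have e₁ : 1 ≤ C₁ * B₁ := one_le_mul_of_one_le_of_one_le hC₁ hB₁
  have e₂ : 1 ≤ C₂ * B₂ := one_le_mul_of_one_le_of_one_le hC₂ hB₂
  have hsub : closedBall (0 : E) 1 ⊆ closedBall 0 3 := closedBall_subset_closedBall (by norm_num)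
  refine ⟨C₁ * B₁ * (C₂ * B₂), one_le_mul_of_one_le_of_one_le e₁ e₂, min t₁ t₂, lt_min ht₁ ht₂,
    fun t ht β M => ⟨fun hβ => ?_, fun hβ => ?_⟩⟩
  · have a := ru1_t hC₁ hc₁ ht.1 (ht.2.trans (min_le_left _ _))
    have b : Cn k (ℛ.R t β) (C₁ * (B₁ * M)) := fun j p hp =>
      h₁ t ⟨ht.1, ht.2.trans (min_le_left _ _)⟩ β j p (hsub hp) _ fun q hq =>
        g₁ β M hβ j q (ru1_mem hp hq (by linarith [a.2.1]))
    refine b.mono le_rfl ?_
    rw [← mul_assoc]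
    exact ru1_le (by linarith) e₂ hβ.nonneg
  · have a := ru1_t hC₂ hc₂ ht.1 (ht.2.trans (min_le_right _ _))
    have b : Cn k (ℛ.R t β - β) (C₂ * t * (B₂ * M)) := fun j p hp =>
      h₂ t ⟨ht.1, ht.2.trans (min_le_right _ _)⟩ β j p (hsub hp) _ fun q hq =>
        g₂ β M hβ j q (ru1_mem hp hq (by linarith [a.2.1]))
    refine b.mono le_rfl ?_
    have := ru1_le (show 0 ≤ C₂ * B₂ by linarith) e₁ (mul_nonneg ht.1.le hβ.nonneg)
    linarith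

theorem Reg.L2_R (ℛ : 𝒜.Reg) : ∃ C ≥ 1, ∃ t₀ > 0, ∀ t ∈ Ioc (0 : ℝ) t₀, ∀ β : 𝒜.Form,
    L2 (ℛ.R t β) ≤ C * L2 β ∧ L1 (ℛ.R t β) ≤ C * L1 β ∧
    L2 (𝒜.Am (ℛ.R t β) - ℛ.R t (𝒜.Am β)) ≤ C * t * L2 β ∧
    L1 (𝒜.Am (ℛ.R t β) - ℛ.R t (𝒜.Am β)) ≤ C * t * L1 β := by
  obtain ⟨C₁, hC₁, t₁, ht₁, hc₁, h₁⟩ := ℛ.smooth 0
  obtain ⟨C₂, hC₂, t₂, ht₂, hc₂, h₂⟩ := ℛ.comm 0
  obtain ⟨D, hD, h⟩ := ru1_L (𝒜 := 𝒜)
  have e₁ : 1 ≤ C₁ ^ 5 := one_le_pow₀ hC₁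
  have e₂ : 1 ≤ C₂ ^ 5 := one_le_pow₀ hC₂
  have hD0 : 0 ≤ D := by linarith
  have hsub : closedBall (0 : E) 1 ⊆ closedBall 0 (5 / 2) :=
    closedBall_subset_closedBall (by norm_num)
  refine ⟨D * C₁ ^ 5 * C₂ ^ 5, one_le_mul_of_one_le_of_one_le
    (one_le_mul_of_one_le_of_one_le hD e₁) e₂, min t₁ t₂, lt_min ht₁ ht₂, fun t ht β => ?_⟩
  have t0 := ht.1
  have a₁ := ru1_t hC₁ hc₁ ht.1 (ht.2.trans (min_le_left _ _))
  have a₂ := ru1_t hC₂ hc₂ ht.1 (ht.2.trans (min_le_right _ _))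
  have b₁ := h (ℛ.R t β) β (C₁ / t ^ 4) (C₁ * t) (by positivity) a₁.1 (by linarith [a₁.2.1])
    fun j p hp => SJB_zero_iff.1 (h₁ t ⟨ht.1, ht.2.trans (min_le_left _ _)⟩ β j p (hsub hp))
  have b₂ := h (𝒜.Am (ℛ.R t β) - ℛ.R t (𝒜.Am β)) β (C₂ / t ^ 3) (C₂ * t) (by positivity) a₂.1
    (by linarith [a₂.2.1])
    fun j p hp => SJB_zero_iff.1 (h₂ t ⟨ht.1, ht.2.trans (min_le_right _ _)⟩ β j p (hsub hp))
  have c₁ : D * (C₁ / t ^ 4) * (C₁ * t) ^ 4 = D * C₁ ^ 5 := by field_simp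
  have c₂ : D * (C₂ / t ^ 3) * (C₂ * t) ^ 4 = D * C₂ ^ 5 * t := by field_simp
  rw [c₁] at b₁
  rw [c₂] at b₂
  have l1 := L1_nonneg β
  have l2 := L2_nonneg β
  refine ⟨b₁.1.trans (ru1_le (by positivity) e₂ l2), b₁.2.trans (ru1_le (by positivity) e₂ l1),
    b₂.1.trans ?_, b₂.2.trans ?_⟩
  · have := ru1_le (show 0 ≤ D * C₂ ^ 5 by positivity) e₁ (mul_nonneg t0.le l2)
    linarith
  · have := ru1_le (show 0 ≤ D * C₂ ^ 5 by positivity) e₁ (mul_nonneg t0.le l1)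
    linarith

theorem Reg.maj_R (ℛ : 𝒜.Reg) (k : ℕ) : ∃ C ≥ 1, ∃ t₀ > 0, ∀ t ∈ Ioc (0 : ℝ) t₀, ∀ β : 𝒜.Form,
    Maj (𝒜.Am (ℛ.R t β)) k t (C * L2 β) ∧
    (𝒜.Am β = 0 → Maj (𝒜.Am (ℛ.R t β)) k t (C * t * L2 β)) := by
  obtain ⟨C₁, hC₁, t₁, ht₁, hc₁, h₁⟩ := ℛ.smooth k
  obtain ⟨C₂, hC₂, t₂, ht₂, hc₂, h₂⟩ := ℛ.comm k
  obtain ⟨B, hB, g⟩ := sjb_Am (𝒜 := 𝒜) k (r := 3) (by norm_num)
  obtain ⟨D, hD, h⟩ := ru1_M (𝒜 := 𝒜)
  have e₁ : 1 ≤ B * C₁ * (C₁ + 1) ^ 4 := one_le_mul_of_one_le_of_one_le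
    (one_le_mul_of_one_le_of_one_le hB hC₁) (one_le_pow₀ (by linarith))
  have e₂ : 1 ≤ C₂ * (C₂ + 1) ^ 4 :=
    one_le_mul_of_one_le_of_one_le hC₂ (one_le_pow₀ (by linarith))
  have hD0 : 0 ≤ D := by linarith
  have hB0 : 0 ≤ B := by linarith
  refine ⟨D * (B * C₁ * (C₁ + 1) ^ 4) * (C₂ * (C₂ + 1) ^ 4), one_le_mul_of_one_le_of_one_le
    (one_le_mul_of_one_le_of_one_le hD e₁) e₂, min t₁ t₂, lt_min ht₁ ht₂, fun t ht β => ?_⟩
  have t0 := ht.1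
  have a₁ := ru1_t hC₁ hc₁ ht.1 (ht.2.trans (min_le_left _ _))
  have a₂ := ru1_t hC₂ hc₂ ht.1 (ht.2.trans (min_le_right _ _))
  have l2 := L2_nonneg β
  constructor
  · refine h _ β k (B * (C₁ / t ^ 4)) (C₁ * t + t) t _ (by positivity) (by linarith [a₁.1])
      (by linarith [a₁.2.1, a₁.2.2]) ?_ fun j p hp q hq => ?_
    · have c : D * (B * (C₁ / t ^ 4)) * (C₁ * t + t) ^ 4 = D * (B * C₁ * (C₁ + 1) ^ 4) := by
        field_simp
      rw [c]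
      exact ru1_le (by positivity) e₂ l2
    · have b := g _ j q (ru1_mem hp hq (by linarith [a₁.2.2])) t _ t0 (by linarith [a₁.2.2])
        (h₁ t ⟨ht.1, ht.2.trans (min_le_left _ _)⟩ β j q (ru1_mem hp hq (by linarith [a₁.2.2])))
      refine b.mono le_rfl ?_
      rw [← mul_assoc]
      exact mul_le_mul_of_nonneg_left (ru1_mono β j hp hq (by linarith [a₁.2.1, a₁.2.2]))
        (by positivity)
  · intro hβ
    refine h _ β k (C₂ / t ^ 3) (C₂ * t + t) t _ (by positivity) (by linarith [a₂.1])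
      (by linarith [a₂.2.1, a₂.2.2]) ?_ fun j p hp q hq => ?_
    · have c : D * (C₂ / t ^ 3) * (C₂ * t + t) ^ 4 = D * (C₂ * (C₂ + 1) ^ 4) * t := by
        field_simp
      rw [c]
      have := ru1_le (show 0 ≤ D * (C₂ * (C₂ + 1) ^ 4) by positivity) e₁ (mul_nonneg t0.le l2)
      linarith
    · have b := h₂ t ⟨ht.1, ht.2.trans (min_le_right _ _)⟩ β j q
        (ru1_mem hp hq (by linarith [a₂.2.2]))
      rw [hβ, map_zero, sub_zero] at b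
      refine b.mono le_rfl ?_
      exact mul_le_mul_of_nonneg_left (ru1_mono β j hp hq (by linarith [a₂.2.1, a₂.2.2]))
        (by positivity)

theorem Reg.cn_smooth (ℛ : 𝒜.Reg) (k : ℕ) : ∃ C ≥ 1, ∃ t₀ > 0, ∀ t ∈ Ioc (0 : ℝ) t₀,
    ∀ β : 𝒜.Form, Cn k (ℛ.R t β) (C / t ^ (k + 2) * L2 β) := by
  obtain ⟨C₁, hC₁, t₁, ht₁, hc₁, h₁⟩ := ℛ.smooth k
  obtain ⟨D, hD, h⟩ := ru1_av (𝒜 := 𝒜)
  have hD0 : 0 ≤ D := by linarith
  have hC0 : 0 ≤ C₁ := by linarith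
  have hsub : closedBall (0 : E) 1 ⊆ closedBall 0 (5 / 2) :=
    closedBall_subset_closedBall (by norm_num)
  refine ⟨D * C₁ ^ 3, one_le_mul_of_one_le_of_one_le hD (one_le_pow₀ hC₁), t₁, ht₁,
    fun t ht β j p hp => ?_⟩
  have t0 := ht.1
  have a₁ := ru1_t hC₁ hc₁ ht.1 ht.2
  have l2 := L2_nonneg β
  have b := (h β j 1 (C₁ * t) a₁.1 (by linarith [a₁.2.1])).2.2.2 p hp
  have c : ru1Av β j (C₁ * t) p ≤ D * (C₁ * t) ^ 2 * L2 β := by
    refine (sq_le_sq₀ (ru1_nonneg β j _ p) (by positivity)).1 (b.trans ?_)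
    have h2 : D ≤ D ^ 2 := by nlinarith
    have h3 := mul_le_mul_of_nonneg_right h2 (sq_nonneg ((C₁ * t) ^ 2 * L2 β))
    calc _ = D * ((C₁ * t) ^ 2 * L2 β) ^ 2 := by ring
      _ ≤ _ := h3
      _ = _ := by ring
  have d := ((h₁ t ht β j p (hsub hp)).mono le_rfl
    (mul_le_mul_of_nonneg_left c (by positivity))).jb t0 (by linarith [a₁.2.2])
  have e : C₁ / t ^ 4 * (D * (C₁ * t) ^ 2 * L2 β) / t ^ k = D * C₁ ^ 3 / t ^ (k + 2) * L2 β := by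
    field_simp
    ring
  rwa [e] at d

theorem Reg.closed_rep (ℛ : 𝒜.Reg) : ∃ t₀ > 0, ∀ t ∈ Ioc (0 : ℝ) t₀,
    ∀ (S : 𝒜.Form →ₗ[ℝ] ℝ) (η : 𝒜.Form), (∀ β, Exact β → S β = 0) → Rep η (S ∘ₗ ℛ.R t) →
      Closed η := by
  obtain ⟨t₀, ht₀, h⟩ := ℛ.exact
  refine ⟨t₀, ht₀, fun t ht S η hS hη => closed_of_weak fun l r γ hr hγ => ?_⟩
  rw [hη, LinearMap.comp_apply]
  exact hS _ (h t ht _ (exact_ext l hr hγ))

end Atlas

end

end Vale.Agent.P204
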