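import Vale.Agent.P204.At3

/-!
P204 Tr1: the current seen in one chart.
Plan: the map `y ↦ (τ i j y.1, fderiv (τ i j) y.1 y.2)` is continuous on `O i j ×ˢ univ`, hence
`AEMeasurable` for the restriction to the closed set `fst ⁻¹' ov i j 1 3`
(`ContinuousOn.aemeasurable`). `integral_finset_sum_measure`, `integral_map`, `ae_map_iff`,
`dτ_bounds`, `lin_compat`, `τ_self`, `fderiv_τ_self`, `ext_ne_zero`, `ext_self`. For `exists_loc` multiply `J j` and
`g j` by a cut-off equal to one on `closedBall 0 (7/2)` (`exists_cutoff`, `Supp.smul_on`), take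
`c = min`, `C = max` (monotonicity of `Herm` in the constants).
-/

namespace Vale.Agent.P204

open scoped ContDiff Topology
open Metric MeasureTheory Set Filter

noncomputable section

namespace Atlas

variable {𝒜 : Atlas}

theorem meas_Tr1 (i j : Fin 𝒜.n) : MeasurableSet (Prod.fst ⁻¹' 𝒜.ov i j 1 3 : Set (E × E)) :=
  measurable_fst (ov_compact i j (by norm_num) (by norm_num)).measurableSet

theorem aem_Tr1 (μ : Measure (E × E)) (i j : Fin 𝒜.n) :
    AEMeasurable (fun y : E × E => (𝒜.τ i j y.1, fderiv ℝ (𝒜.τ i j) y.1 y.2))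
      (μ.restrict (Prod.fst ⁻¹' 𝒜.ov i j 1 3)) := by
  refine ContinuousOn.aemeasurable (fun y hy => ContinuousAt.continuousWithinAt ?_) (meas_Tr1 i j)
  exact ((τ_contDiffAt i j hy.2.1).continuousAt.comp continuousAt_fst).prodMk
    (((dτ_At3 i j hy.2.1).continuousAt.comp continuousAt_fst).clm_apply continuousAt_snd)

instance PM.tr_fin (T : 𝒜.PM) (j : Fin 𝒜.n) : IsFiniteMeasure (T.tr j) := by
  unfold PM.tr
  infer_instance

theorem PM.mass_nonneg (T : 𝒜.PM) : 0 ≤ T.mass :=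
  Finset.sum_nonneg fun _ _ => measureReal_nonneg

theorem PM.tr_mass (T : 𝒜.PM) (j : Fin 𝒜.n) : (T.tr j).real univ ≤ T.mass := by
  rw [measureReal_def, PM.tr, Measure.finsetSum_apply,
    ENNReal.toReal_sum fun i _ => measure_ne_top _ _]
  refine Finset.sum_le_sum fun i _ => ENNReal.toReal_mono (measure_ne_top _ _) ?_
  rw [Measure.map_apply_of_aemeasurable (aem_Tr1 _ i j) MeasurableSet.univ, preimage_univ,
    Measure.restrict_apply_univ]
  exact measure_mono (subset_univ _)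

theorem PM.tr_supp : ∃ c > 0, ∃ C ≥ 1, c ≤ 1 ∧ ∀ (T : 𝒜.PM) j,
    ∀ᵐ y ∂(T.tr j), y.1 ∈ closedBall (0 : E) 3 ∧ c ≤ ‖y.2‖ ∧ ‖y.2‖ ≤ C := by
  obtain ⟨L, hL, H⟩ := dτ_bounds (𝒜 := 𝒜) (r := 1) (r' := 3) (by norm_num) (by norm_num)
  have h0 : 0 < L := by linarith
  refine ⟨1 / L, by positivity, L, hL, (div_le_one h0).2 hL, fun T j => ?_⟩
  have hm : MeasurableSet {y : E × E | y.1 ∈ closedBall (0 : E) 3 ∧ 1 / L ≤ ‖y.2‖ ∧ ‖y.2‖ ≤ L} :=
    (measurable_fst measurableSet_closedBall).inter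
      ((measurableSet_le measurable_const measurable_snd.norm).inter
        (measurableSet_le measurable_snd.norm measurable_const))
  rw [PM.tr, ae_finsetSum_measure_iff]
  intro i _
  rw [ae_map_iff (aem_Tr1 _ i j) hm]
  filter_upwards [ae_restrict_mem (meas_Tr1 i j), ae_restrict_of_ae (T.supp i)] with y h1 h2
  obtain ⟨a1, a2, -⟩ := H i j y.1 h1
  refine ⟨h1.2.2, ?_, ?_⟩
  · rw [div_le_iff₀' h0, ← h2.2]
    exact a1 y.2
  · refine (ContinuousLinearMap.le_opNorm _ _).trans ?_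
    rw [h2.2, mul_one]
    exact a2

theorem PM.integral_tr (T : 𝒜.PM) (j : Fin 𝒜.n) {h : E × E → ℝ} (hh : Integrable h (T.tr j)) :
    (∀ i, IntegrableOn (fun y : E × E => h (𝒜.τ i j y.1, fderiv ℝ (𝒜.τ i j) y.1 y.2))
      (Prod.fst ⁻¹' 𝒜.ov i j 1 3) (T.m i)) ∧
    ∫ y, h y ∂(T.tr j) = ∑ i, ∫ y in Prod.fst ⁻¹' 𝒜.ov i j 1 3,
      h (𝒜.τ i j y.1, fderiv ℝ (𝒜.τ i j) y.1 y.2) ∂(T.m i) := by
  have h1 := integrable_finsetSum_measure.1 hh
  refine ⟨fun i => (integrable_map_measure (h1 i (Finset.mem_univ i)).aestronglyMeasurable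
    (aem_Tr1 _ i j)).1 (h1 i (Finset.mem_univ i)), ?_⟩
  rw [PM.tr, integral_finsetSum_measure h1]
  exact Finset.sum_congr rfl fun i hi =>
    integral_map (aem_Tr1 _ i j) (h1 i hi).aestronglyMeasurable

theorem PM.lin_int_tr (T : 𝒜.PM) (β : 𝒜.Form) (j : Fin 𝒜.n) : Integrable (lin β j) (T.tr j) := by
  obtain ⟨c, -, C, -, -, H⟩ := PM.tr_supp (𝒜 := 𝒜)
  have hK : IsCompact (closedBall (0 : E) 3 ×ˢ closedBall (0 : E) C) :=
    (isCompact_closedBall _ _).prod (isCompact_closedBall _ _)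
  have h1 : IntegrableOn (lin β j) (closedBall (0 : E) 3 ×ˢ closedBall (0 : E) C) (T.tr j) :=
    ContinuousOn.integrableOn_compact hK ((lin_contOn β j).mono
      (prod_mono (cb_sub (by norm_num)) (subset_univ _)))
  have h2 : (T.tr j).restrict (closedBall (0 : E) 3 ×ˢ closedBall (0 : E) C) = T.tr j := by
    apply Measure.restrict_eq_self_of_ae_mem
    filter_upwards [H T j] with y hy
    exact ⟨hy.1, mem_closedBall_zero_iff.2 hy.2.2⟩
  rwa [IntegrableOn, h2] at h1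

theorem PM.cur_local (T : 𝒜.PM) (j : Fin 𝒜.n) (β : 𝒜.Form)
    (h : ∀ i, ∀ p ∈ closedBall (0 : E) 1, β.1 i p ≠ 0 →
      p ∈ 𝒜.O i j ∧ 𝒜.τ i j p ∈ closedBall (0 : E) 3) :
    T.cur β = ∫ y, lin β j y ∂(T.tr j) := by
  rw [(T.integral_tr j (T.lin_int_tr β j)).2, PM.cur_apply]
  refine Finset.sum_congr rfl fun i _ => ?_
  rw [setIntegral_congr_fun (meas_Tr1 i j) (g := lin β i) fun y hy => lin_compat β i j hy.2.1]
  refine (setIntegral_eq_integral_of_ae_compl_eq_zero ?_).symm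
  filter_upwards [T.supp i] with y hy hn
  have h1 : β.1 i y.1 = 0 := by
    by_contra h2
    exact hn ⟨hy.1, h i y.1 hy.1 h2⟩
  simp only [lin, h1, zero_apply]

theorem PM.cur_ext (T : 𝒜.PM) (j : Fin 𝒜.n) {s : E → Bil} (hs : IsLoc 3 s) :
    T.cur (𝒜.ext j s) = ∫ y, s y.1 y.2 (𝒜.J j y.1 y.2) ∂(T.tr j) := by
  rw [T.cur_local j _ fun i p _ hp => by
    obtain ⟨h1, h2⟩ := ext_ne_zero j i (by norm_num) hs hp
    exact ⟨h1, not_not.1 fun h3 => h2 (hs.1.2 _ h3)⟩]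
  simp only [lin, ext_self j (by norm_num) hs]

theorem PM.m_le_tr (T : 𝒜.PM) (j : Fin 𝒜.n) : T.m j ≤ T.tr j := by
  have h4 : closedBall (0 : E) 1 ⊆ ball 0 4 := cb_sub (by norm_num)
  have h1 : (T.m j).restrict (Prod.fst ⁻¹' 𝒜.ov j j 1 3) = T.m j := by
    apply Measure.restrict_eq_self_of_ae_mem
    filter_upwards [T.supp j] with y hy
    refine ⟨hy.1, by rw [𝒜.O_self]; exact h4 hy.1, ?_⟩
    rw [𝒜.τ_self j _ (h4 hy.1)]
    exact closedBall_subset_closedBall (by norm_num) hy.1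
  have h2 : Measure.map (fun y : E × E => (𝒜.τ j j y.1, fderiv ℝ (𝒜.τ j j) y.1 y.2))
      ((T.m j).restrict (Prod.fst ⁻¹' 𝒜.ov j j 1 3)) = T.m j := by
    rw [h1, Measure.map_congr (g := id), Measure.map_id]
    filter_upwards [T.supp j] with y hy
    rw [𝒜.τ_self j _ (h4 hy.1), fderiv_τ_self j (h4 hy.1)]
    rfl
  intro s
  rw [PM.tr, Measure.finsetSum_apply]
  refine le_trans ?_ (Finset.single_le_sum (fun _ _ => zero_le) (Finset.mem_univ j))
  rw [h2]

theorem PM.cur_ge_local (T : 𝒜.PM) (j : Fin 𝒜.n) (γ : 𝒜.Form) {N : ℝ} (hN : 0 ≤ N)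
    (h : ∀ i, ∀ᵐ y ∂(T.m i), -N ≤ lin γ i y) :
    ∫ y in Prod.fst ⁻¹' closedBall (0 : E) 2, lin γ j y ∂(T.tr j) - N * T.mass ≤ T.cur γ := by
  have hA : MeasurableSet (Prod.fst ⁻¹' closedBall (0 : E) 2 : Set (E × E)) :=
    measurable_fst measurableSet_closedBall
  obtain ⟨i1, e1⟩ := T.integral_tr j ((T.lin_int_tr γ j).indicator hA)
  rw [← integral_indicator hA, e1, PM.cur_apply, PM.mass, Finset.mul_sum,
    ← Finset.sum_sub_distrib]
  refine Finset.sum_le_sum fun i _ => ?_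
  have e2 : ∫ y, (lin γ i y + N) ∂(T.m i) = ∫ y, lin γ i y ∂(T.m i) + N * (T.m i).real univ := by
    rw [integral_add (lin_int T γ i) (integrable_const N), integral_const, smul_eq_mul, mul_comm]
  rw [sub_le_iff_le_add, ← e2, ← integral_indicator (meas_Tr1 i j)]
  refine integral_mono_ae ((integrable_indicator_iff (meas_Tr1 i j)).2 (i1 i))
    ((lin_int T γ i).add (integrable_const N)) ?_
  filter_upwards [h i] with y hy
  refine indicator_apply_le' (fun h1 => indicator_apply_le' (fun _ => ?_) fun _ => ?_) fun _ => ?_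
  · rw [lin_compat γ i j h1.2.1]
    linarith
  · linarith
  · linarith

theorem PM.exists_loc (T : 𝒜.PM) (j : Fin 𝒜.n) : ∃ D : Loc, D.μ = T.tr j ∧
    ∀ p ∈ closedBall (0 : E) (7 / 2), D.J p = 𝒜.J j p ∧ D.g p = 𝒜.g j p := by
  obtain ⟨c, hc, C, -, -, H⟩ := PM.tr_supp (𝒜 := 𝒜)
  obtain ⟨c', C', -, H'⟩ := herm (𝒜 := 𝒜) (r := 3) (by norm_num)
  obtain ⟨χ, h1, -, -, h2⟩ := exists_cutoff (r := 7 / 2) (r' := 15 / 4) (by norm_num) (by norm_num)
  have h4 : closedBall (0 : E) (15 / 4) ⊆ ball 0 4 := cb_sub (by norm_num)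
  refine ⟨⟨fun p => χ p • 𝒜.J j p, fun p => χ p • 𝒜.g j p, T.tr j, min c c', max C C',
    (h1.smul_on isOpen_ball (𝒜.J_smooth j) h4).1, (h1.smul_on isOpen_ball (g_smooth j) h4).1,
    fun p hp => ?_, inferInstance, ?_⟩, rfl, fun p hp => ?_⟩
  · have h3 := H' j p hp
    rw [h2 p (closedBall_subset_closedBall (by norm_num) hp), one_smul, one_smul]
    exact ⟨h3.sq, h3.symm, h3.inv, fun v => (mul_le_mul_of_nonneg_right (min_le_right _ _)
      (sq_nonneg _)).trans (h3.pos v), lt_min hc h3.cpos, h3.gle.trans (le_max_right _ _),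
      h3.Jle.trans (le_max_right _ _)⟩
  · filter_upwards [H T j] with y hy
    exact ⟨hy.1, (min_le_left _ _).trans hy.2.1, hy.2.2.trans (le_max_left _ _)⟩
  · simp only [h2 p hp, one_smul, and_self]

theorem PM.cur_Ω_pos (T : 𝒜.PM) (hT : T.mass = 1) : 0 < T.cur 𝒜.ΩF := by
  obtain ⟨c, C, -, H⟩ := herm (𝒜 := 𝒜) (r := 1) (by norm_num)
  have hc := (H ⟨0, 𝒜.npos⟩ 0 (mem_closedBall_self zero_le_one)).cpos
  refine hc.trans_le ?_
  rw [← mul_one c, ← hT, PM.mass, Finset.mul_sum, PM.cur_apply]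
  refine Finset.sum_le_sum fun i _ => ?_
  rw [mul_comm, ← smul_eq_mul, ← integral_const]
  refine integral_mono_ae (integrable_const c) (lin_int T _ i) ?_
  filter_upwards [T.supp i] with y hy
  have h1 := (H i y.1 hy.1).pos y.2
  rw [hy.2, g, gOf_apply] at h1
  change c ≤ 𝒜.Ω i y.1 y.2 (𝒜.J i y.1 y.2)
  linarith

end Atlas

end

end Vale.Agent.P204
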