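import Vale.Agent.P204.Ru2
import Vale.Agent.P204.Tr1

/-!
P204 Te1: `L²` bounds for the regularised positive current.
Plan: `fubini_ball`: Fubini (`integral_integral_swap` for `f q * indicator {dist y.1 q ≤ s}` on
`μ × volume.restrict (closedBall 0 (1+s))`), Cauchy-Schwarz, `bm μ q s ≤ 4 Θ s²` (if the ball
meets the unit ball), `∫ bm μ q s dq ≤ vol s⁴ mass`. `rep_T`: `|lin γ j y| ≤ C ‖γ j y.1‖`, fields
`smooth 0`, `comm 0`, `m_le_tr`, `L2_ge`, `dual2`; for anti `β`: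
`T (R β) = - T (Am (R β) - R (Am β))` by `lin_Am`. `cross_smooth`: `dualInf` with
`abs_pair_le_L1`, `L2_R`, `L2_Am_le`; `pair ηT ηα = T (R (Ap ηα)) + T (R (Am ηα))`, `cn_R`,
`cur_ord`, field `comm 0`, `Cn_jb`, `Cn_Am`, `vol_closedBall`.
-/

namespace Vale.Agent.P204

open scoped ContDiff Topology
open Metric MeasureTheory Set Filter

noncomputable section

namespace Atlas

variable {𝒜 : Atlas}

theorem te1_fub (μ : Measure (E × E)) [IsFiniteMeasure μ] (ν : Measure E) [IsFiniteMeasure ν]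
    {g : E → ℝ} (hg : Integrable g ν) (s : ℝ) :
    Integrable (fun y : E × E => ∫ q in closedBall y.1 s, g q ∂ν) μ ∧
      Integrable (fun q => g q * bm μ q s) ν ∧
      ∫ y, (∫ q in closedBall y.1 s, g q ∂ν) ∂μ = ∫ q, g q * bm μ q s ∂ν := by
  have hS : MeasurableSet {z : (E × E) × E | dist z.2 z.1.1 ≤ s} :=
    (isClosed_le (by fun_prop) continuous_const).measurableSet
  have h1 : Integrable ({z : (E × E) × E | dist z.2 z.1.1 ≤ s}.indicator fun z => g z.2)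
      (μ.prod ν) := (hg.comp_snd μ).indicator hS
  have e1 : ∀ y : E × E, ∫ q, {z : (E × E) × E | dist z.2 z.1.1 ≤ s}.indicator
      (fun z => g z.2) (y, q) ∂ν = ∫ q in closedBall y.1 s, g q ∂ν := fun y => by
    rw [← integral_indicator measurableSet_closedBall]
    rfl
  have e2 : ∀ q : E, ∫ y, {z : (E × E) × E | dist z.2 z.1.1 ≤ s}.indicator
      (fun z => g z.2) (y, q) ∂μ = g q * bm μ q s := fun q => by
    have e3 : (fun y : E × E => {z : (E × E) × E | dist z.2 z.1.1 ≤ s}.indicator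
        (fun z => g z.2) (y, q)) = (Prod.fst ⁻¹' closedBall q s).indicator fun _ => g q := by
      funext y
      simp only [indicator, mem_ofPred_eq, mem_preimage, mem_closedBall, dist_comm q y.1]
    rw [e3, integral_indicator_const _ (measurable_fst measurableSet_closedBall), smul_eq_mul,
      mul_comm]
    rfl
  refine ⟨?_, ?_, ?_⟩
  · simpa only [e1] using h1.integral_prod_left
  · simpa only [e2] using h1.integral_prod_right
  · have h2 := integral_integral_swap (f := fun y q =>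
      {z : (E × E) × E | dist z.2 z.1.1 ≤ s}.indicator (fun z => g z.2) (y, q)) h1
    simpa only [e1, e2] using h2

theorem te1_bm {μ : Measure (E × E)} [IsFiniteMeasure μ] {s Θ : ℝ} (hΘ : 0 ≤ Θ)
    (h1 : ∀ᵐ y ∂μ, y.1 ∈ closedBall (0 : E) 1)
    (h2 : ∀ x ∈ closedBall (0 : E) 1, bm μ x (2 * s) ≤ Θ * (2 * s) ^ 2) (q : E) :
    bm μ q s ≤ Θ * (2 * s) ^ 2 := by
  by_cases h : ∃ x ∈ closedBall (0 : E) 1, x ∈ closedBall q s
  · obtain ⟨x, hx, hq⟩ := h
    refine le_trans (measureReal_mono (preimage_mono (closedBall_subset_closedBall' ?_))) (h2 x hx)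
    rw [mem_closedBall, dist_comm] at hq
    linarith
  · have h3 : μ (Prod.fst ⁻¹' closedBall q s) = 0 :=
      measure_mono_null (fun y hy hy' => h ⟨y.1, hy', hy⟩) (ae_iff.1 h1)
    rw [bm, measureReal_def, h3, ENNReal.toReal_zero]
    positivity

theorem fubini_ball : ∃ C > 0, ∀ (μ : Measure (E × E)) [IsFiniteMeasure μ] (f : E → ℝ) (s Θ : ℝ),
    0 < s → 0 ≤ Θ → μ.real univ ≤ 1 → (∀ᵐ y ∂μ, y.1 ∈ closedBall (0 : E) 1) →
    (∀ x ∈ closedBall (0 : E) 1, bm μ x (2 * s) ≤ Θ * (2 * s) ^ 2) →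
    ContinuousOn f (closedBall 0 (1 + s)) → (∀ q, 0 ≤ f q) →
    Integrable (fun y : E × E => ∫ q in closedBall y.1 s, f q) μ ∧
    ∫ y, (∫ q in closedBall y.1 s, f q) ∂μ ≤
      C * √Θ * s ^ 3 * √(∫ q in closedBall (0 : E) (1 + s), f q ^ 2) := by
  set V := (volume : Measure E).real (closedBall 0 1) with hV
  have hV0 : 0 < V := vol_closedBall_pos
  refine ⟨2 * √V, by positivity, fun μ _ f s Θ hs hΘ hm h1 h2 hf f0 => ?_⟩
  have hK : IsCompact (closedBall (0 : E) (1 + s)) := isCompact_closedBall _ _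
  have : IsFiniteMeasure ((volume : Measure E).restrict (closedBall (0 : E) (1 + s))) :=
    isFiniteMeasure_restrict.2 hK.measure_ne_top
  have e : ∀ g : E → ℝ, ∀ᵐ y ∂μ, ∫ q in closedBall y.1 s, g q
      ∂(volume.restrict (closedBall (0 : E) (1 + s))) = ∫ q in closedBall y.1 s, g q := fun g => by
    filter_upwards [h1] with y hy
    rw [Measure.restrict_restrict_of_subset (closedBall_subset_closedBall' ?_)]
    rw [mem_closedBall] at hy
    linarith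
  have hf2 : IntegrableOn (fun q => f q ^ 2) (closedBall (0 : E) (1 + s)) :=
    (hf.pow 2).integrableOn_compact hK
  have hf1 : IntegrableOn f (closedBall (0 : E) (1 + s)) := hf.integrableOn_compact hK
  obtain ⟨a1, a2, a3⟩ := te1_fub μ _ hf1 s
  obtain ⟨-, b2, b3⟩ := te1_fub μ _ (integrable_const (μ :=
    (volume : Measure E).restrict (closedBall (0 : E) (1 + s))) (1 : ℝ)) s
  rw [integral_congr_ae (e f)] at a3
  rw [integral_congr_ae (e fun _ => 1)] at b3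
  simp only [integral_const, MeasurableSet.univ, measureReal_restrict_apply, univ_inter,
    smul_eq_mul, mul_one, one_mul, vol_closedBall _ hs.le, ← hV] at b2 b3
  refine ⟨a1.congr (e f), ?_⟩
  rw [a3]
  set I := ∫ q in closedBall (0 : E) (1 + s), f q * bm μ q s with hI
  set A := ∫ q in closedBall (0 : E) (1 + s), f q ^ 2 with hA
  have hA0 : 0 ≤ A := integral_nonneg fun q => sq_nonneg _
  have h3 : ∀ x : ℝ, 0 ≤ A * (x * x) + 2 * I * x + Θ * (2 * s) ^ 2 * (V * s ^ 4) := fun x => by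
    have h4 : 0 ≤ ∫ q in closedBall (0 : E) (1 + s),
        (x * x * f q ^ 2 + 2 * x * (f q * bm μ q s) + Θ * (2 * s) ^ 2 * bm μ q s) :=
      integral_nonneg fun q => by
        have h5 : bm μ q s * bm μ q s ≤ Θ * (2 * s) ^ 2 * bm μ q s :=
          mul_le_mul_of_nonneg_right (te1_bm hΘ h1 h2 q) measureReal_nonneg
        have h6 := sq_nonneg (x * f q + bm μ q s)
        simp only [Pi.zero_apply]
        nlinarith
    have h9 : Integrable (fun q => x * x * f q ^ 2 + 2 * x * (f q * bm μ q s))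
        (volume.restrict (closedBall (0 : E) (1 + s))) := (hf2.const_mul _).add (a2.const_mul _)
    rw [integral_add h9 (b2.const_mul _),
      integral_add (hf2.const_mul _) (a2.const_mul _), integral_const_mul, integral_const_mul,
      integral_const_mul, ← b3] at h4
    have h7 : Θ * (2 * s) ^ 2 * (μ.real univ * (V * s ^ 4)) ≤ Θ * (2 * s) ^ 2 * (V * s ^ 4) :=
      mul_le_mul_of_nonneg_left (mul_le_of_le_one_left (by positivity) hm) (by positivity)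
    linarith
  have h8 := discrim_le_zero h3
  rw [discrim] at h8
  refine le_of_sq5 (by positivity) ?_
  simp only [mul_pow, Real.sq_sqrt hV0.le, Real.sq_sqrt hΘ, Real.sq_sqrt hA0]
  linarith

theorem te1_mass (T : 𝒜.PM) (j : Fin 𝒜.n) : (T.m j).real univ ≤ T.mass :=
  Finset.single_le_sum (f := fun j => (T.m j).real univ) (fun _ _ => measureReal_nonneg)
    (Finset.mem_univ j)

theorem te1_cur : ∃ C ≥ 1, ∀ (T : 𝒜.PM) (γ β : 𝒜.Form) (Θ a s t : ℝ), 0 ≤ Θ → 0 ≤ a → 0 < s →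
    s ≤ 1 → t ≤ 2 * s → T.mass ≤ 1 → T.Growth t Θ →
    (∀ j, ∀ p ∈ closedBall (0 : E) 1, ‖γ.1 j p‖ ≤ a * ∫ q in closedBall p s, ‖β.1 j q‖) →
    |T.cur γ| ≤ C * a * √Θ * s ^ 3 * L2 β := by
  obtain ⟨c, CJ, hJ1, hJ⟩ := herm (𝒜 := 𝒜) (r := 1) (by norm_num)
  obtain ⟨Cf, hf0, hf⟩ := fubini_ball
  obtain ⟨C2, h21, h2⟩ := L2_ge (𝒜 := 𝒜) (r := 2) (by norm_num)
  refine ⟨max 1 (𝒜.n * (CJ * Cf * √C2)), le_max_left _ _,
    fun T γ β Θ a s t hΘ ha hs hs1 ht hm hG h => ?_⟩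
  have hL := L2_nonneg β
  have key : ∀ j, |∫ y, lin γ j y ∂(T.m j)| ≤ CJ * Cf * √C2 * a * √Θ * s ^ 3 * L2 β := by
    intro j
    have hc : ContinuousOn (fun q => ‖β.1 j q‖) (closedBall 0 2) :=
      ((Form.smooth β j).continuousOn.mono (cb_sub (by norm_num))).norm
    have hsub : closedBall (0 : E) (1 + s) ⊆ closedBall 0 2 :=
      closedBall_subset_closedBall (by linarith)
    obtain ⟨k1, k2⟩ := hf (T.m j) (fun q => ‖β.1 j q‖) s Θ hs hΘ ((te1_mass T j).trans hm)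
      ((T.supp j).mono fun y hy => hy.1) (fun x hx => le_trans
        (ENNReal.toReal_mono (measure_ne_top _ _) (T.m_le_tr j _))
        (hG j x (closedBall_subset_closedBall (by norm_num) hx) _ ht (by linarith)))
      (hc.mono hsub) fun q => norm_nonneg _
    have k3 : ∫ q in closedBall (0 : E) (1 + s), ‖β.1 j q‖ ^ 2 ≤ C2 * L2 β ^ 2 :=
      le_trans (setIntegral_mono_set ((hc.pow 2).integrableOn_compact (isCompact_closedBall _ _))
        (Eventually.of_forall fun q => sq_nonneg _) hsub.eventuallyLE) (h2 β j)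
    have k4 : √(∫ q in closedBall (0 : E) (1 + s), ‖β.1 j q‖ ^ 2) ≤ √C2 * L2 β := by
      refine (Real.sqrt_le_sqrt k3).trans_eq ?_
      rw [Real.sqrt_mul (by linarith), Real.sqrt_sq hL]
    have k5 : |∫ y, lin γ j y ∂(T.m j)| ≤
        ∫ y, CJ * a * (∫ q in closedBall y.1 s, ‖β.1 j q‖) ∂(T.m j) := by
      rw [← Real.norm_eq_abs]
      refine norm_integral_le_of_norm_le (k1.const_mul _) ?_
      filter_upwards [T.supp j] with y hy
      have k6 : ‖𝒜.J j y.1 y.2‖ ≤ CJ := by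
        refine ((𝒜.J j y.1).le_opNorm _).trans ?_
        rw [hy.2, mul_one]
        exact (hJ j y.1 hy.1).Jle
      calc ‖lin γ j y‖ ≤ ‖γ.1 j y.1‖ * ‖y.2‖ * ‖𝒜.J j y.1 y.2‖ := (γ.1 j y.1).le_opNorm₂ _ _
        _ ≤ (a * ∫ q in closedBall y.1 s, ‖β.1 j q‖) * 1 * CJ := by
          rw [hy.2]
          exact mul_le_mul (mul_le_mul_of_nonneg_right (h j y.1 hy.1) zero_le_one) k6
            (norm_nonneg _) (mul_nonneg ((norm_nonneg _).trans (h j y.1 hy.1)) zero_le_one)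
        _ = _ := by ring
    rw [integral_const_mul] at k5
    calc _ ≤ _ := k5
      _ ≤ CJ * a * (Cf * √Θ * s ^ 3 * (√C2 * L2 β)) := by
        refine mul_le_mul_of_nonneg_left (k2.trans ?_) (by positivity)
        gcongr
      _ = _ := by ring
  rw [PM.cur_apply]
  calc _ ≤ ∑ j, |∫ y, lin γ j y ∂(T.m j)| := Finset.abs_sum_le_sum_abs _ _
    _ ≤ ∑ _j : Fin 𝒜.n, CJ * Cf * √C2 * a * √Θ * s ^ 3 * L2 β := Finset.sum_le_sum fun j _ => key j
    _ = 𝒜.n * (CJ * Cf * √C2) * a * √Θ * s ^ 3 * L2 β := by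
      rw [Finset.sum_const, Finset.card_univ, Fintype.card_fin, nsmul_eq_mul]
      ring
    _ ≤ _ := by
      gcongr
      exact le_max_right _ _

theorem te1_anti (T : 𝒜.PM) (R : 𝒜.Form →ₗ[ℝ] 𝒜.Form) {β : 𝒜.Form} (hβ : Anti β) :
    |T.cur (R β)| = |T.cur (𝒜.Am (R β) - R (𝒜.Am β))| := by
  have h : T.cur (𝒜.Am (R β)) = 0 := by
    simp only [PM.cur_apply, lin_Am, integral_zero, Finset.sum_const_zero]
  rw [map_sub, h, zero_sub, abs_neg, hβ]

theorem Reg.rep_T (ℛ : 𝒜.Reg) : ∃ C ≥ 1, ∃ t₀ > 0, ∀ t ∈ Ioc (0 : ℝ) t₀, ∀ (T : 𝒜.PM)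
    (η : 𝒜.Form) (Θ : ℝ), 0 ≤ Θ → T.mass ≤ 1 → T.Growth t Θ → Rep η (T.cur ∘ₗ ℛ.R t) →
      L2 η ≤ C * √Θ / t ∧ L2 (𝒜.Am η) ≤ C * √Θ := by
  obtain ⟨C, hC1, hC⟩ := te1_cur (𝒜 := 𝒜)
  obtain ⟨Cd, hd1, hd⟩ := dual2 (𝒜 := 𝒜)
  obtain ⟨C1, h11, t1, ht1, h12, h1⟩ := ℛ.smooth 0
  obtain ⟨C2, h21, t2, ht2, h22, h2⟩ := ℛ.comm 0
  have hb : closedBall (0 : E) 1 ⊆ closedBall 0 (5 / 2) := closedBall_subset_closedBall (by norm_num)
  have p1 : 1 ≤ C1 ^ 4 := one_le_pow₀ h11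
  have p2 : 1 ≤ C2 ^ 4 := one_le_pow₀ h21
  refine ⟨Cd * C * C1 ^ 4 * C2 ^ 4, one_le_mul_of_one_le_of_one_le (one_le_mul_of_one_le_of_one_le
    (one_le_mul_of_one_le_of_one_le hd1 hC1) p1) p2, min t1 t2, lt_min ht1 ht2,
    fun t ht T η Θ hΘ hm hG hη => ?_⟩
  have ht0 := ht.1
  have k1 : t ≤ t1 := ht.2.trans (min_le_left _ _)
  have k2 : t ≤ t2 := ht.2.trans (min_le_right _ _)
  constructor
  · have h3 := (hd η (C * C1 ^ 4 * √Θ / t) (by positivity)).1 fun β => by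
      rw [hη β, LinearMap.comp_apply]
      refine (hC T _ β Θ (C1 / t ^ 4) (C1 * t) t hΘ (by positivity) (by positivity)
        (by nlinarith) (by nlinarith) hm hG
        fun j p hp => (h1 t ⟨ht0, k1⟩ β j p (hb hp)).norm_le).trans_eq ?_
      field_simp
    calc L2 η ≤ _ := h3
      _ = Cd * C * C1 ^ 4 * 1 * √Θ / t := by ring
      _ ≤ _ := by gcongr
  · have h3 := (hd η (C * C2 ^ 4 * √Θ) (by positivity)).2.2 fun β hβ => by
      rw [hη β, LinearMap.comp_apply, te1_anti T _ hβ]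
      refine (hC T _ β Θ (C2 / t ^ 3) (C2 * t) t hΘ (by positivity) (by positivity)
        (by nlinarith) (by nlinarith) hm hG
        fun j p hp => (h2 t ⟨ht0, k2⟩ β j p (hb hp)).norm_le).trans_eq ?_
      field_simp
    calc L2 (𝒜.Am η) ≤ _ := h3
      _ = Cd * C * 1 * C2 ^ 4 * √Θ := by ring
      _ ≤ _ := by gcongr

theorem te1_comm (ℛ : 𝒜.Reg) : ∃ C ≥ 0, ∃ t₀ > 0, ∀ t ∈ Ioc (0 : ℝ) t₀, ∀ (β : 𝒜.Form) M,
    Cn 0 β M → Cn 0 (𝒜.Am (ℛ.R t β) - ℛ.R t (𝒜.Am β)) (C * t * M) := by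
  obtain ⟨C2, h21, t2, ht2, h22, h2⟩ := ℛ.comm 0
  obtain ⟨Cj, hj1, hj⟩ := Cn_jb (𝒜 := 𝒜) 0 (r := 2) (by norm_num)
  have hV0 := vol_closedBall_pos
  refine ⟨C2 ^ 5 * Cj * (volume : Measure E).real (closedBall 0 1), by positivity, t2, ht2,
    fun t ht β M hβ j p hp => ?_⟩
  have ht0 := ht.1
  have hM := hβ.nonneg
  rw [JB_iff_SJB, SJB_zero_iff]
  refine (h2 t ht β j p (closedBall_subset_closedBall (by norm_num) hp)).norm_le.trans ?_
  have hsub : closedBall p (C2 * t) ⊆ closedBall 0 2 := by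
    apply closedBall_subset_closedBall'
    rw [mem_closedBall] at hp
    nlinarith [ht.2]
  have h3 : ‖∫ q in closedBall p (C2 * t), ‖β.1 j q‖‖ ≤
      Cj * M * (volume : Measure E).real (closedBall p (C2 * t)) :=
    norm_setIntegral_le_of_norm_le_const (isCompact_closedBall _ _).measure_lt_top fun q hq => by
      rw [norm_norm]
      exact ((JB_iff_SJB _ _ _ _).1 (hj β M hβ j q (hsub hq))).norm_le
  rw [vol_closedBall _ (by positivity)] at h3
  refine (mul_le_mul_of_nonneg_left ((le_abs_self _).trans h3) (by positivity)).trans_eq ?_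
  field_simp

theorem Reg.cross_smooth (ℛ : 𝒜.Reg) (α : 𝒜.Form) : ∃ C ≥ 1, ∃ t₀ > 0, ∀ t ∈ Ioc (0 : ℝ) t₀,
    ∀ (T : 𝒜.PM) (ηT ηα : 𝒜.Form), T.mass ≤ 1 → Rep ηT (T.cur ∘ₗ ℛ.R t) →
      Rep ηα (𝒜.pair α ∘ₗ 𝒜.Am ∘ₗ ℛ.R t) → |𝒜.pair ηT ηα| ≤ C * t := by
  obtain ⟨M0, hM0⟩ := exists_Cn 0 α
  have hM := hM0.nonneg
  obtain ⟨Cd, hd1, hd⟩ := dualInf (𝒜 := 𝒜)
  obtain ⟨CR, hR1, t1, ht1, hR⟩ := ℛ.L2_R
  obtain ⟨CA, hA1, hA⟩ := L2_Am_le (𝒜 := 𝒜)
  obtain ⟨Cm, hm1, hm⟩ := Cn_Am (𝒜 := 𝒜) 0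
  obtain ⟨Cc, hc1, t2, ht2, hc⟩ := ℛ.cn_R 0
  obtain ⟨Ck, hk0, t3, ht3, hk⟩ := te1_comm ℛ
  obtain ⟨Co, ho0, ho⟩ := PM.cur_ord (𝒜 := 𝒜)
  refine ⟨max 1 (Co * (Cc * (Cd * (6 * M0 * CR))) + Co * (Ck * (Cm * (Cd * (6 * M0 * (CA * CR)))))),
    le_max_left _ _, min t1 (min t2 t3), lt_min ht1 (lt_min ht2 ht3),
    fun t ht T ηT ηα hT h1 h2 => ?_⟩
  have ht0 := ht.1
  have k1 : t ∈ Ioc 0 t1 := ⟨ht0, ht.2.trans (min_le_left _ _)⟩
  have k2 : t ∈ Ioc 0 t2 := ⟨ht0, ht.2.trans ((min_le_right _ _).trans (min_le_left _ _))⟩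
  have k3 : t ∈ Ioc 0 t3 := ⟨ht0, ht.2.trans ((min_le_right _ _).trans (min_le_right _ _))⟩
  have a1 := (hd ηα (6 * M0 * (CA * CR)) (by positivity)).1 fun β => by
    rw [h2 β, LinearMap.comp_apply, LinearMap.comp_apply]
    refine (abs_pair_le_L1 hM0 _).trans ?_
    rw [mul_assoc (6 * M0), mul_assoc CA]
    refine mul_le_mul_of_nonneg_left ((hA _).2.2.1.trans ?_) (by positivity)
    exact mul_le_mul_of_nonneg_left (hR t k1 β).2.1 (by positivity)
  have a2 := (hd ηα (6 * M0 * (CR * t)) (by positivity)).2 fun β hβ => by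
    rw [h2 β, LinearMap.comp_apply, LinearMap.comp_apply]
    refine (abs_pair_le_L1 hM0 _).trans ?_
    have a3 := (hR t k1 β).2.2.2
    rw [hβ, map_zero, sub_zero] at a3
    rw [mul_assoc (6 * M0)]
    exact mul_le_mul_of_nonneg_left a3 (by positivity)
  have hT0 := T.mass_nonneg
  have b1 := ho T _ _ ((hc t k2 _ _).1 a2)
  have b2 := ho T _ _ (hk t k3 _ _ (hm _ _ a1))
  rw [← te1_anti T _ (Am_Am ηα)] at b2
  rw [h1 ηα, LinearMap.comp_apply, ← Ap_add_Am ηα, map_add, map_add]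
  calc _ ≤ _ := abs_add_le _ _
    _ ≤ _ := add_le_add b1 b2
    _ ≤ Co * 1 * (Cc * (Cd * (6 * M0 * (CR * t)))) +
        Co * 1 * (Ck * t * (Cm * (Cd * (6 * M0 * (CA * CR))))) := by gcongr
    _ = (Co * (Cc * (Cd * (6 * M0 * CR))) + Co * (Ck * (Cm * (Cd * (6 * M0 * (CA * CR)))))) * t := by
      ring
    _ ≤ _ := by
      gcongr
      exact le_max_right _ _

end Atlas

end

end Vale.Agent.P204
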