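import Vale.Agent.P204.Ru2
import Vale.Agent.P204.Tr1
import Vale.Agent.P204.Alg3

/-!
P204 Te2: pointwise lower bound for the regularised positive current on almost complex lines.
Plan: `b = hs (bv u₁ u₂)`; `η j q u₁ u₂ = WL (η j q) b` (`WL_hs_bv`) is the limit (`loc_limit`,
`exists_moll`, `δ n = min (1/2, c t / 4) / (n+1)`) of `T.cur (R t β n)`, `β n = ext j (ρ n (· - q) • b)`.
`supp_R`: by the field `jet 0` with `M = 0` in every chart, `lip`, `ext_ne_zero`; so `cur_local`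
applies. For `y = (p', w')` in the support of `tr j`: if `dist p' q > C t + δ` the value is 0 (field
`jet 0`); otherwise use the field `pos1` at `p'` with vectors `w', J p' w'`, `l = κ Del (g p) (J p) w w'`,
`l' = K (C' t)²` (`det4_lower`, `hs_bv_apply`, `J_lip`, `herm`, `orient'`), and
`∫ ρ n (· - q) ≤ 1` on any ball, `= 1` on `closedBall p' (c₁ t)` if `dist p' q + δ ≤ c₁ t`. Integrate the
pointwise bound `indicator * c Del / t⁴ - indicator * C / t² ≤ lin (R β n) j y`.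
-/

namespace Vale.Agent.P204

open scoped ContDiff Topology
open Metric MeasureTheory Set Filter

noncomputable section

namespace Atlas

variable {𝒜 : Atlas}

theorem jb0_iff {f : E → Bil} {p : E} {M : ℝ} : JB f 0 p M ↔ ‖f p‖ ≤ M := by
  rw [JB_iff_SJB, SJB_zero_iff]

theorem Reg.supp_R (ℛ : 𝒜.Reg) : ∃ t₀ > 0, ∀ t ∈ Ioc (0 : ℝ) t₀, ∀ j (s : E → Bil),
    IsLoc (11 / 4) s → ∀ i, ∀ p ∈ closedBall (0 : E) 1, (ℛ.R t (𝒜.ext j s)).1 i p ≠ 0 →
      p ∈ 𝒜.O i j ∧ 𝒜.τ i j p ∈ closedBall (0 : E) 3 := by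
  obtain ⟨C, hC, t₀, ht₀, hCt, hj⟩ := ℛ.jet 0
  obtain ⟨δ, hδ, L, hL, hl⟩ := lip (𝒜 := 𝒜) (r := 2) (r' := 11 / 4) (by norm_num) (by norm_num)
  have hC0 : 0 < C := by linarith
  have hL0 : 0 < L := by linarith
  refine ⟨min t₀ (min (δ / C) (1 / (4 * L * C))), by positivity, fun t ht j s hs i p hp hne => ?_⟩
  have h1 : t ≤ t₀ := ht.2.trans (min_le_left _ _)
  have h2 : C * t ≤ δ := by
    have : t ≤ δ / C := ht.2.trans ((min_le_right _ _).trans (min_le_left _ _))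
    rwa [le_div_iff₀ hC0, mul_comm] at this
  have h3 : L * (C * t) ≤ 1 / 4 := by
    have : t ≤ 1 / (4 * L * C) := ht.2.trans ((min_le_right _ _).trans (min_le_right _ _))
    rw [le_div_iff₀ (by positivity)] at this
    nlinarith
  have h4 : C * t ≤ 1 / 4 := (mul_le_mul_of_nonneg_left h1 hC0.le).trans hCt
  have hex : ∃ q ∈ closedBall p (C * t), (𝒜.ext j s).1 i q ≠ 0 := by
    by_contra hcon
    push Not at hcon
    have := hj t ⟨ht.1, h1⟩ (𝒜.ext j s) i p (closedBall_subset_closedBall (by norm_num) hp) 0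
      fun q hq => jb0_iff.2 (by rw [hcon q hq, norm_zero])
    rw [jb0_iff, mul_zero] at this
    exact hne (norm_le_zero_iff.1 this)
  obtain ⟨q, hq, hq0⟩ := hex
  obtain ⟨hqO, hq1⟩ := ext_ne_zero j i (by norm_num) hs hq0
  have hq2 : 𝒜.τ i j q ∈ closedBall (0 : E) (11 / 4) := by
    by_contra h
    exact hq1 (hs.1.2 _ h)
  have hpq : dist p q ≤ C * t := by rw [dist_comm]; exact hq
  have hq3 : q ∈ closedBall (0 : E) 2 := by
    rw [mem_closedBall] at hp hq ⊢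
    linarith [dist_triangle q p 0]
  obtain ⟨h5, h6⟩ := hl i j q ⟨hq3, hqO, hq2⟩ p (hpq.trans h2)
  refine ⟨h5, ?_⟩
  rw [mem_closedBall] at hq2 ⊢
  have := mul_le_mul_of_nonneg_left hpq hL0.le
  linarith [dist_triangle (𝒜.τ i j p) (𝒜.τ i j q) 0]

theorem moll_int_le {ρ : E → ℝ} {δ : ℝ} (hρ : Supp δ ρ ∧ (∀ p, 0 ≤ ρ p) ∧ ∫ p, ρ p = 1) (q : E)
    (S : Set E) : ∫ x in S, ρ (x - q) ≤ 1 := by
  have hi : Integrable ρ := hρ.1.1.continuous.integrable_of_hasCompactSupport hρ.1.hasCompactSupport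
  have h1 : ∫ x, ρ (x - q) = 1 := by rw [integral_sub_right_eq_self, hρ.2.2]
  rw [← h1]
  exact setIntegral_le_integral (hi.comp_sub_right q) (Eventually.of_forall fun x => hρ.2.1 _)

theorem moll_int_eq {ρ : E → ℝ} {δ : ℝ} (hρ : Supp δ ρ ∧ (∀ p, 0 ≤ ρ p) ∧ ∫ p, ρ p = 1) (q : E)
    {S : Set E} (hS : closedBall q δ ⊆ S) : ∫ x in S, ρ (x - q) = 1 := by
  have h1 : ∫ x, ρ (x - q) = 1 := by rw [integral_sub_right_eq_self, hρ.2.2]
  rw [← h1]
  refine setIntegral_eq_integral_of_forall_compl_eq_zero fun x hx => hρ.1.2 _ fun h => hx (hS ?_)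
  rwa [mem_closedBall, dist_zero_right, ← dist_eq_norm] at h

theorem isLoc_moll {ρ : E → ℝ} {δ r : ℝ} (hρ : Supp δ ρ) {q : E} (hq : ‖q‖ + δ ≤ r) {b : Bil}
    (hb : IsAlt b) : IsLoc r (fun x => ρ (x - q) • b) := by
  refine ⟨⟨(hρ.1.comp (contDiff_id.sub contDiff_const)).smul contDiff_const, fun x hx => ?_⟩,
    fun x => hb.smul _⟩
  have : ρ (x - q) = 0 := by
    refine hρ.2 _ fun h => hx ?_
    rw [mem_closedBall, dist_zero_right] at h ⊢
    have := norm_add_le (x - q) q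
    rw [sub_add_cancel] at this
    linarith
  simp only [this, zero_smul]

theorem del_int (T : 𝒜.PM) (j : Fin 𝒜.n) {g : Bil} {J : End} {c C : ℝ} (h : Herm g J c C) (w : E) :
    Integrable (fun y : E × E => Del g J w y.2) (T.tr j) := by
  obtain ⟨c', -, C', -, -, hs⟩ := PM.tr_supp (𝒜 := 𝒜)
  have hc : Continuous fun y : E × E => Del g J w y.2 := by
    unfold Del
    fun_prop
  refine Integrable.of_bound hc.aestronglyMeasurable (C ^ 2 * ‖w‖ ^ 2 * C' ^ 2) ?_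
  filter_upwards [hs T j] with y hy
  rw [Real.norm_eq_abs, abs_of_nonneg (h.Del_nonneg _ _)]
  refine (h.Del_le _ _).trans ?_
  have := pow_le_pow_left₀ (norm_nonneg _) hy.2.2 2
  gcongr

/-- the pointwise bound for the regularisation of a localised constant form -/
theorem Reg.point_aux (ℛ : 𝒜.Reg) (C₂ c₁ C₁ cT CT : ℝ) (hC₂ : 1 ≤ C₂) (hc₁ : 0 < c₁)
    (hCT : 1 ≤ CT) : ∃ c > 0, ∃ C ≥ 1, ∃ t₀ > 0, c ≤ 1 ∧ (C₂ + 1) * t₀ ≤ 1 / 4 ∧
    ∀ t ∈ Ioc (0 : ℝ) t₀, ∀ j,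
    ∀ p ∈ closedBall (0 : E) 2, ∀ w : E, c₁ ≤ ‖w‖ → ‖w‖ ≤ C₁ →
    ∀ q ∈ closedBall p (C₂ * t), ∀ u₁ u₂, Near (C₂ * t) w (𝒜.J j p w) u₁ u₂ →
    ∀ (ρ : E → ℝ) (δ : ℝ), Supp δ ρ ∧ (∀ p, 0 ≤ ρ p) ∧ ∫ p, ρ p = 1 → δ ≤ c * t →
    ∀ β : 𝒜.Form, β.1 j = (fun x => ρ (x - q) • hs (bv u₁ u₂)) →
    ∀ S : Set E, S ⊆ closedBall q (2 * c * t) →
    ∀ y : E × E, y.1 ∈ closedBall (0 : E) 3 ∧ cT ≤ ‖y.2‖ ∧ ‖y.2‖ ≤ CT →
      (Prod.fst ⁻¹' S).indicator (fun y : E × E => c / t ^ 4 * Del (𝒜.g j p) (𝒜.J j p) w y.2) y -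
        (Prod.fst ⁻¹' closedBall p (C * t)).indicator (fun _ => C / t ^ 2) y ≤
        lin (ℛ.R t β) j y := by
  obtain ⟨cH, CH, hCH, hH⟩ := herm (𝒜 := 𝒜) (r := 3) (by norm_num)
  obtain ⟨LJ, hLJ, hJ⟩ := J_lip (𝒜 := 𝒜) (r := 3) (by norm_num)
  obtain ⟨κ, hκ, K, hK, hd⟩ := det4_lower cH CH c₁ (max C₁ CT) hc₁
  obtain ⟨Ca, hCa, ca, hca, ta, hta, hCta, hca1, hpos⟩ := ℛ.pos1 (CH * CT)
  obtain ⟨Cj, hCj, tj, htj, hCtj, hjet⟩ := ℛ.jet 0
  obtain ⟨C₃, hC₃⟩ : ∃ x, x = C₂ + Cj + 1 := ⟨_, rfl⟩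
  obtain ⟨C', hC'⟩ : ∃ x, x = C₂ + Ca + LJ * C₃ * CT := ⟨_, rfl⟩
  have hC₃0 : 0 < C₃ := by linarith
  have hC'0 : 0 < C' := by rw [hC']; positivity
  obtain ⟨c, hc0, hcl, hcr⟩ : ∃ c > 0, c ≤ ca / 4 ∧ c ≤ κ * ca :=
    ⟨min (ca / 4) (κ * ca), by positivity, min_le_left _ _, min_le_right _ _⟩
  have hKK : 0 ≤ K * C' ^ 2 * Ca := by positivity
  have ht0 : 0 < min (min ta tj) (min (1 / (4 * C₃)) (1 / C')) := by positivity
  have hA : min (min ta tj) (min (1 / (4 * C₃)) (1 / C')) ≤ 1 / (4 * C₃) :=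
    (min_le_right _ _).trans (min_le_left _ _)
  refine ⟨c, hc0, C₃ + K * C' ^ 2 * Ca, by linarith, _, ht0, by linarith, ?_, ?_⟩
  · rw [le_div_iff₀ (by positivity)] at hA
    have := mul_le_mul_of_nonneg_right (show C₂ + 1 ≤ C₃ by linarith) ht0.le
    linarith
  intro t ht j p hp w hw hw' q hq u₁ u₂ hu ρ δ hρ hδ β hβ S hS y hy
  have htp := ht.1
  have h1 : t ≤ ta := ht.2.trans ((min_le_left _ _).trans (min_le_left _ _))
  have h2 : t ≤ tj := ht.2.trans ((min_le_left _ _).trans (min_le_right _ _))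
  have h3 : C₃ * t ≤ 1 / 4 := by
    have := ht.2.trans hA
    rw [le_div_iff₀ (by positivity)] at this
    linarith
  have h4 : C' * t ≤ 1 := by
    have : t ≤ 1 / C' := ht.2.trans ((min_le_right _ _).trans (min_le_right _ _))
    rwa [le_div_iff₀ hC'0, mul_comm] at this
  have hcat : c * t ≤ ca / 4 * t := mul_le_mul_of_nonneg_right hcl htp.le
  have hct : c * t ≤ t / 4 := by
    have := mul_le_mul_of_nonneg_right hca1 htp.le
    linarith
  have hCjt : t ≤ Cj * t := le_mul_of_one_le_left htp.le hCj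
  have eC3 : C₃ * t = C₂ * t + Cj * t + t := by rw [hC₃]; ring
  have hKt : 0 ≤ K * C' ^ 2 * Ca * t := by positivity
  have hp3 : p ∈ closedBall (0 : E) 3 := closedBall_subset_closedBall (by norm_num) hp
  have hHp := hH j p hp3
  have hqp : dist q p ≤ C₂ * t := hq
  by_cases hfar : (Cj + 1) * t < dist y.1 q
  · have hz : (ℛ.R t β).1 j y.1 = 0 := by
      have := hjet t ⟨htp, h2⟩ β j y.1 hy.1 0 fun x hx => jb0_iff.2 (by
        have : ρ (x - q) = 0 := by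
          refine hρ.1.2 _ fun h => ?_
          rw [mem_closedBall, dist_zero_right, ← dist_eq_norm] at h
          rw [mem_closedBall] at hx
          linarith [dist_triangle y.1 x q, dist_comm x y.1]
        rw [hβ]
        simp only [this, zero_smul, norm_zero, le_refl])
      rw [jb0_iff, mul_zero] at this
      exact norm_le_zero_iff.1 this
    have hS' : y ∉ Prod.fst ⁻¹' S := fun h => by
      have : dist y.1 q ≤ 2 * c * t := hS h
      linarith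
    rw [indicator_of_notMem hS', lin, hz]
    simp only [zero_apply, zero_sub, neg_nonpos]
    exact indicator_nonneg (fun _ _ => by positivity) _
  push Not at hfar
  have hyp : dist y.1 p ≤ C₃ * t := by linarith [dist_triangle y.1 q p]
  have hy52 : y.1 ∈ closedBall (0 : E) (5 / 2) := by
    rw [mem_closedBall] at hp ⊢
    linarith [dist_triangle y.1 p 0]
  have hin : y ∈ Prod.fst ⁻¹' closedBall p ((C₃ + K * C' ^ 2 * Ca) * t) := by
    show dist y.1 p ≤ _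
    linarith
  rw [indicator_of_mem hin]
  have hDel := hHp.Del_nonneg w y.2
  have hJy : ‖𝒜.J j y.1 y.2‖ ≤ CH * CT :=
    ((𝒜.J j y.1).le_opNorm _).trans
      (mul_le_mul (hH j y.1 hy.1).Jle hy.2.2 (norm_nonneg _) (by linarith))
  have hmain := hpos t ⟨htp, h1⟩ β j y.1 hy52 y.2 (𝒜.J j y.1 y.2) (hy.2.2.trans (le_mul_of_one_le_left (by linarith) hCH)) hJy
    (fun x => ρ (x - q)) (hs (bv u₁ u₂)) (κ * Del (𝒜.g j p) (𝒜.J j p) w y.2) (K * (C' * t) ^ 2)
    (hρ.1.1.continuous.comp (continuous_id.sub continuous_const)) (fun x => hρ.2.1 _)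
    (by positivity) (by positivity) (fun x _ => by rw [hβ]) (fun u₁' u₂' hu' => by
      rw [hs_bv_apply]
      have hLC : 0 ≤ LJ * C₃ * CT * t := by positivity
      have hCat : 0 ≤ Ca * t := by positivity
      have hC2t : 0 ≤ C₂ * t := by positivity
      have e1 : C' * t = C₂ * t + Ca * t + LJ * C₃ * CT * t := by rw [hC']; ring
      refine hd _ _ hHp (orient' j (cb_sub (by norm_num) hp3)) w y.2 hw
        (hw'.trans (le_max_left _ _)) (hy.2.2.trans (le_max_right _ _)) (C' * t) (by positivity) h4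
        u₁ u₂ u₁' u₂' ⟨by linarith [hu.1], by linarith [hu.2]⟩ ⟨by linarith [hu'.1], ?_⟩
      have e2 : u₂' - 𝒜.J j p y.2 = (u₂' - 𝒜.J j y.1 y.2) + (𝒜.J j y.1 - 𝒜.J j p) y.2 := by
        simp only [sub_apply]; abel
      have e3 : ‖(𝒜.J j y.1 - 𝒜.J j p) y.2‖ ≤ LJ * C₃ * CT * t := by
        refine ((𝒜.J j y.1 - 𝒜.J j p).le_opNorm _).trans ?_
        have h5 := hJ j p hp3 y.1 hy.1
        rw [← dist_eq_norm y.1 p] at h5
        have h6 : ‖𝒜.J j y.1 - 𝒜.J j p‖ ≤ LJ * (C₃ * t) :=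
          h5.trans (mul_le_mul_of_nonneg_left hyp (by linarith))
        calc _ ≤ LJ * (C₃ * t) * CT := mul_le_mul h6 hy.2.2 (norm_nonneg _) (by positivity)
          _ = _ := by ring
      rw [e2]
      linarith [norm_add_le (u₂' - 𝒜.J j y.1 y.2) ((𝒜.J j y.1 - 𝒜.J j p) y.2), hu'.2])
  refine le_trans ?_ hmain
  have hneg : K * (C' * t) ^ 2 * (Ca / t ^ 4 * ∫ x in closedBall y.1 (Ca * t), ρ (x - q)) ≤
      (C₃ + K * C' ^ 2 * Ca) / t ^ 2 := by
    calc _ ≤ K * (C' * t) ^ 2 * (Ca / t ^ 4 * 1) := by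
          gcongr
          exact moll_int_le hρ q _
      _ = K * C' ^ 2 * Ca / t ^ 2 := by field_simp
      _ ≤ _ := by gcongr; linarith
  have hposi : (Prod.fst ⁻¹' S).indicator
      (fun y : E × E => c / t ^ 4 * Del (𝒜.g j p) (𝒜.J j p) w y.2) y ≤
      κ * Del (𝒜.g j p) (𝒜.J j p) w y.2 *
        (ca / t ^ 4 * ∫ x in closedBall y.1 (ca * t), ρ (x - q)) := by
    by_cases hyS : y ∈ Prod.fst ⁻¹' S
    · rw [indicator_of_mem hyS, moll_int_eq hρ q]
      · calc _ ≤ κ * ca / t ^ 4 * Del (𝒜.g j p) (𝒜.J j p) w y.2 := by gcongr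
          _ = _ := by ring
      · have h7 : dist y.1 q ≤ 2 * c * t := hS hyS
        refine closedBall_subset_closedBall' ?_
        rw [dist_comm]
        linarith [mul_pos hca htp]
    · rw [indicator_of_notMem hyS]
      have : 0 ≤ ∫ x in closedBall y.1 (ca * t), ρ (x - q) := integral_nonneg fun x => hρ.2.1 _
      positivity
  linarith

theorem Reg.rep_T_point (ℛ : 𝒜.Reg) (C₂ c₁ C₁ : ℝ) (hC₂ : 1 ≤ C₂) (hc₁ : 0 < c₁) :
    ∃ c > 0, ∃ C ≥ 1, ∃ t₀ > 0, c ≤ 1 ∧ ∀ t ∈ Ioc (0 : ℝ) t₀, ∀ (T : 𝒜.PM) (η : 𝒜.Form),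
    Rep η (T.cur ∘ₗ ℛ.R t) → ∀ j, ∀ p ∈ closedBall (0 : E) 2, ∀ w : E, c₁ ≤ ‖w‖ → ‖w‖ ≤ C₁ →
    ∀ q ∈ closedBall p (C₂ * t), ∀ u₁ u₂, Near (C₂ * t) w (𝒜.J j p w) u₁ u₂ →
      -(C / t ^ 2 * bm (T.tr j) p (C * t)) ≤ η.1 j q u₁ u₂ ∧
      (q ∈ closedBall p (c * t) →
        c / t ^ 4 * ∫ y in Prod.fst ⁻¹' closedBall p (c * t),
          Del (𝒜.g j p) (𝒜.J j p) w y.2 ∂(T.tr j) - C / t ^ 2 * bm (T.tr j) p (C * t) ≤
        η.1 j q u₁ u₂) := by
  obtain ⟨cT, -, CT, hCT, -, hsupp⟩ := PM.tr_supp (𝒜 := 𝒜)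
  obtain ⟨c, hc, C, hC, t₀, ht₀, hc1, hCt, haux⟩ := ℛ.point_aux C₂ c₁ C₁ cT CT hC₂ hc₁ hCT
  obtain ⟨ts, hts, hsR⟩ := ℛ.supp_R
  obtain ⟨cH, CH, hCH, hH⟩ := herm (𝒜 := 𝒜) (r := 3) (by norm_num)
  refine ⟨c, hc, C, hC, min t₀ ts, by positivity, hc1, ?_⟩
  intro t ht T η hη j p hp w hw hw' q hq u₁ u₂ hu
  have htp := ht.1
  have h1 : t ≤ t₀ := ht.2.trans (min_le_left _ _)
  have h2 : t ≤ ts := ht.2.trans (min_le_right _ _)
  have h3 : (C₂ + 1) * t ≤ 1 / 4 := (mul_le_mul_of_nonneg_left h1 (by linarith)).trans hCt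
  have hct : c * t ≤ t := by nlinarith
  have hq2 : ‖q‖ ≤ 2 + C₂ * t := by
    rw [mem_closedBall, dist_zero_right] at hp
    rw [mem_closedBall, dist_eq_norm] at hq
    have := norm_add_le (q - p) p
    rw [sub_add_cancel] at this
    linarith
  have hC2t : t ≤ C₂ * t := by nlinarith
  set δ : ℕ → ℝ := fun n => c * t * (1 / ((n : ℝ) + 1)) with hδ
  have hδp : ∀ n, 0 < δ n := fun n => by positivity
  have hδl : ∀ n, δ n ≤ c * t := fun n => by
    have : 1 / ((n : ℝ) + 1) ≤ 1 := by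
      rw [div_le_one (by positivity)]
      linarith [Nat.cast_nonneg (α := ℝ) n]
    exact mul_le_of_le_one_right (by positivity) this
  have hδt : Tendsto δ atTop (𝓝 0) := by
    simpa only [mul_zero] using tendsto_one_div_add_atTop_nhds_zero_nat.const_mul (c * t)
  choose ρ hρ using fun n => exists_moll (δ n) (hδp n)
  have hlim := (loc_limit η j (p := q) (by rw [mem_closedBall, dist_zero_right]; linarith) hρ hδt
    (fun n => by linarith [hδl n]) (hs_alt (bv u₁ u₂))).2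
  rw [WL_hs_bv (Form.alt η j q)] at hlim
  have hHp := hH j p (closedBall_subset_closedBall (by norm_num) hp)
  have key : ∀ S : Set E, MeasurableSet S → S ⊆ closedBall q (2 * c * t) →
      c / t ^ 4 * ∫ y in Prod.fst ⁻¹' S, Del (𝒜.g j p) (𝒜.J j p) w y.2 ∂(T.tr j) -
        C / t ^ 2 * bm (T.tr j) p (C * t) ≤ η.1 j q u₁ u₂ := by
    intro S hSm hS
    refine ge_of_tendsto' hlim fun n => ?_
    have hloc : IsLoc (11 / 4) (fun x => ρ n (x - q) • hs (bv u₁ u₂)) :=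
      isLoc_moll (hρ n).1 (by linarith [hδl n]) (hs_alt _)
    rw [hη, LinearMap.comp_apply, T.cur_local j _ (hsR t ⟨htp, h2⟩ j _ hloc)]
    have hm1 : MeasurableSet (Prod.fst ⁻¹' S : Set (E × E)) := measurable_fst hSm
    have hm2 : MeasurableSet (Prod.fst ⁻¹' closedBall p (C * t) : Set (E × E)) :=
      measurable_fst measurableSet_closedBall
    have hi1 : Integrable ((Prod.fst ⁻¹' S).indicator
        (fun y : E × E => c / t ^ 4 * Del (𝒜.g j p) (𝒜.J j p) w y.2)) (T.tr j) :=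
      ((del_int T j hHp w).const_mul _).indicator hm1
    have hi2 : Integrable ((Prod.fst ⁻¹' closedBall p (C * t)).indicator
        (fun _ : E × E => C / t ^ 2)) (T.tr j) := (integrable_const _).indicator hm2
    refine le_trans (le_of_eq ?_) (integral_mono_ae (hi1.sub hi2) (T.lin_int_tr _ j) ?_)
    · simp only [Pi.sub_apply]
      rw [integral_sub hi1 hi2, integral_indicator hm1, integral_indicator hm2, integral_const_mul,
        setIntegral_const, smul_eq_mul, bm, mul_comm (C / t ^ 2)]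
    · filter_upwards [hsupp T j] with y hy
      exact haux t ⟨htp, h1⟩ j p hp w hw hw' q hq u₁ u₂ hu (ρ n) (δ n) (hρ n) (hδl n) _
        (ext_self j (by norm_num) hloc) S hS y hy
  refine ⟨?_, fun hqc => key _ measurableSet_closedBall (closedBall_subset_closedBall' ?_)⟩
  · simpa using key ∅ MeasurableSet.empty (empty_subset _)
  · rw [dist_comm]
    have : dist q p ≤ c * t := hqc
    linarith

end Atlas

end

end Vale.Agent.P204
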